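import Mathlib

open MeasureTheory ENNReal Set

namespace Vale.Agent.P262F

namespace PL1aux

/-- One-dimensional Brunn-Minkowski with weights, compact sets. -/
theorem bm_compact {l : ℝ} (hl0 : 0 < l) (hl1 : l < 1) {K₁ K₂ C : Set ℝ}
    (h1 : IsCompact K₁) (h2 : IsCompact K₂) (n1 : K₁.Nonempty) (n2 : K₂.Nonempty)
    (H : ∀ x ∈ K₁, ∀ y ∈ K₂, (1 - l) * x + l * y ∈ C) :
    ENNReal.ofReal (1 - l) * volume K₁ + ENNReal.ofReal l * volume K₂ ≤ volume C := by
  have hm : 0 < 1 - l := by linarith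
  obtain ⟨a, haK, ha⟩ := h1.exists_isGreatest n1
  obtain ⟨b, hbK, hb⟩ := h2.exists_isLeast n2
  set S₁ : Set ℝ := (fun z : ℝ => (1 - l)⁻¹ * z) ⁻¹'
    ((fun z : ℝ => z + -((1 - l)⁻¹ * (l * b))) ⁻¹' K₁) with hS₁
  set S₂ : Set ℝ := (fun z : ℝ => l⁻¹ * z) ⁻¹'
    ((fun z : ℝ => z + -(l⁻¹ * ((1 - l) * a))) ⁻¹' K₂) with hS₂
  have v1 : volume S₁ = ENNReal.ofReal (1 - l) * volume K₁ := by
    rw [hS₁, Real.volume_preimage_mul_left (inv_ne_zero hm.ne'),
      measure_preimage_add_right, inv_inv, abs_of_pos hm]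
  have v2 : volume S₂ = ENNReal.ofReal l * volume K₂ := by
    rw [hS₂, Real.volume_preimage_mul_left (inv_ne_zero hl0.ne'),
      measure_preimage_add_right, inv_inv, abs_of_pos hl0]
  have sub : S₁ ∪ S₂ ⊆ C := by
    rintro z (hz | hz)
    · have := H ((1 - l)⁻¹ * z + -((1 - l)⁻¹ * (l * b))) hz b hbK
      have e : (1 - l) * ((1 - l)⁻¹ * z + -((1 - l)⁻¹ * (l * b))) + l * b = z := by
        field_simp
        ring
      rwa [e] at this
    · have := H a haK (l⁻¹ * z + -(l⁻¹ * ((1 - l) * a))) hz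
      have e : (1 - l) * a + l * (l⁻¹ * z + -(l⁻¹ * ((1 - l) * a))) = z := by
        field_simp
        ring
      rwa [e] at this
  have inter : S₁ ∩ S₂ ⊆ {(1 - l) * a + l * b} := by
    rintro z ⟨hz1, hz2⟩
    have i1 : (1 - l)⁻¹ * z + -((1 - l)⁻¹ * (l * b)) ≤ a := ha hz1
    have i2 : b ≤ l⁻¹ * z + -(l⁻¹ * ((1 - l) * a)) := hb hz2
    have j1 : (1 - l) * ((1 - l)⁻¹ * z + -((1 - l)⁻¹ * (l * b))) ≤ (1 - l) * a :=
      mul_le_mul_of_nonneg_left i1 hm.le
    have j2 : l * b ≤ l * (l⁻¹ * z + -(l⁻¹ * ((1 - l) * a))) :=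
      mul_le_mul_of_nonneg_left i2 hl0.le
    have e1 : (1 - l) * ((1 - l)⁻¹ * z + -((1 - l)⁻¹ * (l * b))) = z - l * b := by
      field_simp
      ring
    have e2 : l * (l⁻¹ * z + -(l⁻¹ * ((1 - l) * a))) = z - (1 - l) * a := by
      field_simp
      ring
    rw [e1] at j1
    rw [e2] at j2
    rw [mem_singleton_iff]
    linarith
  have i0 : volume (S₁ ∩ S₂) = 0 := measure_mono_null inter (by simp)
  have m2 : MeasurableSet S₂ := by
    have : MeasurableSet K₂ := h2.measurableSet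
    exact (measurable_const_mul l⁻¹) ((measurable_id.add_const _) this)
  have key : volume (S₁ ∪ S₂) = volume S₁ + volume S₂ := by
    have := measure_union_add_inter (μ := (volume : Measure ℝ)) S₁ m2
    rwa [i0, add_zero] at this
  rw [← v1, ← v2, ← key]
  exact measure_mono (μ := (volume : Measure ℝ)) sub

/-- One-dimensional Brunn-Minkowski with weights, measurable sets. -/
theorem bm {l : ℝ} (hl0 : 0 < l) (hl1 : l < 1) {A B C : Set ℝ}
    (hA : MeasurableSet A) (hB : MeasurableSet B)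
    (nA : A.Nonempty) (nB : B.Nonempty)
    (H : ∀ x ∈ A, ∀ y ∈ B, (1 - l) * x + l * y ∈ C) :
    ENNReal.ofReal (1 - l) * volume A + ENNReal.ofReal l * volume B ≤ volume C := by
  have hm : 0 < 1 - l := by linarith
  obtain ⟨a, ha⟩ := nA
  obtain ⟨b, hb⟩ := nB
  set u : ℝ≥0∞ := ENNReal.ofReal (1 - l) with hu
  set v : ℝ≥0∞ := ENNReal.ofReal l with hv
  have ut : u ≠ ∞ := ENNReal.ofReal_ne_top
  have vt : v ≠ ∞ := ENNReal.ofReal_ne_top
  have s0 : ∀ K₁ ⊆ A, IsCompact K₁ → ∀ K₂ ⊆ B, IsCompact K₂ →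
      u * volume K₁ + v * volume K₂ ≤ volume C := by
    intro K₁ hK1 c1 K₂ hK2 c2
    calc u * volume K₁ + v * volume K₂
        ≤ u * volume (insert a K₁) + v * volume (insert b K₂) := by
          gcongr <;> exact subset_insert _ _
      _ ≤ volume C := by
          refine bm_compact hl0 hl1 (c1.insert a) (c2.insert b) ⟨a, by simp⟩ ⟨b, by simp⟩ ?_
          intro x hx y hy
          refine H x ?_ y ?_
          · rcases hx with rfl | hx
            · exact ha
            · exact hK1 hx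
          · rcases hy with rfl | hy
            · exact hb
            · exact hK2 hy
  have s1 : ∀ K₂ ⊆ B, IsCompact K₂ → u * volume A + v * volume K₂ ≤ volume C := by
    intro K₂ hK2 c2
    have fin : v * volume K₂ ≠ ∞ := ENNReal.mul_ne_top vt c2.measure_lt_top.ne
    have le0 : v * volume K₂ ≤ volume C := by
      have := s0 ∅ (empty_subset _) isCompact_empty K₂ hK2 c2
      simpa using this
    have : u * volume A ≤ volume C - v * volume K₂ := by
      rw [hA.measure_eq_iSup_isCompact, ENNReal.mul_iSup]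
      refine iSup_le fun K₁ => ?_
      rw [ENNReal.mul_iSup]
      refine iSup_le fun hK1 => ?_
      rw [ENNReal.mul_iSup]
      refine iSup_le fun c1 => ?_
      exact ENNReal.le_sub_of_add_le_right fin (s0 K₁ hK1 c1 K₂ hK2 c2)
    calc u * volume A + v * volume K₂
        ≤ (volume C - v * volume K₂) + v * volume K₂ := by gcongr
      _ = volume C := tsub_add_cancel_of_le le0
  have le0 : u * volume A ≤ volume C := by
    have := s1 ∅ (empty_subset _) isCompact_empty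
    simpa using this
  by_cases hAt : u * volume A = ∞
  · rw [hAt, top_le_iff] at le0
    rw [le0]
    exact le_top
  · have : v * volume B ≤ volume C - u * volume A := by
      rw [hB.measure_eq_iSup_isCompact, ENNReal.mul_iSup]
      refine iSup_le fun K₁ => ?_
      rw [ENNReal.mul_iSup]
      refine iSup_le fun hK1 => ?_
      rw [ENNReal.mul_iSup]
      refine iSup_le fun c1 => ?_
      exact ENNReal.le_sub_of_add_le_left hAt (s1 K₁ hK1 c1)
    calc u * volume A + v * volume B ≤ u * volume A + (volume C - u * volume A) := by gcongr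
      _ = volume C := add_tsub_cancel_of_le le0

/-- Weighted arithmetic-geometric mean inequality in the extended nonnegative reals. -/
theorem amgm {l : ℝ} (hl0 : 0 < l) (hl1 : l < 1) (A B : ℝ≥0∞) :
    A ^ (1 - l) * B ^ l ≤ ENNReal.ofReal (1 - l) * A + ENNReal.ofReal l * B := by
  have hm : 0 < 1 - l := by linarith
  by_cases hA : A = ∞
  · have : ENNReal.ofReal (1 - l) * A = ∞ := by
      rw [hA]; exact ENNReal.mul_top (by simpa using hm)
    rw [this, top_add]; exact le_top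
  by_cases hB : B = ∞
  · have : ENNReal.ofReal l * B = ∞ := by
      rw [hB]; exact ENNReal.mul_top (by simpa using hl0)
    rw [this, add_top]; exact le_top
  lift A to NNReal using hA
  lift B to NNReal using hB
  have h := NNReal.geom_mean_le_arith_mean2_weighted (1 - l).toNNReal l.toNNReal A B (by
    rw [← Real.toNNReal_add hm.le hl0.le]; norm_num)
  rw [Real.coe_toNNReal _ hm.le, Real.coe_toNNReal _ hl0.le] at h
  rw [← ENNReal.coe_rpow_of_nonneg _ hm.le, ← ENNReal.coe_rpow_of_nonneg _ hl0.le]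
  change ((A ^ (1 - l) : NNReal) : ℝ≥0∞) * ((B ^ l : NNReal) : ℝ≥0∞)
    ≤ ((1 - l).toNNReal : ℝ≥0∞) * (A : ℝ≥0∞) + (l.toNNReal : ℝ≥0∞) * (B : ℝ≥0∞)
  exact_mod_cast h

/-- Normalised one-dimensional inequality. -/
theorem one_norm {l : ℝ} (hl0 : 0 < l) (hl1 : l < 1) {φ ψ χ : ℝ → ℝ}
    (mφ : Measurable φ) (mψ : Measurable ψ) (mχ : Measurable χ)
    (φ0 : ∀ x, 0 ≤ φ x) (ψ0 : ∀ x, 0 ≤ ψ x) (χ0 : ∀ x, 0 ≤ χ x)
    (φ1 : ∀ x, φ x ≤ 1) (ψ1 : ∀ x, ψ x ≤ 1)
    (sφ : ∀ t < 1, ∃ x, t < φ x) (sψ : ∀ t < 1, ∃ x, t < ψ x)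
    (H : ∀ x y, φ x ^ (1 - l) * ψ y ^ l ≤ χ ((1 - l) * x + l * y)) :
    ENNReal.ofReal (1 - l) * (∫⁻ x, ENNReal.ofReal (φ x))
      + ENNReal.ofReal l * (∫⁻ x, ENNReal.ofReal (ψ x))
      ≤ ∫⁻ x, ENNReal.ofReal (χ x) := by
  have hm : 0 < 1 - l := by linarith
  rw [lintegral_eq_lintegral_meas_lt _ (Filter.Eventually.of_forall φ0) mφ.aemeasurable,
    lintegral_eq_lintegral_meas_lt _ (Filter.Eventually.of_forall ψ0) mψ.aemeasurable,
    lintegral_eq_lintegral_meas_lt _ (Filter.Eventually.of_forall χ0) mχ.aemeasurable,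
    ← lintegral_const_mul' _ _ ENNReal.ofReal_ne_top,
    ← lintegral_const_mul' _ _ ENNReal.ofReal_ne_top]
  refine (le_lintegral_add _ _).trans ?_
  refine setLIntegral_mono' measurableSet_Ioi ?_
  intro t ht
  have ht0 : (0 : ℝ) < t := ht
  rcases lt_or_ge t 1 with h1 | h1
  · refine bm hl0 hl1 (mφ measurableSet_Ioi) (mψ measurableSet_Ioi) (sφ t h1) (sψ t h1) ?_
    intro x hx y hy
    have hx' : t < φ x := hx
    have hy' : t < ψ y := hy
    have h3 := H x y
    have h4 : t ^ (1 - l) < φ x ^ (1 - l) := Real.rpow_lt_rpow ht0.le hx' hm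
    have h5 : t ^ l < ψ y ^ l := Real.rpow_lt_rpow ht0.le hy' hl0
    have h6 : t ^ (1 - l) * t ^ l = t := by
      rw [← Real.rpow_add ht0]
      norm_num
    have h7 : t ^ (1 - l) * t ^ l < φ x ^ (1 - l) * ψ y ^ l :=
      mul_lt_mul h4 h5.le (Real.rpow_pos_of_pos ht0 _) (Real.rpow_nonneg (φ0 x) _)
    change t < χ ((1 - l) * x + l * y)
    linarith
  · have e1 : {a : ℝ | t < φ a} = ∅ := by
      ext x; simp only [mem_ofPred_eq, mem_empty_iff_false, iff_false, not_lt]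
      exact (φ1 x).trans h1
    have e2 : {a : ℝ | t < ψ a} = ∅ := by
      ext x; simp only [mem_ofPred_eq, mem_empty_iff_false, iff_false, not_lt]
      exact (ψ1 x).trans h1
    simp [e1, e2]

/-- One-dimensional Prekopa-Leindler, bounded functions. -/
theorem one_bdd {l : ℝ} (hl0 : 0 < l) (hl1 : l < 1) {f g h : ℝ → ℝ≥0∞}
    (hf : Measurable f) (hg : Measurable g) (hh : Measurable h)
    {M : ℝ≥0∞} (hM : M ≠ ∞) (fM : ∀ x, f x ≤ M) (gM : ∀ x, g x ≤ M)
    (H : ∀ x y, f x ^ (1 - l) * g y ^ l ≤ h ((1 - l) * x + l * y)) :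
    (∫⁻ x, f x) ^ (1 - l) * (∫⁻ x, g x) ^ l ≤ ∫⁻ x, h x := by
  have hm : 0 < 1 - l := by linarith
  set F : ℝ≥0∞ := ⨆ x, f x with hF
  set G : ℝ≥0∞ := ⨆ x, g x with hG
  have fF : ∀ x, f x ≤ F := fun x => le_iSup f x
  have gG : ∀ x, g x ≤ G := fun x => le_iSup g x
  have Ft : F ≠ ∞ := ne_top_of_le_ne_top hM (iSup_le fM)
  have Gt : G ≠ ∞ := ne_top_of_le_ne_top hM (iSup_le gM)
  by_cases F0 : F = 0
  · have : ∀ x, f x = 0 := fun x => le_antisymm (F0 ▸ fF x) bot_le
    simp [this, ENNReal.zero_rpow_of_pos hm]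
  by_cases G0 : G = 0
  · have : ∀ x, g x = 0 := fun x => le_antisymm (G0 ▸ gG x) bot_le
    simp [this, ENNReal.zero_rpow_of_pos hl0]
  obtain ⟨s, hs⟩ : ∃ s : ℝ≥0∞, s = F ^ (1 - l) * G ^ l := ⟨_, rfl⟩
  have Fl0 : F ^ (1 - l) ≠ 0 := by
    rw [Ne, ENNReal.rpow_eq_zero_iff_of_pos hm]; exact F0
  have Gl0 : G ^ l ≠ 0 := by
    rw [Ne, ENNReal.rpow_eq_zero_iff_of_pos hl0]; exact G0
  have Flt : F ^ (1 - l) ≠ ∞ := ENNReal.rpow_ne_top_of_nonneg hm.le Ft
  have Glt : G ^ l ≠ ∞ := ENNReal.rpow_ne_top_of_nonneg hl0.le Gt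
  have s0 : s ≠ 0 := by
    rw [hs]; exact mul_ne_zero Fl0 Gl0
  have st : s ≠ ∞ := by
    rw [hs]; exact ENNReal.mul_ne_top Flt Glt
  -- normalised functions
  have fin1 : ∀ x, f x / F ≠ ∞ := fun x => ENNReal.div_ne_top (ne_top_of_le_ne_top Ft (fF x)) F0
  have fin2 : ∀ x, g x / G ≠ ∞ := fun x => ENNReal.div_ne_top (ne_top_of_le_ne_top Gt (gG x)) G0
  have fin3 : ∀ x, min (h x) s / s ≠ ∞ := fun x =>
    ENNReal.div_ne_top (ne_top_of_le_ne_top st (min_le_right _ _)) s0
  have key := one_norm hl0 hl1 (φ := fun x => (f x / F).toReal) (ψ := fun x => (g x / G).toReal)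
    (χ := fun x => (min (h x) s / s).toReal)
    ((hf.div_const F).ennreal_toReal) ((hg.div_const G).ennreal_toReal)
    (((hh.min measurable_const).div_const s).ennreal_toReal)
    (fun x => ENNReal.toReal_nonneg) (fun x => ENNReal.toReal_nonneg)
    (fun x => ENNReal.toReal_nonneg)
    (fun x => by
      have : f x / F ≤ 1 := ENNReal.div_le_of_le_mul (by simpa using fF x)
      exact ENNReal.toReal_le_of_le_ofReal zero_le_one (by simpa using this))
    (fun x => by
      have : g x / G ≤ 1 := ENNReal.div_le_of_le_mul (by simpa using gG x)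
      exact ENNReal.toReal_le_of_le_ofReal zero_le_one (by simpa using this))
    (fun t ht => by
      by_contra hcon
      push Not at hcon
      rcases lt_or_ge t 0 with h0 | h0
      · exact absurd (hcon 0) (not_le.2 (lt_of_lt_of_le h0 ENNReal.toReal_nonneg))
      have hle : ∀ x, f x ≤ ENNReal.ofReal t * F := by
        intro x
        have h1 : f x / F ≤ ENNReal.ofReal t :=
          ENNReal.le_ofReal_iff_toReal_le (fin1 x) h0 |>.2 (hcon x)
        exact (ENNReal.div_le_iff F0 Ft).1 h1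
      have h2 : F ≤ ENNReal.ofReal t * F := iSup_le hle
      have h3 : ENNReal.ofReal t * F < 1 * F := by
        rw [ENNReal.mul_lt_mul_iff_left F0 Ft]
        simpa using ht
      rw [one_mul] at h3
      exact absurd h2 (not_le.2 h3))
    (fun t ht => by
      by_contra hcon
      push Not at hcon
      rcases lt_or_ge t 0 with h0 | h0
      · exact absurd (hcon 0) (not_le.2 (lt_of_lt_of_le h0 ENNReal.toReal_nonneg))
      have hle : ∀ x, g x ≤ ENNReal.ofReal t * G := by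
        intro x
        have h1 : g x / G ≤ ENNReal.ofReal t :=
          ENNReal.le_ofReal_iff_toReal_le (fin2 x) h0 |>.2 (hcon x)
        exact (ENNReal.div_le_iff G0 Gt).1 h1
      have h2 : G ≤ ENNReal.ofReal t * G := iSup_le hle
      have h3 : ENNReal.ofReal t * G < 1 * G := by
        rw [ENNReal.mul_lt_mul_iff_left G0 Gt]
        simpa using ht
      rw [one_mul] at h3
      exact absurd h2 (not_le.2 h3))
    (fun x y => by
      rw [ENNReal.toReal_rpow, ENNReal.toReal_rpow, ← ENNReal.toReal_mul]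
      refine ENNReal.toReal_mono (fin3 _) ?_
      have hle : f x ^ (1 - l) * g y ^ l ≤ min (h ((1 - l) * x + l * y)) s := by
        refine le_min (H x y) ?_
        rw [hs]
        exact mul_le_mul' (ENNReal.rpow_le_rpow (fF x) hm.le) (ENNReal.rpow_le_rpow (gG y) hl0.le)
      calc (f x / F) ^ (1 - l) * (g y / G) ^ l = (f x ^ (1 - l) * g y ^ l) / s := by
            rw [ENNReal.div_rpow_of_nonneg _ _ hm.le, ENNReal.div_rpow_of_nonneg _ _ hl0.le, hs,
              div_eq_mul_inv, div_eq_mul_inv, div_eq_mul_inv,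
              ENNReal.mul_inv (Or.inl Fl0) (Or.inl Flt)]
            ring
        _ ≤ min (h ((1 - l) * x + l * y)) s / s := by gcongr)
  simp only [ENNReal.ofReal_toReal (fin1 _), ENNReal.ofReal_toReal (fin2 _),
    ENNReal.ofReal_toReal (fin3 _)] at key
  have e1 : (∫⁻ x, f x / F) = (∫⁻ x, f x) / F := by
    simp only [div_eq_mul_inv]
    rw [lintegral_mul_const' _ _ (ENNReal.inv_ne_top.2 F0)]
  have e2 : (∫⁻ x, g x / G) = (∫⁻ x, g x) / G := by
    simp only [div_eq_mul_inv]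
    rw [lintegral_mul_const' _ _ (ENNReal.inv_ne_top.2 G0)]
  have e3 : (∫⁻ x, min (h x) s / s) ≤ (∫⁻ x, h x) / s := by
    simp only [div_eq_mul_inv]
    rw [← lintegral_mul_const' _ _ (ENNReal.inv_ne_top.2 s0)]
    exact lintegral_mono fun x => by gcongr; exact min_le_left _ _
  rw [e1, e2] at key
  have k2 := key.trans e3
  have amgm : ((∫⁻ x, f x) / F) ^ (1 - l) * ((∫⁻ x, g x) / G) ^ l ≤ (∫⁻ x, h x) / s := by
    refine le_trans ?_ k2
    exact amgm hl0 hl1 _ _
  calc (∫⁻ x, f x) ^ (1 - l) * (∫⁻ x, g x) ^ l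
      = s * (((∫⁻ x, f x) / F) ^ (1 - l) * ((∫⁻ x, g x) / G) ^ l) := by
        rw [ENNReal.div_rpow_of_nonneg _ _ hm.le, ENNReal.div_rpow_of_nonneg _ _ hl0.le, hs,
          show F ^ (1 - l) * G ^ l * ((∫⁻ x, f x) ^ (1 - l) / F ^ (1 - l)
            * ((∫⁻ x, g x) ^ l / G ^ l))
            = (F ^ (1 - l) * ((∫⁻ x, f x) ^ (1 - l) / F ^ (1 - l)))
              * (G ^ l * ((∫⁻ x, g x) ^ l / G ^ l)) by ring,
          ENNReal.mul_div_cancel Fl0 Flt, ENNReal.mul_div_cancel Gl0 Glt]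
    _ ≤ s * ((∫⁻ x, h x) / s) := by gcongr
    _ = ∫⁻ x, h x := by rw [ENNReal.mul_div_cancel s0 st]

end PL1aux

/-- One-dimensional Prekopa-Leindler inequality (Lebesgue measure). -/
theorem pl_one {f g h : ℝ → ℝ≥0∞} (hf : Measurable f) (hg : Measurable g) (hh : Measurable h)
    {l : ℝ} (hl0 : 0 < l) (hl1 : l < 1)
    (H : ∀ x y, f x ^ (1 - l) * g y ^ l ≤ h ((1 - l) * x + l * y)) :
    (∫⁻ x, f x) ^ (1 - l) * (∫⁻ x, g x) ^ l ≤ ∫⁻ x, h x := by
  have hm : 0 < 1 - l := by linarith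
  have ef : ∀ x, f x = ⨆ n : ℕ, min (f x) n := by
    intro x
    rw [← inf_iSup_eq, ENNReal.iSup_natCast, inf_top_eq]
  have eg : ∀ x, g x = ⨆ n : ℕ, min (g x) n := by
    intro x
    rw [← inf_iSup_eq, ENNReal.iSup_natCast, inf_top_eq]
  have mf : Monotone fun (n : ℕ) (x : ℝ) => min (f x) (n : ℝ≥0∞) := by
    intro n m hnm x
    exact min_le_min le_rfl (by exact_mod_cast hnm)
  have mg : Monotone fun (n : ℕ) (x : ℝ) => min (g x) (n : ℝ≥0∞) := by
    intro n m hnm x
    exact min_le_min le_rfl (by exact_mod_cast hnm)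
  have If : ∫⁻ x, f x = ⨆ n : ℕ, ∫⁻ x, min (f x) n := by
    rw [← lintegral_iSup (fun n => hf.min measurable_const) mf]
    exact lintegral_congr ef
  have Ig : ∫⁻ x, g x = ⨆ n : ℕ, ∫⁻ x, min (g x) n := by
    rw [← lintegral_iSup (fun n => hg.min measurable_const) mg]
    exact lintegral_congr eg
  have Jf : (∫⁻ x, f x) ^ (1 - l) = ⨆ n : ℕ, (∫⁻ x, min (f x) n) ^ (1 - l) := by
    rw [If]
    exact (ENNReal.orderIsoRpow (1 - l) hm).map_iSup _
  have Jg : (∫⁻ x, g x) ^ l = ⨆ n : ℕ, (∫⁻ x, min (g x) n) ^ l := by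
    rw [Ig]
    exact (ENNReal.orderIsoRpow l hl0).map_iSup _
  rw [Jf, Jg, ENNReal.iSup_mul]
  refine iSup_le fun n => ?_
  rw [ENNReal.mul_iSup]
  refine iSup_le fun m => ?_
  refine PL1aux.one_bdd hl0 hl1 (hf.min measurable_const) (hg.min measurable_const) hh
    (M := max (n : ℝ≥0∞) m) (by simp) (fun x => (min_le_right _ _).trans (le_max_left _ _))
    (fun x => (min_le_right _ _).trans (le_max_right _ _)) ?_
  intro x y
  exact (mul_le_mul' (ENNReal.rpow_le_rpow (min_le_left _ _) hm.le)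
    (ENNReal.rpow_le_rpow (min_le_left _ _) hl0.le)).trans (H x y)

end Vale.Agent.P262F
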