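import Vale.Agent.Lib.P262F.KLProd

open MeasureTheory ProbabilityTheory Set

namespace Vale.Agent.P262F

set_option linter.unusedSectionVars false

variable {E : Type*} [NormedAddCommGroup E] [InnerProductSpace ℝ E]
    [FiniteDimensional ℝ E] [MeasurableSpace E] [BorelSpace E]

/-- The operation `K * u`: chords in direction `u` of length at least `2 |u|` are extended by
`u` on both sides, the other chords are removed. -/
def starSet (K : Set E) (u : E) : Set E :=
  {z | ∃ τ ∈ Icc (-2 : ℝ) 2, z + (τ + 1) • u ∈ K ∧ z + (τ - 1) • u ∈ K}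

/-- The standard Gaussian measure splits along a unit vector. -/
theorem stdGaussian_split' {e : E} (he : ‖e‖ = 1) :
    ∃ (n : ℕ) (L : (Fin n → ℝ) →ₗ[ℝ] E),
      stdGaussian E = ((gaussianReal 0 1).prod (gaussPi n)).map (fun p => p.1 • e + L p.2) := by
  have hE : 0 < Module.finrank ℝ E := by
    rw [Module.finrank_pos_iff_exists_ne_zero]
    exact ⟨e, by intro h; rw [h, norm_zero] at he; exact zero_ne_one he⟩
  obtain ⟨n, hn⟩ : ∃ n, Module.finrank ℝ E = n + 1 := ⟨Module.finrank ℝ E - 1, by omega⟩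
  have hon : Orthonormal ℝ (({0} : Set (Fin (n + 1))).domRestrict (fun _ => e)) := by
    constructor
    · intro i; exact he
    · intro i j hij
      exfalso; apply hij
      ext
      have h1 := i.2
      have h2 := j.2
      simp only [mem_singleton_iff] at h1 h2
      rw [h1, h2]
  obtain ⟨b, hb⟩ := hon.exists_orthonormalBasis_extension_of_card_eq
    (by rw [hn, Fintype.card_fin])
  have hb0 : b 0 = e := hb 0 rfl
  refine ⟨n, Fintype.linearCombination ℝ (fun i : Fin n => b i.succ), ?_⟩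
  rw [stdGaussian_eq_map_pi_orthonormalBasis b]
  have hmp := (measurePreserving_piFinSuccAbove (n := n)
    (fun _ : Fin (n + 1) => gaussianReal 0 1) 0).symm
  rw [← hmp.map_eq, Measure.map_map (by fun_prop) hmp.measurable]
  congr 1
  ext p
  simp only [Function.comp]
  rw [Fin.sum_univ_succ, hb0, Fintype.linearCombination_apply]
  rfl

theorem starSet_convex {K : Set E} (hK : Convex ℝ K) (u : E) : Convex ℝ (starSet K u) := by
  rintro x ⟨s, hs, hx1, hx2⟩ y ⟨t, ht, hy1, hy2⟩ a b ha hb hab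
  obtain rfl : b = 1 - a := by linarith
  refine ⟨a * s + (1 - a) * t, ?_, ?_, ?_⟩
  · exact (convex_Icc (-2 : ℝ) 2) hs ht ha hb hab
  · have e1 : a • x + (1 - a) • y + (a * s + (1 - a) * t + 1) • u =
        a • (x + (s + 1) • u) + (1 - a) • (y + (t + 1) • u) := by
      module
    rw [e1]
    exact hK hx1 hy1 ha hb hab
  · have e1 : a • x + (1 - a) • y + (a * s + (1 - a) * t - 1) • u =
        a • (x + (s - 1) • u) + (1 - a) • (y + (t - 1) • u) := by
      module
    rw [e1]
    exact hK hx2 hy2 ha hb hab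

theorem starSet_closed {K : Set E} (hc : IsClosed K) (u : E) : IsClosed (starSet K u) := by
  have h1 : IsClosed {p : Icc (-2 : ℝ) 2 × E |
      p.2 + ((p.1 : ℝ) + 1) • u ∈ K ∧ p.2 + ((p.1 : ℝ) - 1) • u ∈ K} := by
    refine IsClosed.inter ?_ ?_
    · exact hc.preimage (by fun_prop : Continuous fun p : Icc (-2 : ℝ) 2 × E =>
        p.2 + ((p.1 : ℝ) + 1) • u)
    · exact hc.preimage (by fun_prop : Continuous fun p : Icc (-2 : ℝ) 2 × E =>
        p.2 + ((p.1 : ℝ) - 1) • u)
  have h2 := isClosedMap_snd_of_compactSpace _ h1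
  convert h2 using 1
  ext z
  constructor
  · rintro ⟨t, ht, h3, h4⟩
    exact ⟨(⟨t, ht⟩, z), ⟨h3, h4⟩, rfl⟩
  · rintro ⟨p, ⟨h3, h4⟩, rfl⟩
    exact ⟨p.1, p.1.2, h3, h4⟩

theorem starSet_symm {K : Set E} (hs : ∀ x ∈ K, -x ∈ K) (u : E) :
    ∀ x ∈ starSet K u, -x ∈ starSet K u := by
  rintro x ⟨t, ht, h1, h2⟩
  refine ⟨-t, ⟨by linarith [ht.2], by linarith [ht.1]⟩, ?_, ?_⟩
  · have e1 : -x + (-t + 1) • u = -(x + (t - 1) • u) := by module
    rw [e1]
    exact hs _ h2
  · have e1 : -x + (-t - 1) • u = -(x + (t + 1) • u) := by module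
    rw [e1]
    exact hs _ h1

theorem starSet_sub {K : Set E} (hK : Convex ℝ K) (u : E) {z : E} (hz : z ∈ starSet K u) :
    z + u ∈ K ∨ z - u ∈ K := by
  obtain ⟨t, ht, h1, h2⟩ := hz
  rcases le_total 0 t with h0 | h0
  · left
    -- `1 = (t/2) (t-1) + (1 - t/2) (t+1)`
    have e1 : z + u = (1 - t / 2) • (z + (t + 1) • u) + (t / 2) • (z + (t - 1) • u) := by
      module
    rw [e1]
    exact hK h1 h2 (by linarith [ht.2]) (by linarith) (by ring)
  · right
    have e1 : z - u = (-t / 2) • (z + (t + 1) • u) + (1 + t / 2) • (z + (t - 1) • u) := by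
      module
    rw [e1]
    exact hK h1 h2 (by linarith) (by linarith [ht.1]) (by ring)

theorem kl {K : Set E} (hK : Convex ℝ K) (hc : IsClosed K)
    (hm : 1 / 2 ≤ (stdGaussian E).real K) {u : E} (hu : ‖u‖ ≤ 1 / 20) :
    (stdGaussian E).real K ≤ (stdGaussian E).real (starSet K u) := by
  by_cases hu0 : u = 0
  · refine measureReal_mono ?_ (measure_ne_top _ _)
    intro z hz
    exact ⟨0, ⟨by norm_num, by norm_num⟩, by simpa [hu0] using hz, by simpa [hu0] using hz⟩
  have hδ : 0 < ‖u‖ := norm_pos_iff.2 hu0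
  have he : ‖(‖u‖⁻¹ • u : E)‖ = 1 := by
    rw [norm_smul, norm_inv, norm_norm, inv_mul_cancel₀ hδ.ne']
  have hue : ‖u‖ • (‖u‖⁻¹ • u : E) = u := by
    rw [smul_smul, mul_inv_cancel₀ hδ.ne', one_smul]
  set e : E := ‖u‖⁻¹ • u with hedef
  obtain ⟨n, L, hL⟩ := stdGaussian_split' he
  have hLc : Continuous L := LinearMap.continuous_of_finiteDimensional L
  have hcont : Continuous (fun p : ℝ × (Fin n → ℝ) => p.1 • e + L p.2) := by fun_prop
  have h1 : (stdGaussian E).real K =
      ((gaussianReal 0 1).prod (gaussPi n)).real ((fun p => p.1 • e + L p.2) ⁻¹' K) := by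
    rw [hL, map_measureReal_apply hcont.measurable hc.measurableSet]
  have h2 : (stdGaussian E).real (starSet K u) =
      ((gaussianReal 0 1).prod (gaussPi n)).real
        ((fun p => p.1 • e + L p.2) ⁻¹' (starSet K u)) := by
    rw [hL, map_measureReal_apply hcont.measurable (starSet_closed hc u).measurableSet]
  have h3 : (fun p : ℝ × (Fin n → ℝ) => p.1 • e + L p.2) ⁻¹' (starSet K u) =
      starProd ‖u‖ ((fun p : ℝ × (Fin n → ℝ) => p.1 • e + L p.2) ⁻¹' K) := by
    ext p
    have e1 : ∀ c : ℝ, p.1 • e + L p.2 + c • u = (p.1 + c * ‖u‖) • e + L p.2 := by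
      intro c
      rw [add_smul, mul_smul, hue]
      abel
    simp only [mem_preimage, starSet, starProd, mem_ofPred_eq, e1]
  have hK' : Convex ℝ ((fun p : ℝ × (Fin n → ℝ) => p.1 • e + L p.2) ⁻¹' K) := by
    intro x hx y hy a b ha hb hab
    simp only [mem_preimage] at hx hy ⊢
    have e1 : (a • x + b • y).1 • e + L (a • x + b • y).2 =
        a • (x.1 • e + L x.2) + b • (y.1 • e + L y.2) := by
      simp only [Prod.fst_add, Prod.smul_fst, Prod.snd_add, Prod.smul_snd, map_add, map_smul,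
        smul_eq_mul]
      module
    rw [e1]
    exact hK hx hy ha hb hab
  rw [h1] at hm
  rw [h1, h2, h3]
  exact kl_prod hK' (hc.preimage hcont) hm hδ hu

/-- The inductive form of the prefix signing theorem. -/
theorem prefix_aux (N : ℕ) : ∀ (u : Fin N → E), (∀ i, ‖u i‖ ≤ 1 / 20) → ∀ (K : ℕ → Set E),
    (∀ i, Convex ℝ (K i)) → (∀ i, IsClosed (K i)) → (∀ i, ∀ x ∈ K i, -x ∈ K i) →
    (∑ i ∈ Finset.range (N + 1), (1 - (stdGaussian E).real (K i)) ≤ 1 / 2) →
    ∃ C : Set E, Convex ℝ C ∧ IsClosed C ∧ (∀ x ∈ C, -x ∈ C) ∧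
      1 - ∑ i ∈ Finset.range (N + 1), (1 - (stdGaussian E).real (K i)) ≤ (stdGaussian E).real C ∧
      ∀ z ∈ C, ∃ ε : Fin N → ℝ, (∀ i, ε i = 1 ∨ ε i = -1) ∧
        ∀ m ≤ N, z + ∑ i ∈ Finset.univ.filter (fun i : Fin N => (i : ℕ) < m), ε i • u i ∈ K m := by
  induction N with
  | zero =>
    intro u hu K hK hc hs hm
    refine ⟨K 0, hK 0, hc 0, hs 0, by simp, fun z hz => ⟨fun i => i.elim0, fun i => i.elim0, ?_⟩⟩
    intro m hm'
    have : m = 0 := by omega
    subst this
    simpa using hz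
  | succ N ih =>
    intro u hu K hK hc hs hm
    have hnn : ∀ i, 0 ≤ 1 - (stdGaussian E).real (K i) := fun i =>
      sub_nonneg.2 measureReal_le_one
    have hsplit : ∑ i ∈ Finset.range (N + 1 + 1), (1 - (stdGaussian E).real (K i)) =
        ∑ i ∈ Finset.range (N + 1), (1 - (stdGaussian E).real (K (i + 1))) +
          (1 - (stdGaussian E).real (K 0)) := Finset.sum_range_succ' _ _
    have hm1 : ∑ i ∈ Finset.range (N + 1), (1 - (stdGaussian E).real (K (i + 1))) ≤ 1 / 2 := by
      have := hnn 0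
      linarith
    obtain ⟨C, hC1, hC2, hC3, hC4, hC5⟩ := ih (fun i => u i.succ) (fun i => hu _)
      (fun i => K (i + 1)) (fun i => hK _) (fun i => hc _) (fun i => hs _) hm1
    have hhalf : 1 / 2 ≤ (stdGaussian E).real C := by linarith
    have hkl := kl hC1 hC2 hhalf (hu 0)
    have hint : (stdGaussian E).real (K 0) + (stdGaussian E).real (starSet C (u 0)) - 1 ≤
        (stdGaussian E).real (K 0 ∩ starSet C (u 0)) := by
      have h1 := measureReal_union_add_inter (μ := stdGaussian E) (s := K 0)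
        (t := starSet C (u 0)) (starSet_closed hC2 (u 0)).measurableSet
      have h2 : (stdGaussian E).real (K 0 ∪ starSet C (u 0)) ≤ 1 := measureReal_le_one
      linarith
    refine ⟨K 0 ∩ starSet C (u 0), (hK 0).inter (starSet_convex hC1 _),
      (hc 0).inter (starSet_closed hC2 _),
      fun x hx => ⟨hs 0 x hx.1, starSet_symm hC3 _ x hx.2⟩, ?_, ?_⟩
    · linarith
    · rintro z ⟨hz0, hz1⟩
      obtain ⟨ε0, hε0, hzC⟩ : ∃ ε0 : ℝ, (ε0 = 1 ∨ ε0 = -1) ∧ z + ε0 • u 0 ∈ C := by
        rcases starSet_sub hC1 _ hz1 with h | h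
        · exact ⟨1, Or.inl rfl, by simpa using h⟩
        · exact ⟨-1, Or.inr rfl, by simpa [sub_eq_add_neg] using h⟩
      obtain ⟨ε, hε, hε2⟩ := hC5 _ hzC
      refine ⟨Fin.cons ε0 ε, ?_, ?_⟩
      · intro i
        refine Fin.cases ?_ (fun j => ?_) i
        · simpa using hε0
        · simpa using hε j
      · intro m hm'
        rcases Nat.eq_zero_or_pos m with rfl | hmpos
        · simpa using hz0
        · obtain ⟨k, rfl⟩ : ∃ k, m = k + 1 := ⟨m - 1, by omega⟩
          have h1 := hε2 k (by omega)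
          have e1 : ∑ i ∈ Finset.univ.filter (fun i : Fin (N + 1) => (i : ℕ) < k + 1),
              (Fin.cons ε0 ε : Fin (N + 1) → ℝ) i • u i = ε0 • u 0 +
              ∑ i ∈ Finset.univ.filter (fun i : Fin N => (i : ℕ) < k), ε i • u i.succ := by
            rw [Finset.sum_filter, Finset.sum_filter, Fin.sum_univ_succ]
            simp
          rw [e1, ← add_assoc]
          exact h1

/-- Banaszczyk's prefix signing theorem for symmetric closed convex bodies. -/
theorem prefix_bodies {N : ℕ} (u : Fin N → E) (hu : ∀ i, ‖u i‖ ≤ 1 / 20) (K : ℕ → Set E)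
    (hK : ∀ i, Convex ℝ (K i)) (hc : ∀ i, IsClosed (K i)) (hs : ∀ i, ∀ x ∈ K i, -x ∈ K i)
    (hm : ∑ i ∈ Finset.range (N + 1), (1 - (stdGaussian E).real (K i)) ≤ 1 / 2) :
    ∃ ε : Fin N → ℝ, (∀ i, ε i = 1 ∨ ε i = -1) ∧
      ∀ m ≤ N, ∑ i ∈ Finset.univ.filter (fun i : Fin N => (i : ℕ) < m), ε i • u i ∈ K m := by
  obtain ⟨C, hC1, _, hC3, hC4, hC5⟩ := prefix_aux N u hu K hK hc hs hm
  have hne : C.Nonempty := by
    by_contra h
    rw [not_nonempty_iff_eq_empty] at h
    rw [h] at hC4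
    simp only [measureReal_empty] at hC4
    linarith
  obtain ⟨x, hx⟩ := hne
  have h0 : (0 : E) ∈ C := by
    have h1 := hC1 hx (hC3 x hx) (by norm_num : (0 : ℝ) ≤ 1 / 2) (by norm_num : (0 : ℝ) ≤ 1 / 2)
      (by norm_num)
    have e1 : (1 / 2 : ℝ) • x + (1 / 2 : ℝ) • -x = 0 := by module
    rwa [e1] at h1
  obtain ⟨ε, hε, hε2⟩ := hC5 0 h0
  exact ⟨ε, hε, fun m hm' => by simpa using hε2 m hm'⟩

end Vale.Agent.P262F
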