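import Vale.Agent.Lib.P262F.ClockSum

/-! Estimates for the bias used in the healed splits. -/

namespace Vale.Agent.P262F

open Finset Real

variable {α : Type} {d : ℕ} {p : Par d} {v : α → Fin d → ℝ} {s : ℕ} {V : Finset α}
  {x y Lx Ly ε : Fin d → ℝ}

/-! ### powers of two -/

theorem bias_mono {a b : ℝ} (h : a ≤ b) : (2 : ℝ) ^ a ≤ (2 : ℝ) ^ b :=
  Real.rpow_le_rpow_of_exponent_le (by norm_num) h

theorem bias_add (a b : ℝ) : (2 : ℝ) ^ (a + b) = (2 : ℝ) ^ a * (2 : ℝ) ^ b :=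
  Real.rpow_add (by norm_num) a b

theorem bias_pos (a : ℝ) : 0 < (2 : ℝ) ^ a := Real.rpow_pos_of_pos (by norm_num) a

theorem bias_sqrt (a : ℝ) : √((2 : ℝ) ^ a) = (2 : ℝ) ^ (a / 2) := by
  rw [Real.sqrt_eq_rpow, ← Real.rpow_mul (by norm_num)]
  congr 1
  ring

theorem bias_lin {z : ℝ} (hz : 76000 ≤ z) : 2 * z ≤ (2 : ℝ) ^ (z / 50) := by
  have h1 : (2 : ℝ) ^ (z / 50) = ((2 : ℝ) ^ (z / 100)) ^ 2 := by
    rw [← Real.rpow_natCast, ← Real.rpow_mul (by norm_num)]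
    congr 1
    push_cast
    ring
  have h2 : z / 100 * (69 / 100) ≤ (2 : ℝ) ^ (z / 100) := by
    rw [Real.rpow_def_of_pos (by norm_num)]
    have h3 := Real.add_one_le_exp (Real.log 2 * (z / 100))
    have h4 := Real.log_two_gt_d9
    nlinarith
  rw [h1]
  have h3 : (z / 100 * (69 / 100)) ^ 2 ≤ ((2 : ℝ) ^ (z / 100)) ^ 2 :=
    pow_le_pow_left₀ (by linarith) h2 2
  nlinarith

theorem bias_mu (s : ℕ) (l : Fin d) : p.mu s l = (2 : ℝ) ^ (-(p.xx s l)) := rfl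

theorem bias_mt (s : ℕ) (l : Fin d) :
    p.mu (s + p.hs s) l = (2 : ℝ) ^ (-(p.xx s l) - p.hs s) := by
  unfold Par.mu
  rw [p.xx_add]
  congr 1
  ring

theorem bias_mt_rpow (s : ℕ) (l : Fin d) (a : ℝ) :
    (p.mu (s + p.hs s) l) ^ a = (2 : ℝ) ^ (a * (-(p.xx s l) - p.hs s)) := by
  rw [bias_mt, ← Real.rpow_mul (by norm_num)]
  congr 1
  ring

theorem bias_CR (s : ℕ) : p.CR ≤ (2 : ℝ) ^ ((p.hs s : ℝ) / 100) := by
  refine p.hCRh.trans (bias_mono ?_)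
  have h1 : (p.h0 : ℝ) ≤ p.hs s := by exact_mod_cast p.h0_le_hs s
  linarith

/-- a suitable threshold above an active coordinate -/
theorem bias_above {l : Fin d} (hl : l ∈ p.act s) : ∃ g : ℝ, (s : ℝ) ≤ g ∧ l ∈ p.lev s g ∧
    p.nact s g ≤ (2 : ℝ) ^ (3 / 100 * -(p.xx s l)) := by
  obtain ⟨g, hg1, hg2⟩ := p.exists_above l
  have h1 : (s : ℝ) ≤ p.tau l := p.mem_act.1 hl
  refine ⟨g, h1.trans hg1.le, ?_, ?_⟩
  · rw [p.mem_lev]
    refine ⟨?_, hg1⟩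
    have h2 := p.act_xx hl
    have h3 := p.hs_ge s
    have h4 := p.eta_ge l
    linarith
  · unfold Par.nact
    have h2 : (p.act s).filter (fun k => p.tau k < g) =
        (p.act s).filter (fun k => p.tau k ≤ p.tau l) :=
      Finset.filter_congr fun k _ => hg2 k
    rw [h2]
    exact p.card_below_act hl

theorem clip_abs_le (t : ℝ) {c : ℝ} (hc : 0 ≤ c) : |Par.clip t c| ≤ c := by
  unfold Par.clip
  rw [abs_le]
  constructor
  · exact le_max_left _ _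
  · exact max_le (by linarith) (min_le_left _ _)

theorem w_abs_le (R : Raw p v s V x y) {j : ℕ} (h0 : 0 < j) (h1 : j < 2 ^ p.hs s)
    {l : Fin d} (hl : l ∈ p.act s) :
    |R.w j l| ≤ (p.mu (s + p.hs s) l) ^ (-(5 / 8) : ℝ) := by
  have hmt : 0 < p.mu (s + p.hs s) l := p.mu_pos _ l
  rw [R.heal j h0 h1 l hl, abs_div, abs_neg, abs_of_pos hmt]
  have h2 := clip_abs_le ((1 - j / 2 ^ p.hs s) * x l + (j / 2 ^ p.hs s) * y l + R.e j l)
    (Real.rpow_nonneg hmt.le (3 / 8 : ℝ))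
  rw [div_le_iff₀ hmt]
  refine h2.trans (le_of_eq ?_)
  nth_rewrite 3 [← Real.rpow_one (p.mu (s + p.hs s) l)]
  rw [← Real.rpow_add hmt]
  norm_num

/-- energy of an active coordinate in a node -/
theorem energy_V (I : p.Inv v s V x y Lx Ly ε) {l : Fin d} (hl : l ∈ p.act s) :
    ∑ a ∈ V, v a l ^ 2 ≤ 3 / 2 * p.mu s l := by
  obtain ⟨g, hg, hlg, hn⟩ := bias_above hl
  have h1 := I.row l hl g hg
  have h2 := (abs_le_n2 hlg (p.rdev v s V l)).trans h1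
  have hY := p.act_xx hl
  have hh := p.hs_ge s
  set Y : ℝ := -(p.xx s l) with hYd
  have hmu : p.mu s l = (2 : ℝ) ^ Y := rfl
  have h3 : p.rdev v s V l l = ∑ a ∈ V, v a l ^ 2 - p.mu s l := by
    unfold Par.rdev
    rw [if_pos rfl]
    congr 1
    exact Finset.sum_congr rfl fun a _ => (sq (v a l)).symm
  have h4 : √(1 + p.nact s g) ≤ (2 : ℝ) ^ (Y / 50) := by
    have h5 : 1 + p.nact s g ≤ (2 : ℝ) ^ (Y / 25) := by
      have h6 : (1 : ℝ) ≤ (2 : ℝ) ^ (3 / 100 * Y) := Real.one_le_rpow (by norm_num) (by linarith)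
      have h7 : (2 : ℝ) ^ (1 : ℝ) * (2 : ℝ) ^ (3 / 100 * Y) ≤ (2 : ℝ) ^ (Y / 25) := by
        rw [← bias_add]
        exact bias_mono (by linarith)
      rw [Real.rpow_one] at h7
      linarith
    calc √(1 + p.nact s g) ≤ √((2 : ℝ) ^ (Y / 25)) := Real.sqrt_le_sqrt h5
      _ = (2 : ℝ) ^ (Y / 50) := by rw [bias_sqrt]; congr 1; ring
  have h5 : (p.mu s l) ^ (1 / 10 : ℝ) * √(1 + p.nact s g) ≤ (2 : ℝ) ^ (Y - 2) := by
    rw [hmu, ← Real.rpow_mul (by norm_num)]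
    calc (2 : ℝ) ^ (Y * (1 / 10)) * √(1 + p.nact s g)
        ≤ (2 : ℝ) ^ (Y * (1 / 10)) * (2 : ℝ) ^ (Y / 50) :=
          mul_le_mul_of_nonneg_left h4 (bias_pos _).le
      _ = (2 : ℝ) ^ (Y * (1 / 10) + Y / 50) := (bias_add _ _).symm
      _ ≤ (2 : ℝ) ^ (Y - 2) := bias_mono (by linarith)
  have h6 : √(p.mu s l) ≤ (2 : ℝ) ^ (Y - 2) := by
    rw [hmu, bias_sqrt]
    exact bias_mono (by linarith)
  have h7 : (2 : ℝ) ^ (Y - 2) = (2 : ℝ) ^ Y / 4 := by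
    rw [Real.rpow_sub (by norm_num)]
    norm_num
  have h8 := (abs_le.1 h2).2
  rw [h3] at h8
  rw [hmu] at h8 h5 h6 ⊢
  linarith

/-- the size of the error terms attached to an active coordinate -/
theorem bias_err {l : Fin d} (hl : l ∈ p.act s) {g : ℝ} (hg : (s : ℝ) ≤ g)
    (hn : p.nact s g ≤ (2 : ℝ) ^ (3 / 100 * -(p.xx s l))) :
    4 * p.CR * ((p.lev s g).card + 3 * p.hs s - p.xx s l) ≤ (2 : ℝ) ^ (-(p.xx s l) / 25) := by
  have hY := p.act_xx hl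
  have hh := p.hs_ge s
  set Y : ℝ := -(p.xx s l) with hYd
  have h1 : ((p.lev s g).card : ℝ) ≤ 2 * (2 : ℝ) ^ (3 / 100 * Y) := by
    rw [p.card_lev_le s hg]
    have h2 := p.card_tr_le s
    have h3 : (2 : ℝ) ^ (103 / 100 * (p.hs s : ℝ)) ≤ (2 : ℝ) ^ (3 / 100 * Y) :=
      bias_mono (by linarith)
    linarith
  have h2 : 3 * (p.hs s : ℝ) + Y ≤ (2 : ℝ) ^ (3 / 100 * Y) := by
    have h3 := bias_lin (z := Y) (by linarith)
    have h4 : (2 : ℝ) ^ (Y / 50) ≤ (2 : ℝ) ^ (3 / 100 * Y) := bias_mono (by linarith)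
    linarith
  have h3 : p.CR ≤ (2 : ℝ) ^ (Y / 1000) :=
    (bias_CR s).trans (bias_mono (by linarith))
  have h4 : (p.lev s g).card + 3 * (p.hs s : ℝ) - p.xx s l ≤ 3 * (2 : ℝ) ^ (3 / 100 * Y) := by
    have : (p.lev s g).card + 3 * (p.hs s : ℝ) - p.xx s l =
      (p.lev s g).card + (3 * (p.hs s : ℝ) + Y) := by rw [hYd]; ring
    rw [this]
    linarith
  have hCR0 : 0 ≤ p.CR := le_trans zero_le_one p.hCR
  calc 4 * p.CR * ((p.lev s g).card + 3 * (p.hs s : ℝ) - p.xx s l)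
      ≤ 4 * p.CR * (3 * (2 : ℝ) ^ (3 / 100 * Y)) :=
        mul_le_mul_of_nonneg_left h4 (by linarith)
    _ = 12 * (p.CR * (2 : ℝ) ^ (3 / 100 * Y)) := by ring
    _ ≤ (2 : ℝ) ^ (4 : ℝ) * ((2 : ℝ) ^ (Y / 1000) * (2 : ℝ) ^ (3 / 100 * Y)) := by
        have h5 : (2 : ℝ) ^ (4 : ℝ) = 16 := by
          rw [show (4 : ℝ) = ((4 : ℕ) : ℝ) by norm_num, Real.rpow_natCast]
          norm_num
        rw [h5]
        have h6 : p.CR * (2 : ℝ) ^ (3 / 100 * Y) ≤ (2 : ℝ) ^ (Y / 1000) * (2 : ℝ) ^ (3 / 100 * Y) :=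
          mul_le_mul_of_nonneg_right h3 (bias_pos _).le
        have h7 : 0 ≤ p.CR * (2 : ℝ) ^ (3 / 100 * Y) := mul_nonneg hCR0 (bias_pos _).le
        linarith
    _ = (2 : ℝ) ^ (4 + (Y / 1000 + 3 / 100 * Y)) := by rw [bias_add, bias_add]
    _ ≤ (2 : ℝ) ^ (Y / 25) := bias_mono (by linarith)

/-- energy of an active coordinate in the blocks `U j` -/
theorem energy_U (R : Raw p v s V x y) (I : p.Inv v s V x y Lx Ly ε) {j : ℕ} (h0 : 0 < j)
    (h1 : j < 2 ^ p.hs s) {l : Fin d} (hl : l ∈ p.act s) :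
    ∑ a ∈ R.U j, v a l ^ 2 ≤ 2 * p.mu (s + p.hs s) l := by
  obtain ⟨g, hg, hlg, hn⟩ := bias_above hl
  have h2 := (R.U_row j h0 h1 l hl g hg).trans (bias_err hl hg hn)
  have hY := p.act_xx hl
  have hh := p.hs_ge s
  have hV := energy_V I hl
  set Y : ℝ := -(p.xx s l) with hYd
  have h3 : (∑ a ∈ R.U j, v a l * v a l - (∑ a ∈ V, v a l * v a l) / 2 ^ p.hs s) ^ 2 ≤
      (2 : ℝ) ^ (Y / 25) := by
    refine le_trans ?_ h2
    exact Finset.single_le_sum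
      (f := fun k => (∑ a ∈ R.U j, v a l * v a k - (∑ a ∈ V, v a l * v a k) / 2 ^ p.hs s) ^ 2)
      (fun _ _ => sq_nonneg _) hlg
  have h4 : ∑ a ∈ R.U j, v a l * v a l - (∑ a ∈ V, v a l * v a l) / 2 ^ p.hs s ≤
      (2 : ℝ) ^ (Y / 50) := by
    have h5 : (2 : ℝ) ^ (Y / 25) = ((2 : ℝ) ^ (Y / 50)) ^ 2 := by
      rw [← Real.rpow_natCast, ← Real.rpow_mul (by norm_num)]
      congr 1
      push_cast
      ring
    rw [h5] at h3
    exact (abs_le.1 (abs_le_of_sq_le_sq h3 (bias_pos _).le)).2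
  have h5 : ∀ T : Finset α, ∑ a ∈ T, v a l * v a l = ∑ a ∈ T, v a l ^ 2 := fun T =>
    Finset.sum_congr rfl fun a _ => (sq (v a l)).symm
  rw [h5, h5] at h4
  have hmt : p.mu (s + p.hs s) l = p.mu s l / 2 ^ p.hs s := p.mu_add s (p.hs s) l
  have h6 : (∑ a ∈ V, v a l ^ 2) / 2 ^ p.hs s ≤ 3 / 2 * p.mu (s + p.hs s) l := by
    rw [hmt, ← mul_div_assoc]
    exact div_le_div_of_nonneg_right hV (by positivity)
  have h7 : (2 : ℝ) ^ (Y / 50) ≤ 1 / 2 * p.mu (s + p.hs s) l := by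
    have h8 : p.mu (s + p.hs s) l = (2 : ℝ) ^ (Y - p.hs s) := bias_mt s l
    have h9 : 1 / 2 * (2 : ℝ) ^ (Y - p.hs s) = (2 : ℝ) ^ (Y - p.hs s - 1) := by
      rw [Real.rpow_sub (by norm_num) (Y - p.hs s) 1, Real.rpow_one]
      ring
    rw [h8, h9]
    exact bias_mono (by linarith)
  linarith

/-- a coordinate of a vector of norm at most one -/
theorem bias_abs_le_one (hv : ∀ a, ∑ k, v a k ^ 2 ≤ 1) (a : α) (l : Fin d) : |v a l| ≤ 1 := by
  have h1 : v a l ^ 2 ≤ 1 := le_trans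
    (Finset.single_le_sum (f := fun k => v a k ^ 2) (fun _ _ => sq_nonneg _) (Finset.mem_univ l))
    (hv a)
  exact abs_le_one_iff_mul_self_le_one.2 (by nlinarith)

theorem bet_abs_le (hv : ∀ a, ∑ k, v a k ^ 2 ≤ 1) (R : Raw p v s V x y) {j : ℕ}
    (hj : j ≤ 2 ^ p.hs s) {a : α} (ha : a ∈ R.U j) :
    |p.bet v s (R.w j) a| ≤ (2 : ℝ) ^ (-(20 * (p.hs s : ℝ))) := by
  have hh := p.hs_ge s
  have h0 : 0 < j := by
    rcases Nat.eq_zero_or_pos j with h | h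
    · rw [h, R.U_zero] at ha
      simp at ha
    · exact h
  have h1 : j < 2 ^ p.hs s := by
    rcases hj.eq_or_lt with h | h
    · rw [h, R.U_top] at ha
      simp at ha
    · exact h
  unfold Par.bet
  calc |∑ l ∈ p.act s, R.w j l * v a l| ≤ ∑ l ∈ p.act s, |R.w j l * v a l| :=
        Finset.abs_sum_le_sum_abs _ _
    _ ≤ ∑ l ∈ p.act s, (p.mu (s + p.hs s) l) ^ (-(5 / 8) : ℝ) := by
        refine Finset.sum_le_sum fun l hl => ?_
        rw [abs_mul]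
        calc |R.w j l| * |v a l| ≤ |R.w j l| * 1 :=
              mul_le_mul_of_nonneg_left (bias_abs_le_one hv a l) (abs_nonneg _)
          _ ≤ _ := by rw [mul_one]; exact w_abs_le R h0 h1 hl
    _ ≤ (2 : ℝ) ^ ((-(39 * (5 / 8 - cc)) + 5 / 8 + 1) * (p.hs s : ℝ)) :=
        p.sum_mu_le s (by unfold cc; norm_num)
    _ ≤ (2 : ℝ) ^ (-(20 * (p.hs s : ℝ))) := by
        refine bias_mono ?_
        unfold cc
        nlinarith

/-- sharper form of `bet_n2_le` -/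
theorem bias_bet_n2 (R : Raw p v s V x y) (I : p.Inv v s V x y Lx Ly ε) {j : ℕ}
    (hj : j ≤ 2 ^ p.hs s) :
    n2 (R.U j) (p.bet v s (R.w j)) ≤ (2 : ℝ) ^ (-(7 / 2 * (p.hs s : ℝ))) := by
  have hh := p.hs_ge s
  rcases Nat.eq_zero_or_pos j with h | h0
  · rw [h, R.U_zero]
    unfold n2
    simp only [Finset.sum_empty, Real.sqrt_zero]
    exact (bias_pos _).le
  rcases hj.eq_or_lt with h | h1
  · rw [h, R.U_top]
    unfold n2
    simp only [Finset.sum_empty, Real.sqrt_zero]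
    exact (bias_pos _).le
  have h2 : n2 (R.U j) (p.bet v s (R.w j)) ≤
      ∑ l ∈ p.act s, n2 (R.U j) (fun a => R.w j l * v a l) :=
    n2_sum_le (R.U j) (p.act s) (fun l a => R.w j l * v a l)
  refine h2.trans ?_
  have h3 : ∀ l ∈ p.act s, n2 (R.U j) (fun a => R.w j l * v a l) ≤
      (2 : ℝ) ^ (1 / 2 : ℝ) * (p.mu (s + p.hs s) l) ^ (-(1 / 8) : ℝ) := by
    intro l hl
    have hmt : 0 < p.mu (s + p.hs s) l := p.mu_pos _ l
    rw [n2_smul]
    have h4 : n2 (R.U j) (fun a => v a l) ≤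
        (2 : ℝ) ^ (1 / 2 : ℝ) * (p.mu (s + p.hs s) l) ^ (1 / 2 : ℝ) := by
      rw [← Real.mul_rpow (by norm_num) hmt.le, ← Real.sqrt_eq_rpow]
      exact n2_le_sqrt (energy_U R I h0 h1 hl)
    calc |R.w j l| * n2 (R.U j) (fun a => v a l)
        ≤ (p.mu (s + p.hs s) l) ^ (-(5 / 8) : ℝ) *
          ((2 : ℝ) ^ (1 / 2 : ℝ) * (p.mu (s + p.hs s) l) ^ (1 / 2 : ℝ)) :=
          mul_le_mul (w_abs_le R h0 h1 hl) h4 (n2_nonneg _ _) (Real.rpow_nonneg hmt.le _)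
      _ = (2 : ℝ) ^ (1 / 2 : ℝ) * ((p.mu (s + p.hs s) l) ^ (-(5 / 8) : ℝ) *
          (p.mu (s + p.hs s) l) ^ (1 / 2 : ℝ)) := by ring
      _ = (2 : ℝ) ^ (1 / 2 : ℝ) * (p.mu (s + p.hs s) l) ^ (-(1 / 8) : ℝ) := by
          rw [← Real.rpow_add hmt]
          norm_num
  refine (Finset.sum_le_sum h3).trans ?_
  rw [← Finset.mul_sum]
  calc (2 : ℝ) ^ (1 / 2 : ℝ) * ∑ l ∈ p.act s, (p.mu (s + p.hs s) l) ^ (-(1 / 8) : ℝ)
      ≤ (2 : ℝ) ^ (1 / 2 : ℝ) *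
        (2 : ℝ) ^ ((-(39 * (1 / 8 - cc)) + 1 / 8 + 1) * (p.hs s : ℝ)) :=
        mul_le_mul_of_nonneg_left (p.sum_mu_le s (by unfold cc; norm_num)) (bias_pos _).le
    _ = (2 : ℝ) ^ (1 / 2 + (-(39 * (1 / 8 - cc)) + 1 / 8 + 1) * (p.hs s : ℝ)) :=
        (bias_add _ _).symm
    _ ≤ (2 : ℝ) ^ (-(7 / 2 * (p.hs s : ℝ))) := by
        refine bias_mono ?_
        unfold cc
        nlinarith

theorem bet_n2_le (R : Raw p v s V x y) (I : p.Inv v s V x y Lx Ly ε) {j : ℕ}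
    (hj : j ≤ 2 ^ p.hs s) :
    n2 (R.U j) (p.bet v s (R.w j)) ≤ (2 : ℝ) ^ (-(3 * (p.hs s : ℝ))) := by
  have hh := p.hs_ge s
  exact (bias_bet_n2 R I hj).trans (bias_mono (by linarith))

/-- error of one row in the healing drift -/
theorem bias_row_err (R : Raw p v s V x y) (I : p.Inv v s V x y Lx Ly ε) {j : ℕ} (h0 : 0 < j)
    (h1 : j < 2 ^ p.hs s) {g : ℝ} (hg : (s : ℝ) ≤ g) {l : Fin d} (hl : l ∈ p.act s) :
    n2 (p.lev s g) (fun k => ∑ a ∈ R.U j, v a l * v a k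
        - if l = k then p.mu (s + p.hs s) l else 0) ≤
      √(1 + (p.lev s g).card) * (
        (2 : ℝ) ^ (-((p.hs s : ℝ) / 2)) * (p.mu (s + p.hs s) l) ^ (1 / 2 : ℝ) +
        (2 : ℝ) ^ (-(9 / 10 * (p.hs s : ℝ))) * (p.mu (s + p.hs s) l) ^ (1 / 10 : ℝ) +
        (2 : ℝ) ^ (1 + (p.hs s : ℝ) / 200) * (p.mu (s + p.hs s) l) ^ (1 / 100 : ℝ)) := by
  have hY := p.act_xx hl
  have hh := p.hs_ge s
  set Y : ℝ := -(p.xx s l) with hYd
  set h : ℝ := (p.hs s : ℝ) with hhd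
  set Λ : ℝ := 1 + ((p.lev s g).card : ℝ) with hΛ
  have hΛ1 : 1 ≤ Λ := by
    have : (0 : ℝ) ≤ (p.lev s g).card := Nat.cast_nonneg _
    linarith
  have hsΛ : 1 ≤ √Λ := by
    rw [show (1 : ℝ) = √1 by simp]
    exact Real.sqrt_le_sqrt hΛ1
  have hmt : p.mu (s + p.hs s) l = p.mu s l / 2 ^ p.hs s := p.mu_add s (p.hs s) l
  have hK : ((2 : ℝ) ^ p.hs s) = (2 : ℝ) ^ h := by rw [hhd, Real.rpow_natCast]
  have e1 : ∀ k, ∑ a ∈ R.U j, v a l * v a k - (if l = k then p.mu (s + p.hs s) l else 0) =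
      (∑ a ∈ R.U j, v a l * v a k - (∑ a ∈ V, v a l * v a k) / 2 ^ p.hs s) +
        ((2 : ℝ) ^ p.hs s)⁻¹ * p.rdev v s V l k := by
    intro k
    unfold Par.rdev
    rw [hmt]
    split_ifs with hk
    · ring
    · ring
  have e2 : n2 (p.lev s g) (fun k => ∑ a ∈ R.U j, v a l * v a k
        - if l = k then p.mu (s + p.hs s) l else 0) ≤
      n2 (p.lev s g) (fun k => ∑ a ∈ R.U j, v a l * v a k
        - (∑ a ∈ V, v a l * v a k) / 2 ^ p.hs s) +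
      (2 : ℝ) ^ (-h) * n2 (p.lev s g) (p.rdev v s V l) := by
    have h2 : n2 (p.lev s g) (fun k => ∑ a ∈ R.U j, v a l * v a k
        - if l = k then p.mu (s + p.hs s) l else 0) =
        n2 (p.lev s g) (fun k => (∑ a ∈ R.U j, v a l * v a k
        - (∑ a ∈ V, v a l * v a k) / 2 ^ p.hs s) +
        ((2 : ℝ) ^ p.hs s)⁻¹ * p.rdev v s V l k) := n2_congr fun k _ => e1 k
    rw [h2]
    refine (n2_add_le _ _ _).trans (add_le_add le_rfl (le_of_eq ?_))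
    rw [n2_smul, abs_of_pos (by positivity), hK, Real.rpow_neg (by norm_num)]
  refine e2.trans ?_
  -- the block error
  have e3 : n2 (p.lev s g) (fun k => ∑ a ∈ R.U j, v a l * v a k
        - (∑ a ∈ V, v a l * v a k) / 2 ^ p.hs s) ≤
      √Λ * ((2 : ℝ) ^ (1 + h / 200) * (2 : ℝ) ^ (1 / 100 * (Y - h))) := by
    have h2 := n2_le_sqrt (R.U_row j h0 h1 l hl g hg)
    refine h2.trans ?_
    have h3 : 4 * p.CR * ((p.lev s g).card + 3 * (p.hs s : ℝ) - p.xx s l) ≤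
        Λ * ((2 : ℝ) ^ (2 + h / 100) * (2 : ℝ) ^ (1 / 50 * (Y - h))) := by
      have h4 : (p.lev s g).card + 3 * (p.hs s : ℝ) - p.xx s l ≤ Λ * (3 * h + Y) := by
        have h5 : (p.lev s g).card + 3 * (p.hs s : ℝ) - p.xx s l = (Λ - 1) + (3 * h + Y) := by
          rw [hΛ, hYd, hhd]
          ring
        rw [h5]
        nlinarith
      have h5 : 3 * h + Y ≤ (2 : ℝ) ^ (1 / 50 * (Y - h)) := by
        have h6 := bias_lin (z := Y - h) (by linarith)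
        rw [show (Y - h) / 50 = 1 / 50 * (Y - h) by ring] at h6
        linarith
      have h6 : 4 * p.CR ≤ (2 : ℝ) ^ (2 + h / 100) := by
        rw [bias_add]
        have h7 : (2 : ℝ) ^ (2 : ℝ) = 4 := by
          rw [show (2 : ℝ) = ((2 : ℕ) : ℝ) by norm_num, Real.rpow_natCast]
          norm_num
        rw [h7]
        exact mul_le_mul_of_nonneg_left (bias_CR s) (by norm_num)
      have hCR0 : 0 ≤ p.CR := le_trans zero_le_one p.hCR
      calc 4 * p.CR * ((p.lev s g).card + 3 * (p.hs s : ℝ) - p.xx s l)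
          ≤ (2 : ℝ) ^ (2 + h / 100) * (Λ * (2 : ℝ) ^ (1 / 50 * (Y - h))) := by
            refine mul_le_mul h6 (h4.trans ?_) ?_ (bias_pos _).le
            · exact mul_le_mul_of_nonneg_left h5 (by linarith)
            · have : (0 : ℝ) ≤ (p.lev s g).card := Nat.cast_nonneg _
              linarith
        _ = _ := by ring
    calc √(4 * p.CR * ((p.lev s g).card + 3 * (p.hs s : ℝ) - p.xx s l))
        ≤ √(Λ * ((2 : ℝ) ^ (2 + h / 100) * (2 : ℝ) ^ (1 / 50 * (Y - h)))) :=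
          Real.sqrt_le_sqrt h3
      _ = √Λ * ((2 : ℝ) ^ (1 + h / 200) * (2 : ℝ) ^ (1 / 100 * (Y - h))) := by
          rw [Real.sqrt_mul (by linarith), ← bias_add, bias_sqrt, ← bias_add]
          congr 2
          ring
  -- the error of the whole node
  have e4 : (2 : ℝ) ^ (-h) * n2 (p.lev s g) (p.rdev v s V l) ≤
      √Λ * ((2 : ℝ) ^ (-(h / 2)) * (2 : ℝ) ^ (1 / 2 * (Y - h)) +
        (2 : ℝ) ^ (-(9 / 10 * h)) * (2 : ℝ) ^ (1 / 10 * (Y - h))) := by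
    have h2 := I.row l hl g hg
    have hmu : p.mu s l = (2 : ℝ) ^ Y := rfl
    rw [hmu, bias_sqrt, ← Real.rpow_mul (by norm_num)] at h2
    have h3 : p.nact s g ≤ (p.lev s g).card := by
      rw [p.card_lev_le s hg]
      have : (0 : ℝ) ≤ (p.tr s).card := Nat.cast_nonneg _
      linarith
    have h4 : √(1 + p.nact s g) ≤ √Λ := Real.sqrt_le_sqrt (by linarith)
    have h5 : n2 (p.lev s g) (p.rdev v s V l) ≤
        √Λ * ((2 : ℝ) ^ (Y / 2) + (2 : ℝ) ^ (Y * (1 / 10))) := by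
      refine h2.trans ?_
      have h6 : (2 : ℝ) ^ (Y / 2) ≤ √Λ * (2 : ℝ) ^ (Y / 2) := by
        have := bias_pos (Y / 2)
        nlinarith
      have h7 : (2 : ℝ) ^ (Y * (1 / 10)) * √(1 + p.nact s g) ≤
          (2 : ℝ) ^ (Y * (1 / 10)) * √Λ := mul_le_mul_of_nonneg_left h4 (bias_pos _).le
      linarith
    calc (2 : ℝ) ^ (-h) * n2 (p.lev s g) (p.rdev v s V l)
        ≤ (2 : ℝ) ^ (-h) * (√Λ * ((2 : ℝ) ^ (Y / 2) + (2 : ℝ) ^ (Y * (1 / 10)))) :=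
          mul_le_mul_of_nonneg_left h5 (bias_pos _).le
      _ = √Λ * ((2 : ℝ) ^ (-h) * (2 : ℝ) ^ (Y / 2) +
          (2 : ℝ) ^ (-h) * (2 : ℝ) ^ (Y * (1 / 10))) := by ring
      _ = _ := by
          rw [← bias_add, ← bias_add, ← bias_add, ← bias_add]
          congr 3
          · ring
          · ring
  rw [bias_mt_rpow, bias_mt_rpow, bias_mt_rpow]
  have e5 : √Λ * ((2 : ℝ) ^ (-(h / 2)) * (2 : ℝ) ^ (1 / 2 * (Y - h)) +
      (2 : ℝ) ^ (-(9 / 10 * h)) * (2 : ℝ) ^ (1 / 10 * (Y - h)) +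
      (2 : ℝ) ^ (1 + h / 200) * (2 : ℝ) ^ (1 / 100 * (Y - h))) =
      √Λ * ((2 : ℝ) ^ (1 + h / 200) * (2 : ℝ) ^ (1 / 100 * (Y - h))) +
      √Λ * ((2 : ℝ) ^ (-(h / 2)) * (2 : ℝ) ^ (1 / 2 * (Y - h)) +
      (2 : ℝ) ^ (-(9 / 10 * h)) * (2 : ℝ) ^ (1 / 10 * (Y - h))) := by ring
  rw [e5]
  exact add_le_add e3 e4

/-- the healing drift acts on the active coordinates as intended -/
theorem drift_le (R : Raw p v s V x y) (I : p.Inv v s V x y Lx Ly ε) {j : ℕ} (h0 : 0 < j)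
    (h1 : j < 2 ^ p.hs s) {g : ℝ} (hg : (s : ℝ) ≤ g) :
    n2 (p.lev s g) (fun k => ∑ a ∈ R.U j, p.bet v s (R.w j) a * v a k
        - if k ∈ p.act s then R.w j k * p.mu (s + p.hs s) k else 0)
      ≤ (2 : ℝ) ^ (-(2 * (p.hs s : ℝ))) * √(1 + (p.lev s g).card) := by
  have hh := p.hs_ge s
  set h : ℝ := (p.hs s : ℝ) with hhd
  have e1 : ∀ k, ∑ a ∈ R.U j, p.bet v s (R.w j) a * v a k
        - (if k ∈ p.act s then R.w j k * p.mu (s + p.hs s) k else 0) =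
      ∑ l ∈ p.act s, R.w j l * (∑ a ∈ R.U j, v a l * v a k
        - if l = k then p.mu (s + p.hs s) l else 0) := by
    intro k
    have h2 : ∑ a ∈ R.U j, p.bet v s (R.w j) a * v a k =
        ∑ l ∈ p.act s, R.w j l * ∑ a ∈ R.U j, v a l * v a k := by
      unfold Par.bet
      simp only [Finset.sum_mul, Finset.mul_sum]
      rw [Finset.sum_comm]
      exact Finset.sum_congr rfl fun l _ => Finset.sum_congr rfl fun a _ => by ring
    have h3 : (if k ∈ p.act s then R.w j k * p.mu (s + p.hs s) k else 0) =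
        ∑ l ∈ p.act s, R.w j l * (if l = k then p.mu (s + p.hs s) l else 0) := by
      simp only [mul_ite, mul_zero]
      rw [Finset.sum_ite_eq']
    rw [h2, h3, ← Finset.sum_sub_distrib]
    exact Finset.sum_congr rfl fun l _ => by ring
  have e2 : n2 (p.lev s g) (fun k => ∑ a ∈ R.U j, p.bet v s (R.w j) a * v a k
        - if k ∈ p.act s then R.w j k * p.mu (s + p.hs s) k else 0) =
      n2 (p.lev s g) (fun k => ∑ l ∈ p.act s, R.w j l * (∑ a ∈ R.U j, v a l * v a k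
        - if l = k then p.mu (s + p.hs s) l else 0)) := n2_congr fun k _ => e1 k
  rw [e2]
  refine (n2_sum_le (p.lev s g) (p.act s) (fun l k => R.w j l * (∑ a ∈ R.U j, v a l * v a k
        - if l = k then p.mu (s + p.hs s) l else 0))).trans ?_
  have e3 : ∀ l ∈ p.act s, n2 (p.lev s g) (fun k => R.w j l * (∑ a ∈ R.U j, v a l * v a k
        - if l = k then p.mu (s + p.hs s) l else 0)) ≤
      √(1 + (p.lev s g).card) * (
        (2 : ℝ) ^ (-(h / 2)) * (p.mu (s + p.hs s) l) ^ (-(1 / 8) : ℝ) +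
        (2 : ℝ) ^ (-(9 / 10 * h)) * (p.mu (s + p.hs s) l) ^ (-(21 / 40) : ℝ) +
        (2 : ℝ) ^ (1 + h / 200) * (p.mu (s + p.hs s) l) ^ (-(123 / 200) : ℝ)) := by
    intro l hl
    have hmt : 0 < p.mu (s + p.hs s) l := p.mu_pos _ l
    rw [n2_smul]
    have h2 := bias_row_err R I h0 h1 hg hl
    calc _ ≤ (p.mu (s + p.hs s) l) ^ (-(5 / 8) : ℝ) * _ :=
          mul_le_mul (w_abs_le R h0 h1 hl) h2 (n2_nonneg _ _) (Real.rpow_nonneg hmt.le _)
      _ = √(1 + (p.lev s g).card) * (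
        (2 : ℝ) ^ (-(h / 2)) * ((p.mu (s + p.hs s) l) ^ (-(5 / 8) : ℝ) *
          (p.mu (s + p.hs s) l) ^ (1 / 2 : ℝ)) +
        (2 : ℝ) ^ (-(9 / 10 * h)) * ((p.mu (s + p.hs s) l) ^ (-(5 / 8) : ℝ) *
          (p.mu (s + p.hs s) l) ^ (1 / 10 : ℝ)) +
        (2 : ℝ) ^ (1 + h / 200) * ((p.mu (s + p.hs s) l) ^ (-(5 / 8) : ℝ) *
          (p.mu (s + p.hs s) l) ^ (1 / 100 : ℝ))) := by ring
      _ = _ := by
          rw [← Real.rpow_add hmt, ← Real.rpow_add hmt, ← Real.rpow_add hmt]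
          norm_num
  refine (Finset.sum_le_sum e3).trans ?_
  rw [← Finset.mul_sum, Finset.sum_add_distrib, Finset.sum_add_distrib, ← Finset.mul_sum,
    ← Finset.mul_sum, ← Finset.mul_sum, mul_comm]
  refine mul_le_mul_of_nonneg_right ?_ (Real.sqrt_nonneg _)
  have s1 : (2 : ℝ) ^ (-(h / 2)) * ∑ l ∈ p.act s, (p.mu (s + p.hs s) l) ^ (-(1 / 8) : ℝ) ≤
      (2 : ℝ) ^ (-(3 * h)) := by
    calc _ ≤ (2 : ℝ) ^ (-(h / 2)) * (2 : ℝ) ^ ((-(39 * (1 / 8 - cc)) + 1 / 8 + 1) * h) :=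
          mul_le_mul_of_nonneg_left (p.sum_mu_le s (by unfold cc; norm_num)) (bias_pos _).le
      _ = (2 : ℝ) ^ (-(h / 2) + (-(39 * (1 / 8 - cc)) + 1 / 8 + 1) * h) := (bias_add _ _).symm
      _ ≤ (2 : ℝ) ^ (-(3 * h)) := by
          refine bias_mono ?_
          unfold cc
          nlinarith
  have s2 : (2 : ℝ) ^ (-(9 / 10 * h)) *
      ∑ l ∈ p.act s, (p.mu (s + p.hs s) l) ^ (-(21 / 40) : ℝ) ≤ (2 : ℝ) ^ (-(3 * h)) := by
    calc _ ≤ (2 : ℝ) ^ (-(9 / 10 * h)) *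
          (2 : ℝ) ^ ((-(39 * (21 / 40 - cc)) + 21 / 40 + 1) * h) :=
          mul_le_mul_of_nonneg_left (p.sum_mu_le s (by unfold cc; norm_num)) (bias_pos _).le
      _ = (2 : ℝ) ^ (-(9 / 10 * h) + (-(39 * (21 / 40 - cc)) + 21 / 40 + 1) * h) :=
          (bias_add _ _).symm
      _ ≤ (2 : ℝ) ^ (-(3 * h)) := by
          refine bias_mono ?_
          unfold cc
          nlinarith
  have s3 : (2 : ℝ) ^ (1 + h / 200) *
      ∑ l ∈ p.act s, (p.mu (s + p.hs s) l) ^ (-(123 / 200) : ℝ) ≤ (2 : ℝ) ^ (-(3 * h)) := by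
    calc _ ≤ (2 : ℝ) ^ (1 + h / 200) *
          (2 : ℝ) ^ ((-(39 * (123 / 200 - cc)) + 123 / 200 + 1) * h) :=
          mul_le_mul_of_nonneg_left (p.sum_mu_le s (by unfold cc; norm_num)) (bias_pos _).le
      _ = (2 : ℝ) ^ (1 + h / 200 + (-(39 * (123 / 200 - cc)) + 123 / 200 + 1) * h) :=
          (bias_add _ _).symm
      _ ≤ (2 : ℝ) ^ (-(3 * h)) := by
          refine bias_mono ?_
          unfold cc
          nlinarith
  have s4 : (2 : ℝ) ^ (2 : ℝ) * (2 : ℝ) ^ (-(3 * h)) ≤ (2 : ℝ) ^ (-(2 * h)) := by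
    rw [← bias_add]
    exact bias_mono (by linarith)
  have s5 : (2 : ℝ) ^ (2 : ℝ) = 4 := by
    rw [show (2 : ℝ) = ((2 : ℕ) : ℝ) by norm_num, Real.rpow_natCast]
    norm_num
  rw [s5] at s4
  have s6 := bias_pos (-(3 * h))
  linarith

theorem drift_tr_le (R : Raw p v s V x y) (I : p.Inv v s V x y Lx Ly ε) {j : ℕ}
    (hj : j ≤ 2 ^ p.hs s) :
    n2 (p.tr s) (fun k => ∑ a ∈ R.U j, p.bet v s (R.w j) a * v a k)
      ≤ (2 : ℝ) ^ (-(2 * (p.hs s : ℝ))) * √(1 + (p.tr s).card) := by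
  have hpos : 0 ≤ (2 : ℝ) ^ (-(2 * (p.hs s : ℝ))) * √(1 + (p.tr s).card) :=
    mul_nonneg (bias_pos _).le (Real.sqrt_nonneg _)
  rcases Nat.eq_zero_or_pos j with h | h0
  · rw [h, R.U_zero]
    simp only [Finset.sum_empty]
    rw [n2_zero]
    exact hpos
  rcases hj.eq_or_lt with h | h1
  · rw [h, R.U_top]
    simp only [Finset.sum_empty]
    rw [n2_zero]
    exact hpos
  have h2 := drift_le R I h0 h1 (le_refl (s : ℝ))
  have h3 : p.lev s (s : ℝ) = p.tr s := by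
    ext k
    rw [p.mem_lev, p.mem_tr]
    tauto
  rw [h3] at h2
  refine le_trans (le_of_eq ?_) h2
  refine n2_congr fun k hk => ?_
  have h4 : k ∉ p.act s := fun hcon => p.act_not_tr hcon hk
  rw [if_neg h4, sub_zero]

theorem row_bias_le (hv : ∀ a, ∑ k, v a k ^ 2 ≤ 1) (R : Raw p v s V x y)
    (I : p.Inv v s V x y Lx Ly ε) {j : ℕ} (hj : j ≤ 2 ^ p.hs s) {l : Fin d} (hl : l ∈ p.act s) :
    n2 univ (fun k => ∑ a ∈ R.U j, p.bet v s (R.w j) a * (v a l * v a k))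
      ≤ (2 : ℝ) ^ (-(3 * (p.hs s : ℝ))) * √(p.mu (s + p.hs s) l) := by
  have hh := p.hs_ge s
  have hpos : 0 ≤ (2 : ℝ) ^ (-(3 * (p.hs s : ℝ))) * √(p.mu (s + p.hs s) l) :=
    mul_nonneg (bias_pos _).le (Real.sqrt_nonneg _)
  rcases Nat.eq_zero_or_pos j with h | h0
  · rw [h, R.U_zero]
    simp only [Finset.sum_empty]
    rw [n2_zero]
    exact hpos
  rcases hj.eq_or_lt with h | h1
  · rw [h, R.U_top]
    simp only [Finset.sum_empty]
    rw [n2_zero]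
    exact hpos
  refine (n2_sum_le univ (R.U j)
    (fun a k => p.bet v s (R.w j) a * (v a l * v a k))).trans ?_
  have e1 : ∀ a ∈ R.U j, n2 univ (fun k => p.bet v s (R.w j) a * (v a l * v a k)) ≤
      |p.bet v s (R.w j) a| * |v a l| := by
    intro a _
    have h2 : n2 univ (fun k => p.bet v s (R.w j) a * (v a l * v a k)) =
        n2 univ (fun k => (p.bet v s (R.w j) a * v a l) * v a k) :=
      n2_congr fun k _ => by ring
    rw [h2, n2_smul, abs_mul]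
    have h3 : n2 univ (fun k => v a k) ≤ 1 := by
      rw [n2_le_iff zero_le_one, one_pow]
      exact hv a
    calc |p.bet v s (R.w j) a| * |v a l| * n2 univ (fun k => v a k)
        ≤ |p.bet v s (R.w j) a| * |v a l| * 1 :=
          mul_le_mul_of_nonneg_left h3 (by positivity)
      _ = _ := mul_one _
  refine (Finset.sum_le_sum e1).trans ?_
  have e2 : ∑ a ∈ R.U j, |p.bet v s (R.w j) a| * |v a l| ≤
      n2 (R.U j) (fun a => |p.bet v s (R.w j) a|) * n2 (R.U j) (fun a => |v a l|) :=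
    (le_abs_self _).trans (abs_sum_mul_le _ _ _)
  refine e2.trans ?_
  rw [n2_abs, n2_abs]
  have e3 : n2 (R.U j) (fun a => v a l) ≤ √(2 * p.mu (s + p.hs s) l) :=
    n2_le_sqrt (energy_U R I h0 h1 hl)
  calc n2 (R.U j) (p.bet v s (R.w j)) * n2 (R.U j) (fun a => v a l)
      ≤ (2 : ℝ) ^ (-(7 / 2 * (p.hs s : ℝ))) * √(2 * p.mu (s + p.hs s) l) :=
        mul_le_mul (bias_bet_n2 R I hj) e3 (n2_nonneg _ _) (bias_pos _).le
    _ = ((2 : ℝ) ^ (-(7 / 2 * (p.hs s : ℝ))) * (2 : ℝ) ^ (1 / 2 : ℝ)) *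
        √(p.mu (s + p.hs s) l) := by
        rw [Real.sqrt_mul (by norm_num), Real.sqrt_eq_rpow 2]
        ring
    _ ≤ (2 : ℝ) ^ (-(3 * (p.hs s : ℝ))) * √(p.mu (s + p.hs s) l) := by
        refine mul_le_mul_of_nonneg_right ?_ (Real.sqrt_nonneg _)
        rw [← bias_add]
        exact bias_mono (by linarith)

end Vale.Agent.P262F
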