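import Vale.Agent.Lib.P262F.PrefixRound

/-! Signing with control at the ends of the blocks of an ordered partition. -/

namespace Vale.Agent.P262F

open Finset Real

/-- The signing property with constant `CR`. -/
def SignProp (CR : ℝ) : Prop :=
  ∀ (α ι I : Type) [Fintype α] [Fintype ι] [Fintype I] (u : α → ι → ℝ),
    (∀ a, ∑ j, u a j ^ 2 ≤ 4) → ∀ (J : I → Finset ι) (r : I → ℝ), (∀ i, 0 ≤ r i) →
    ∀ n : ℕ, ((n : ℝ) + 1) * ∑ i, Real.exp (-(((J i).card : ℝ) + r i)) ≤ 1 / 2 →
    ∀ f : α → ℕ, ∃ ε : α → ℝ, (∀ a, ε a = 1 ∨ ε a = -1) ∧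
      ∀ m ≤ n, ∀ i, ∑ j ∈ J i, (∑ a ∈ univ.filter (fun a => f a < m), ε a * u a j) ^ 2
        ≤ CR * (((J i).card : ℝ) + r i)

/-- A lower set of `Fin N` is an initial segment. -/
theorem blocks_lower {N : ℕ} {g : Fin N → ℕ} (hg : Monotone g) (m : ℕ) (i : Fin N) :
    g i < m ↔ (i : ℕ) < (univ.filter (fun i : Fin N => g i < m)).card := by
  constructor
  · intro h
    have h1 : (Finset.Iic i) ⊆ univ.filter (fun i : Fin N => g i < m) := by
      intro j hj
      rw [Finset.mem_Iic] at hj
      rw [Finset.mem_filter]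
      exact ⟨Finset.mem_univ _, (hg hj).trans_lt h⟩
    have h2 := Finset.card_le_card h1
    rw [Fin.card_Iic] at h2
    omega
  · intro h
    by_contra hcon
    have h1 : univ.filter (fun i : Fin N => g i < m) ⊆ Finset.Iio i := by
      intro j hj
      rw [Finset.mem_filter] at hj
      rw [Finset.mem_Iio]
      by_contra hj2
      exact hcon ((hg (not_lt.mp hj2)).trans_lt hj.2)
    have h2 := Finset.card_le_card h1
    rw [Fin.card_Iio] at h2
    omega

theorem exists_signProp : ∃ CR : ℝ, 1 ≤ CR ∧ SignProp CR := by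
  classical
  obtain ⟨C, hC, hpr⟩ := prefix_round
  refine ⟨4 * C, by linarith, ?_⟩
  intro α ι I _ _ _ u hu J r hr n hn f
  set N : ℕ := Fintype.card α with hN
  let e0 : Fin N ≃ α := (Fintype.equivFin α).symm
  let e : Fin N ≃ α := (Tuple.sort (f ∘ e0)).trans e0
  have hmono : Monotone (fun i => f (e i)) := Tuple.monotone_sort (f ∘ e0)
  set t : ℕ → ℕ := fun m => (univ.filter (fun i : Fin N => f (e i) < m)).card with ht
  have hS : 0 ≤ ∑ i, Real.exp (-(((J i).card : ℝ) + r i)) :=
    Finset.sum_nonneg fun _ _ => (Real.exp_pos _).le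
  have hTcard : (((Finset.range (n + 1)).image t).card : ℝ) ≤ (n : ℝ) + 1 := by
    have h1 : ((Finset.range (n + 1)).image t).card ≤ n + 1 := by
      refine Finset.card_image_le.trans ?_
      rw [Finset.card_range]
    exact_mod_cast h1
  obtain ⟨ε, hε1, hε2⟩ := hpr (ι := ι) (I := I) N (fun i j => u (e i) j / 2) (fun i => by
    have h1 := hu (e i)
    have h2 : ∑ j, (u (e i) j / 2) ^ 2 = (∑ j, u (e i) j ^ 2) / 4 := by
      rw [Finset.sum_div]
      refine Finset.sum_congr rfl fun j _ => ?_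
      ring
    rw [h2]
    linarith) J r hr ((Finset.range (n + 1)).image t)
    ((mul_le_mul_of_nonneg_right hTcard hS).trans hn)
  refine ⟨fun a => ε (e.symm a), fun a => hε1 _, fun m hm i => ?_⟩
  have h1 := hε2 (t m) (Finset.mem_image_of_mem t (Finset.mem_range.mpr (by omega))) i
  have h2 : ∀ j, ∑ a ∈ univ.filter (fun a => f a < m), ε (e.symm a) * u a j =
      2 * ∑ a ∈ univ.filter (fun a : Fin N => (a : ℕ) < t m), ε a * (u (e a) j / 2) := by
    intro j
    have h3 : univ.filter (fun a : Fin N => (a : ℕ) < t m) =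
        univ.filter (fun a : Fin N => f (e a) < m) := by
      refine Finset.filter_congr fun a _ => ?_
      exact (blocks_lower hmono m a).symm
    rw [h3, Finset.mul_sum]
    refine (Finset.sum_bij (fun a _ => e a) ?_ ?_ ?_ ?_).symm
    · intro a ha
      rw [Finset.mem_filter] at ha ⊢
      exact ⟨Finset.mem_univ _, ha.2⟩
    · intro a _ b _ hab
      exact e.injective hab
    · intro b hb
      rw [Finset.mem_filter] at hb
      refine ⟨e.symm b, ?_, e.apply_symm_apply b⟩
      rw [Finset.mem_filter, e.apply_symm_apply]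
      exact ⟨Finset.mem_univ _, hb.2⟩
    · intro a _
      rw [e.symm_apply_apply]
      ring
  have h4 : ∑ j ∈ J i, (∑ a ∈ univ.filter (fun a => f a < m), ε (e.symm a) * u a j) ^ 2 =
      4 * ∑ j ∈ J i, (∑ a ∈ univ.filter (fun a : Fin N => (a : ℕ) < t m),
        ε a * (u (e a) j / 2)) ^ 2 := by
    rw [Finset.mul_sum]
    refine Finset.sum_congr rfl fun j _ => ?_
    rw [h2 j]
    ring
  rw [h4]
  linarith

end Vale.Agent.P262F
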