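import Vale.Agent.Lib.P262F.Heavy

/-! The data of the children. -/

namespace Vale.Agent.P262F

open Finset Real

variable {α : Type} {d : ℕ} {p : Par d} {v : α → Fin d → ℝ} {s : ℕ} {V : Finset α}
  {x y : Fin d → ℝ}

/-- position at boundary `j` -/
noncomputable def zz (R : Raw p v s V x y) (j : ℕ) (k : Fin d) : ℝ :=
  x k + ∑ a ∈ V.filter (fun a => R.c a < j), v a k

/-- reference position at boundary `j` -/
noncomputable def LL (R : Raw p v s V x y) (Lx Ly : Fin d → ℝ) (j : ℕ) (k : Fin d) : ℝ :=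
  if k ∈ p.act s then zz R j k
  else (1 - (j : ℝ) / 2 ^ p.hs s) * Lx k + ((j : ℝ) / 2 ^ p.hs s) * Ly k

/-- fresh position error of child `j` -/
noncomputable def pErr (R : Raw p v s V x y) (j : ℕ) (k : Fin d) : ℝ :=
  2 * |dvf V (p.hs s) R.c j (fun a => v a k)| + |dvf V (p.hs s) R.c (j + 1) (fun a => v a k)|

/-- error vector of child `j` -/
noncomputable def ee (R : Raw p v s V x y) (ε : Fin d → ℝ) (j : ℕ) (k : Fin d) : ℝ :=
  if k ∈ p.act s then 0
  else if k ∈ p.tr s then ε k + (pErr R j k + hErr R j k) else ε k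

theorem zz_zero (R : Raw p v s V x y) : zz R 0 = x := by
  funext k
  simp [zz]

theorem zz_top (R : Raw p v s V x y) (hy : ∀ k, y k = x k + ∑ a ∈ V, v a k) :
    zz R (2 ^ p.hs s) = y := by
  funext k
  have h1 : V.filter (fun a => R.c a < 2 ^ p.hs s) = V := by
    rw [Finset.filter_eq_self]
    exact R.c_lt
  rw [zz, h1, hy k]

theorem zz_succ (R : Raw p v s V x y) (j : ℕ) (k : Fin d) :
    zz R (j + 1) k = zz R j k + ∑ a ∈ V.filter (fun a => R.c a = j), v a k := by
  classical
  have h1 : V.filter (fun a => R.c a < j + 1)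
      = V.filter (fun a => R.c a < j) ∪ V.filter (fun a => R.c a = j) := by
    rw [← Finset.filter_or]
    apply Finset.filter_congr
    intro a _
    omega
  have h2 : Disjoint (V.filter (fun a => R.c a < j)) (V.filter (fun a => R.c a = j)) := by
    rw [Finset.disjoint_filter]
    intro a _ h3 h4
    omega
  rw [zz, zz, h1, Finset.sum_union h2, add_assoc]

theorem zz_eq (R : Raw p v s V x y) (hy : ∀ k, y k = x k + ∑ a ∈ V, v a k) (j : ℕ) (k : Fin d) :
    zz R j k = (1 - (j : ℝ) / 2 ^ p.hs s) * x k + ((j : ℝ) / 2 ^ p.hs s) * y k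
      + dvf V (p.hs s) R.c j (fun a => v a k) := by
  rw [zz, dvf, hy k]
  ring

theorem hErr_nonneg (R : Raw p v s V x y) (j : ℕ) (k : Fin d) : 0 ≤ hErr R j k := by
  unfold hErr
  have h1 := R.zt_nonneg j k
  have h2 := R.zt_nonneg (j + 1) k
  positivity

theorem pErr_nonneg (R : Raw p v s V x y) (j : ℕ) (k : Fin d) : 0 ≤ pErr R j k := by
  unfold pErr
  positivity

end Vale.Agent.P262F
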