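import Mathlib

open MeasureTheory ProbabilityTheory Set

namespace Vale.Agent.P262F

/-- A set of reals containing two points at distance `r`. -/
def Wide (r : ℝ) (I : Set ℝ) : Prop := ∃ t, t ∈ I ∧ t + r ∈ I

/-- The chord operation: `[a,b]` becomes `[a - δ, b + δ]` if `b - a ≥ 2 δ`, and empty otherwise. -/
def starOne (δ : ℝ) (I : Set ℝ) : Set ℝ :=
  {t | ∃ τ ∈ Icc (-2 : ℝ) 2, t + (τ + 1) * δ ∈ I ∧ t + (τ - 1) * δ ∈ I}

/-- The Gaussian weight of a nonempty set: `exp (- dist(0, I)^2 / 2)`. -/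
noncomputable def wt (I : Set ℝ) : ℝ := Real.exp (-(Metric.infDist 0 I) ^ 2 / 2)

/-! ### The Gaussian density -/

/-- the density of the standard Gaussian measure -/
noncomputable def chDens (t : ℝ) : ℝ := (√(2 * Real.pi))⁻¹ * Real.exp (-t ^ 2 / 2)

theorem ch_dens_eq : gaussianPDFReal 0 1 = chDens := by
  funext t
  unfold gaussianPDFReal chDens
  simp

theorem ch_dens_nonneg (t : ℝ) : 0 ≤ chDens t := by unfold chDens; positivity

theorem ch_dens_int : Integrable chDens := by
  rw [← ch_dens_eq]; exact integrable_gaussianPDFReal 0 1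

theorem ch_real_eq (s : Set ℝ) : (gaussianReal 0 1).real s = ∫ x in s, chDens x := by
  rw [measureReal_def, gaussianReal_apply_eq_integral 0 one_ne_zero s, ch_dens_eq,
    ENNReal.toReal_ofReal (integral_nonneg fun t => ch_dens_nonneg t)]

/-- upper bound by length times density -/
theorem ch_upper {s : Set ℝ} (hs : MeasurableSet s) {L M : ℝ} (hL : 0 ≤ L) (hM : 0 ≤ M)
    (hv : volume s ≤ ENNReal.ofReal L)
    (hb : ∀ t ∈ s, chDens t ≤ M) : (gaussianReal 0 1).real s ≤ L * M := by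
  rw [ch_real_eq]
  have hfin : volume s ≠ ⊤ := (hv.trans_lt ENNReal.ofReal_lt_top).ne
  calc ∫ x in s, chDens x ≤ ∫ _x in s, M :=
        setIntegral_mono_on ch_dens_int.integrableOn (integrableOn_const hfin) hs hb
    _ = (volume s).toReal * M := by rw [setIntegral_const, smul_eq_mul, measureReal_def]
    _ ≤ L * M := by
        refine mul_le_mul_of_nonneg_right ?_ hM
        exact ENNReal.toReal_le_of_le_ofReal hL hv

/-- lower bound by length times density on an interval -/
theorem ch_lower {a b M : ℝ} (hab : a ≤ b) (hb : ∀ t ∈ Ioc a b, M ≤ chDens t) :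
    (b - a) * M ≤ (gaussianReal 0 1).real (Ioc a b) := by
  rw [ch_real_eq]
  calc (b - a) * M = ∫ _x in Ioc a b, M := by
        rw [setIntegral_const, smul_eq_mul, measureReal_def, Real.volume_Ioc,
          ENNReal.toReal_ofReal (by linarith)]
    _ ≤ ∫ x in Ioc a b, chDens x :=
        setIntegral_mono_on (integrableOn_const (by rw [Real.volume_Ioc]; exact ENNReal.ofReal_ne_top))
          ch_dens_int.integrableOn measurableSet_Ioc hb

theorem ch_infDist_le {I : Set ℝ} {t : ℝ} (ht : t ∈ I) : Metric.infDist 0 I ≤ |t| := by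
  have := Metric.infDist_le_dist_of_mem (x := (0 : ℝ)) ht
  rwa [Real.dist_eq, zero_sub, abs_neg] at this

theorem ch_dens_le {I : Set ℝ} {t : ℝ} (ht : t ∈ I) :
    chDens t ≤ (√(2 * Real.pi))⁻¹ * wt I := by
  unfold chDens wt
  refine mul_le_mul_of_nonneg_left (Real.exp_le_exp.2 ?_) (by positivity)
  have h1 := ch_infDist_le ht
  have h0 : 0 ≤ Metric.infDist 0 I := Metric.infDist_nonneg
  have h2 : (Metric.infDist 0 I) ^ 2 ≤ t ^ 2 := by
    rw [← sq_abs t]
    exact pow_le_pow_left₀ h0 h1 2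
  linarith

theorem ch_wt_pos (I : Set ℝ) : 0 < wt I := Real.exp_pos _

theorem ch_wt_le_one (I : Set ℝ) : wt I ≤ 1 := by
  unfold wt
  rw [Real.exp_le_one_iff]
  have : 0 ≤ (Metric.infDist 0 I) ^ 2 := sq_nonneg _
  linarith

/-- a convex set which is not wide is short -/
theorem ch_short_vol {I : Set ℝ} (hI : Convex ℝ I) {r : ℝ} (hr : 0 < r) (hw : ¬ Wide r I) :
    ∀ x ∈ I, ∀ y ∈ I, |x - y| ≤ r := by
  have hoc := hI.ordConnected
  have key : ∀ x ∈ I, ∀ y ∈ I, y - x ≤ r := by
    intro x hx y hy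
    by_contra hcon
    push Not at hcon
    exact hw ⟨x, hx, hoc.out hx hy ⟨by linarith, by linarith⟩⟩
  intro x hx y hy
  rw [abs_le]
  exact ⟨by linarith [key x hx y hy], key y hy x hx⟩

theorem ch_loss_aux {I : Set ℝ} (hI : Convex ℝ I) (hc : IsClosed I) {r : ℝ} (hr : 0 < r)
    (hw : ¬ Wide r I) : (gaussianReal 0 1).real I ≤ r * ((√(2 * Real.pi))⁻¹ * wt I) := by
  refine ch_upper hc.measurableSet hr.le (mul_nonneg (by positivity) (ch_wt_pos I).le) ?_
    fun t ht => ch_dens_le ht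
  refine (Real.volume_le_diam I).trans ?_
  refine Metric.ediam_le fun x hx y hy => ?_
  rw [edist_dist, Real.dist_eq]
  exact ENNReal.ofReal_le_ofReal (ch_short_vol hI hr hw x hx y hy)

theorem ch_tail {D : ℝ} (hD : 0 ≤ D) :
    (gaussianReal 0 1).real (Ici D) ≤ Real.exp (-D ^ 2 / 2) := by
  have h1 := measure_ge_le_exp_mul_mgf (μ := gaussianReal 0 1) (X := id) D hD
    (integrable_exp_mul_gaussianReal D)
  rw [mgf_id_gaussianReal] at h1
  have e1 : {ω : ℝ | D ≤ id ω} = Ici D := rfl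
  rw [e1] at h1
  refine h1.trans (le_of_eq ?_)
  rw [← Real.exp_add]
  congr 1
  push_cast
  ring

theorem ch_tail_neg {D : ℝ} (hD : 0 ≤ D) :
    (gaussianReal 0 1).real (Iic (-D)) ≤ Real.exp (-D ^ 2 / 2) := by
  have h1 := measure_le_le_exp_mul_mgf (μ := gaussianReal 0 1) (X := id) (-D) (t := -D)
    (by linarith) (integrable_exp_mul_gaussianReal (-D))
  rw [mgf_id_gaussianReal] at h1
  have e1 : {ω : ℝ | id ω ≤ -D} = Iic (-D) := rfl
  rw [e1] at h1
  refine h1.trans (le_of_eq ?_)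
  rw [← Real.exp_add]
  congr 1
  push_cast
  ring

theorem chord_le_wt {I : Set ℝ} (hI : Convex ℝ I) (hc : IsClosed I) (hn : I.Nonempty) :
    (gaussianReal 0 1).real I ≤ wt I := by
  have hoc := hI.ordConnected
  set D := Metric.infDist 0 I with hD
  have hD0 : 0 ≤ D := Metric.infDist_nonneg
  by_cases h0 : (0 : ℝ) ∈ I
  · have h1 : D = 0 := Metric.infDist_zero_of_mem h0
    have h2 : wt I = 1 := by
      unfold wt
      rw [← hD, h1]
      simp
    rw [h2]
    exact measureReal_le_one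
  · have hd : ∀ t ∈ I, D ≤ |t| := fun t ht => ch_infDist_le ht
    obtain ⟨x, hx⟩ := hn
    rcases lt_trichotomy x 0 with hx0 | hx0 | hx0
    · have hsub : I ⊆ Iic (-D) := by
        intro t ht
        have h3 : t < 0 := by
          by_contra hcon
          push Not at hcon
          exact h0 (hoc.out hx ht ⟨hx0.le, hcon⟩)
        have h4 := hd t ht
        rw [abs_of_neg h3] at h4
        exact mem_Iic.2 (by linarith)
      exact (measureReal_mono hsub).trans (ch_tail_neg hD0)
    · subst hx0; exact absurd hx h0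
    · have hsub : I ⊆ Ici D := by
        intro t ht
        have h3 : 0 < t := by
          by_contra hcon
          push Not at hcon
          exact h0 (hoc.out ht hx ⟨hcon, hx0.le⟩)
        have h4 := hd t ht
        rw [abs_of_pos h3] at h4
        exact mem_Ici.2 h4
      exact (measureReal_mono hsub).trans (ch_tail hD0)

theorem chord_short {I : Set ℝ} (hI : Convex ℝ I) (hc : IsClosed I) (hn : I.Nonempty)
    (hw : ¬ Wide 1 I) : (gaussianReal 0 1).real I ≤ 2 / 5 * wt I := by
  have h1 := ch_loss_aux hI hc one_pos hw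
  rw [one_mul] at h1
  refine h1.trans (mul_le_mul_of_nonneg_right ?_ (ch_wt_pos I).le)
  rw [inv_le_comm₀ (by positivity) (by norm_num)]
  apply Real.le_sqrt_of_sq_le
  have := Real.pi_gt_d2
  norm_num
  linarith

theorem chord_loss {I : Set ℝ} (hI : Convex ℝ I) (hc : IsClosed I) (hn : I.Nonempty)
    {δ : ℝ} (hδ : 0 < δ) (hw : ¬ Wide (2 * δ) I) :
    (gaussianReal 0 1).real I ≤ 2 * δ / √(2 * Real.pi) * wt I := by
  have h1 := ch_loss_aux hI hc (by linarith : (0 : ℝ) < 2 * δ) hw
  refine h1.trans (le_of_eq ?_)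
  rw [div_eq_mul_inv]
  ring

theorem chord_mono {I : Set ℝ} (hI : Convex ℝ I) (hc : IsClosed I)
    {δ : ℝ} (hδ : 0 < δ) (hw : Wide (2 * δ) I) : I ⊆ starOne δ I := by
  have hoc := hI.ordConnected
  obtain ⟨s, hs1, hs2⟩ := hw
  intro t ht
  by_cases h1 : t + 2 * δ ∈ I
  · refine ⟨1, ⟨by norm_num, by norm_num⟩, ?_, ?_⟩
    · rw [show t + (1 + 1) * δ = t + 2 * δ by ring]; exact h1
    · rw [show t + (1 - 1) * δ = t by ring]; exact ht
  by_cases h2 : t - 2 * δ ∈ I
  · refine ⟨-1, ⟨by norm_num, by norm_num⟩, ?_, ?_⟩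
    · rw [show t + (-1 + 1) * δ = t by ring]; exact ht
    · rw [show t + (-1 - 1) * δ = t - 2 * δ by ring]; exact h2
  have h3 : s < t := by
    by_contra hcon
    push Not at hcon
    exact h1 (hoc.out ht hs2 ⟨by linarith, by linarith⟩)
  have h4 : t - 2 * δ < s := by
    by_contra hcon
    push Not at hcon
    exact h2 (hoc.out hs1 ht ⟨by linarith, by linarith⟩)
  have h5 : -2 < (s - t) / δ := by
    rw [lt_div_iff₀ hδ]; linarith
  have h6 : (s - t) / δ < 0 := div_neg_of_neg_of_pos (by linarith) hδ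
  refine ⟨(s - t) / δ + 1, ⟨by linarith, by linarith⟩, ?_, ?_⟩
  · have : t + ((s - t) / δ + 1 + 1) * δ = s + 2 * δ := by
      field_simp
      ring
    rw [this]; exact hs2
  · have : t + ((s - t) / δ + 1 - 1) * δ = s := by
      field_simp
      ring
    rw [this]; exact hs1

/-- the structure of a closed convex bounded set -/
theorem ch_eq_Icc {I : Set ℝ} (hI : Convex ℝ I) (hc : IsClosed I) (hn : I.Nonempty) {r : ℝ}
    (hr : 0 < r) (hw : ¬ Wide r I) : ∃ a b : ℝ, a ≤ b ∧ b - a ≤ r ∧ I = Icc a b := by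
  have hb : Bornology.IsBounded I := by
    rw [Metric.isBounded_iff]
    exact ⟨r, fun x hx y hy => by
      rw [Real.dist_eq]; exact ch_short_vol hI hr hw x hx y hy⟩
  have hcomp : IsCompact I := Metric.isCompact_of_isClosed_isBounded hc hb
  have hconn : IsConnected I := ⟨hn, hI.isPreconnected⟩
  have he := eq_Icc_of_connected_compact hconn hcomp
  have hle : sInf I ≤ sSup I := by
    rw [he] at hn
    exact nonempty_Icc.1 hn
  have ha : sInf I ∈ I := hcomp.sInf_mem hn
  have hbm : sSup I ∈ I := hcomp.sSup_mem hn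
  refine ⟨sInf I, sSup I, hle, ?_, he⟩
  exact (le_abs_self _).trans (ch_short_vol hI hr hw _ hbm _ ha)

theorem ch_star_sup {a b δ : ℝ} (hδ : 0 < δ) (hab : a + 2 * δ ≤ b) :
    Icc (a - δ) (b + δ) ⊆ starOne δ (Icc a b) := by
  intro t ht
  rw [mem_Icc] at ht
  by_cases h1 : t ≤ a
  · have h5 : (a - t) / δ ≤ 1 := by rw [div_le_one hδ]; linarith [ht.1]
    have h6 : 0 ≤ (a - t) / δ := div_nonneg (by linarith) hδ.le
    refine ⟨(a - t) / δ + 1, ⟨by linarith, by linarith⟩, ?_, ?_⟩
    · have : t + ((a - t) / δ + 1 + 1) * δ = a + 2 * δ := by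
        field_simp
        ring
      rw [this]; exact ⟨by linarith, hab⟩
    · have : t + ((a - t) / δ + 1 - 1) * δ = a := by
        field_simp
        ring
      rw [this]; exact ⟨le_refl _, by linarith⟩
  by_cases h2 : b ≤ t
  · have h5 : (t - b) / δ ≤ 1 := by rw [div_le_one hδ]; linarith [ht.2]
    have h6 : 0 ≤ (t - b) / δ := div_nonneg (by linarith) hδ.le
    refine ⟨-((t - b) / δ) - 1, ⟨by linarith, by linarith⟩, ?_, ?_⟩
    · have : t + (-((t - b) / δ) - 1 + 1) * δ = b := by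
        field_simp
        ring
      rw [this]; exact ⟨by linarith, le_refl _⟩
    · have : t + (-((t - b) / δ) - 1 - 1) * δ = b - 2 * δ := by
        field_simp
        ring
      rw [this]; exact ⟨by linarith, by linarith⟩
  · push Not at h1 h2
    exact chord_mono (convex_Icc a b) isClosed_Icc hδ
      ⟨a, ⟨le_refl _, by linarith⟩, ⟨by linarith, hab⟩⟩ ⟨h1.le, h2.le⟩

theorem ch_exp_num1 : (83 / 100 : ℝ) ≤ Real.exp (-(11 / 20) ^ 2 / 2) := by
  have h1 := Real.add_one_le_exp (-(11 / 20 : ℝ) ^ 2 / 2)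
  norm_num at h1 ⊢
  linarith

theorem ch_exp_num2 {δ : ℝ} (hδ : 0 ≤ δ) (hδ1 : δ ≤ 1 / 20) :
    (83 / 100 : ℝ) ≤ Real.exp (-δ ^ 2 / 2) := by
  have h1 := Real.add_one_le_exp (-δ ^ 2 / 2)
  nlinarith

/-- the density near an end point -/
theorem ch_gain_right {a b δ : ℝ} (hab : a ≤ b) (hδ : 0 < δ) (hδ1 : δ ≤ 1 / 20)
    (h : b < 0 ∨ (a ≤ 0 ∧ 0 ≤ b ∧ b ≤ 1 / 2)) :
    ∀ t ∈ Ioc b (b + δ), 83 / 100 * ((√(2 * Real.pi))⁻¹ * wt (Icc a b)) ≤ chDens t := by
  intro t ht
  rw [mem_Ioc] at ht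
  unfold chDens
  have hs : 0 < (√(2 * Real.pi))⁻¹ := by positivity
  have key : 83 / 100 * wt (Icc a b) ≤ Real.exp (-t ^ 2 / 2) := by
    rcases h with hb | ⟨ha, hb, hb2⟩
    · have hD : -b ≤ Metric.infDist 0 (Icc a b) := by
        refine (Metric.le_infDist (nonempty_Icc.2 hab)).2 fun y hy => ?_
        rw [Real.dist_eq, zero_sub, abs_neg, abs_of_nonpos (by linarith [hy.2])]
        linarith [hy.2]
      have hw : wt (Icc a b) ≤ Real.exp (-b ^ 2 / 2) := by
        unfold wt
        rw [Real.exp_le_exp]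
        have : (-b) ^ 2 ≤ (Metric.infDist 0 (Icc a b)) ^ 2 :=
          pow_le_pow_left₀ (by linarith) hD 2
        nlinarith
      by_cases htb : t ≤ -b
      · have h2 : Real.exp (-b ^ 2 / 2) ≤ Real.exp (-t ^ 2 / 2) := by
          rw [Real.exp_le_exp]
          nlinarith
        have h3 := ch_wt_pos (Icc a b)
        linarith
      · push Not at htb
        have h2 : Real.exp (-δ ^ 2 / 2) ≤ Real.exp (-t ^ 2 / 2) := by
          rw [Real.exp_le_exp]
          nlinarith
        have h3 := ch_exp_num2 hδ.le hδ1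
        have h4 := ch_wt_le_one (Icc a b)
        have h5 := ch_wt_pos (Icc a b)
        nlinarith
    · have h2 : Real.exp (-(11 / 20) ^ 2 / 2) ≤ Real.exp (-t ^ 2 / 2) := by
        rw [Real.exp_le_exp]
        nlinarith
      have h3 := ch_exp_num1
      have h4 := ch_wt_le_one (Icc a b)
      have h5 := ch_wt_pos (Icc a b)
      nlinarith
  calc 83 / 100 * ((√(2 * Real.pi))⁻¹ * wt (Icc a b))
      = (√(2 * Real.pi))⁻¹ * (83 / 100 * wt (Icc a b)) := by ring
    _ ≤ _ := mul_le_mul_of_nonneg_left key hs.le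

theorem ch_gain_left {a b δ : ℝ} (hab : a ≤ b) (hδ : 0 < δ) (hδ1 : δ ≤ 1 / 20)
    (h : 0 < a ∨ (a ≤ 0 ∧ 0 ≤ b ∧ -(1 / 2) ≤ a)) :
    ∀ t ∈ Ico (a - δ) a, 83 / 100 * ((√(2 * Real.pi))⁻¹ * wt (Icc a b)) ≤ chDens t := by
  intro t ht
  rw [mem_Ico] at ht
  unfold chDens
  have hs : 0 < (√(2 * Real.pi))⁻¹ := by positivity
  have key : 83 / 100 * wt (Icc a b) ≤ Real.exp (-t ^ 2 / 2) := by
    rcases h with hb | ⟨ha, hb, hb2⟩
    · have hD : a ≤ Metric.infDist 0 (Icc a b) := by
        refine (Metric.le_infDist (nonempty_Icc.2 hab)).2 fun y hy => ?_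
        rw [Real.dist_eq, zero_sub, abs_neg, abs_of_nonneg (by linarith [hy.1])]
        exact hy.1
      have hw : wt (Icc a b) ≤ Real.exp (-a ^ 2 / 2) := by
        unfold wt
        rw [Real.exp_le_exp]
        have : a ^ 2 ≤ (Metric.infDist 0 (Icc a b)) ^ 2 :=
          pow_le_pow_left₀ (by linarith) hD 2
        nlinarith
      by_cases htb : -a ≤ t
      · have h2 : Real.exp (-a ^ 2 / 2) ≤ Real.exp (-t ^ 2 / 2) := by
          rw [Real.exp_le_exp]
          nlinarith
        have h3 := ch_wt_pos (Icc a b)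
        linarith
      · push Not at htb
        have h2 : Real.exp (-δ ^ 2 / 2) ≤ Real.exp (-t ^ 2 / 2) := by
          rw [Real.exp_le_exp]
          nlinarith
        have h3 := ch_exp_num2 hδ.le hδ1
        have h4 := ch_wt_le_one (Icc a b)
        have h5 := ch_wt_pos (Icc a b)
        nlinarith
    · have h2 : Real.exp (-(11 / 20) ^ 2 / 2) ≤ Real.exp (-t ^ 2 / 2) := by
        rw [Real.exp_le_exp]
        nlinarith
      have h3 := ch_exp_num1
      have h4 := ch_wt_le_one (Icc a b)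
      have h5 := ch_wt_pos (Icc a b)
      nlinarith
  calc 83 / 100 * ((√(2 * Real.pi))⁻¹ * wt (Icc a b))
      = (√(2 * Real.pi))⁻¹ * (83 / 100 * wt (Icc a b)) := by ring
    _ ≤ _ := mul_le_mul_of_nonneg_left key hs.le

/-- lower bound by length times density on a right open interval -/
theorem ch_lower' {a b M : ℝ} (hab : a ≤ b) (hb : ∀ t ∈ Ico a b, M ≤ chDens t) :
    (b - a) * M ≤ (gaussianReal 0 1).real (Ico a b) := by
  rw [ch_real_eq]
  calc (b - a) * M = ∫ _x in Ico a b, M := by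
        rw [setIntegral_const, smul_eq_mul, measureReal_def, Real.volume_Ico,
          ENNReal.toReal_ofReal (by linarith)]
    _ ≤ ∫ x in Ico a b, chDens x :=
        setIntegral_mono_on (integrableOn_const (by rw [Real.volume_Ico]; exact ENNReal.ofReal_ne_top))
          ch_dens_int.integrableOn measurableSet_Ico hb

theorem chord_gain {I : Set ℝ} (hI : Convex ℝ I) (hc : IsClosed I)
    {δ : ℝ} (hδ : 0 < δ) (hδ1 : δ ≤ 1 / 20) (hw : Wide (2 * δ) I) (hw1 : ¬ Wide 1 I) :
    (gaussianReal 0 1).real I + 83 / 100 * (δ / √(2 * Real.pi)) * wt I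
      ≤ (gaussianReal 0 1).real (starOne δ I) := by
  obtain ⟨s, hs1, hs2⟩ := hw
  obtain ⟨a, b, hab, hba, rfl⟩ := ch_eq_Icc hI hc ⟨s, hs1⟩ one_pos hw1
  have hab2 : a + 2 * δ ≤ b := by
    rw [mem_Icc] at hs1 hs2
    linarith [hs1.1, hs2.2]
  have hsup := ch_star_sup hδ hab2
  have e1 : 83 / 100 * (δ / √(2 * Real.pi)) * wt (Icc a b) =
      δ * (83 / 100 * ((√(2 * Real.pi))⁻¹ * wt (Icc a b))) := by
    rw [div_eq_mul_inv]; ring
  rw [e1]
  by_cases hcase : b < 0 ∨ (a ≤ 0 ∧ 0 ≤ b ∧ b ≤ 1 / 2)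
  · have h1 := ch_lower (a := b) (b := b + δ) (by linarith) (ch_gain_right hab hδ hδ1 hcase)
    rw [show b + δ - b = δ by ring] at h1
    have h2 : (gaussianReal 0 1).real (Icc a b ∪ Ioc b (b + δ)) =
        (gaussianReal 0 1).real (Icc a b) + (gaussianReal 0 1).real (Ioc b (b + δ)) := by
      refine measureReal_union ?_ measurableSet_Ioc
      rw [Set.disjoint_left]
      intro t h3 h4
      exact absurd h3.2 (not_le.2 h4.1)
    have h3 : (gaussianReal 0 1).real (Icc a b ∪ Ioc b (b + δ)) ≤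
        (gaussianReal 0 1).real (starOne δ (Icc a b)) := by
      refine measureReal_mono (Subset.trans ?_ hsup)
      intro t ht
      rcases ht with ht | ht
      · exact ⟨by linarith [ht.1], by linarith [ht.2]⟩
      · exact ⟨by linarith [ht.1], ht.2⟩
    linarith
  · have hcase' : 0 < a ∨ (a ≤ 0 ∧ 0 ≤ b ∧ -(1 / 2) ≤ a) := by
      by_cases ha : 0 < a
      · exact Or.inl ha
      · right
        push Not at ha hcase
        obtain ⟨hb0, hb1⟩ := hcase
        have hb2 := hb1 ha hb0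
        exact ⟨ha, hb0, by linarith⟩
    have h1 := ch_lower' (a := a - δ) (b := a) (by linarith) (ch_gain_left hab hδ hδ1 hcase')
    rw [show a - (a - δ) = δ by ring] at h1
    have h2 : (gaussianReal 0 1).real (Icc a b ∪ Ico (a - δ) a) =
        (gaussianReal 0 1).real (Icc a b) + (gaussianReal 0 1).real (Ico (a - δ) a) := by
      refine measureReal_union ?_ measurableSet_Ico
      rw [Set.disjoint_left]
      intro t h3 h4
      exact absurd h3.1 (not_le.2 h4.2)
    have h3 : (gaussianReal 0 1).real (Icc a b ∪ Ico (a - δ) a) ≤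
        (gaussianReal 0 1).real (starOne δ (Icc a b)) := by
      refine measureReal_mono (Subset.trans ?_ hsup)
      intro t ht
      rcases ht with ht | ht
      · exact ⟨by linarith [ht.1], by linarith [ht.2]⟩
      · exact ⟨ht.1, by linarith [ht.2]⟩
    linarith

end Vale.Agent.P262F
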