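import Vale.Agent.Lib.P262F.Defs

/-! Facts on the clocks and the density function. -/

namespace Vale.Agent.P262F

open Finset Real

theorem Wt_nonneg {d : ℕ} (σ : Fin d → ℝ) (s : ℝ) : 0 ≤ Wt σ s := by
  unfold Wt
  positivity

theorem Wt_lip {d : ℕ} (σ : Fin d → ℝ) (s t : ℝ) :
    Wt σ s ≤ (2 : ℝ) ^ (cc * |s - t|) * Wt σ t := by
  unfold Wt
  rw [Finset.mul_sum]
  refine Finset.sum_le_sum fun k _ => ?_
  rw [← Real.rpow_add two_pos]
  refine Real.rpow_le_rpow_of_exponent_le one_le_two ?_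
  have h1 : |t - σ k| ≤ |s - t| + |s - σ k| := by
    have := abs_sub_le t s (σ k)
    rwa [abs_sub_comm t s] at this
  have h2 : (0 : ℝ) < cc := by unfold cc; norm_num
  nlinarith

theorem Clock.logWt_nonneg {d : ℕ} (σ : Fin d → ℝ) (s : ℝ) : 0 ≤ logb 2 (1 + Wt σ s) :=
  Real.logb_nonneg one_lt_two (by linarith [Wt_nonneg σ s])

theorem Clock.logWt_lip {d : ℕ} (σ : Fin d → ℝ) (s t : ℝ) :
    logb 2 (1 + Wt σ s) ≤ logb 2 (1 + Wt σ t) + cc * |s - t| := by
  have hc : (0 : ℝ) ≤ cc * |s - t| := by unfold cc; positivity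
  have h0 := Wt_nonneg σ s
  have h1 := Wt_nonneg σ t
  have h2 := Wt_lip σ s t
  have h3 : (1 : ℝ) ≤ (2 : ℝ) ^ (cc * |s - t|) := Real.one_le_rpow one_le_two hc
  have h4 : 1 + Wt σ s ≤ (1 + Wt σ t) * (2 : ℝ) ^ (cc * |s - t|) := by nlinarith
  have h5 : logb 2 ((1 + Wt σ t) * (2 : ℝ) ^ (cc * |s - t|)) =
      logb 2 (1 + Wt σ t) + cc * |s - t| := by
    rw [Real.logb_mul (by positivity) (by positivity), Real.logb_rpow two_pos (by norm_num)]
  rw [← h5]
  exact Real.logb_le_logb_of_le one_lt_two (by positivity) h4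

theorem Clock.abs_logWt {d : ℕ} (σ : Fin d → ℝ) (s t : ℝ) :
    |logb 2 (1 + Wt σ s) - logb 2 (1 + Wt σ t)| ≤ cc * |s - t| := by
  rw [abs_le]
  have h1 := Clock.logWt_lip σ s t
  have h2 := Clock.logWt_lip σ t s
  rw [abs_sub_comm t s] at h2
  constructor <;> linarith

theorem Clock.Wt_le {d : ℕ} (σ : Fin d → ℝ) (s : ℝ) : Wt σ s ≤ (2 : ℝ) ^ logb 2 (1 + Wt σ s) := by
  rw [Real.rpow_logb two_pos (by norm_num) (by linarith [Wt_nonneg σ s])]
  linarith

namespace Par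

variable {d : ℕ} (p : Par d)

theorem h0_le_hs (s : ℕ) : p.h0 ≤ p.hs s := Nat.le_add_right _ _

theorem hs_ge (s : ℕ) : (2000 : ℝ) ≤ p.hs s := by
  have h1 : 2000 ≤ p.hs s := p.hh0.trans (p.h0_le_hs s)
  exact_mod_cast h1

theorem h0_le_eta (k : Fin d) : (p.h0 : ℝ) ≤ p.eta k := by
  unfold eta
  linarith [Clock.logWt_nonneg p.σ (p.σ k)]

theorem eta_ge (k : Fin d) : (2000 : ℝ) ≤ p.eta k := by
  have h1 : (2000 : ℝ) ≤ p.h0 := by exact_mod_cast p.hh0
  linarith [p.h0_le_eta k]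

theorem hs_bounds (s : ℕ) : (p.h0 : ℝ) + logb 2 (1 + Wt p.σ s) ≤ p.hs s ∧
    (p.hs s : ℝ) < p.h0 + logb 2 (1 + Wt p.σ s) + 1 := by
  unfold hs
  push_cast
  have h1 := Nat.le_ceil (logb 2 (1 + Wt p.σ s))
  have h2 := Nat.ceil_lt_add_one (Clock.logWt_nonneg p.σ s)
  constructor <;> linarith

/-- the key regularity of the round lengths -/
theorem hs_lip (s : ℕ) (k : Fin d) : |(p.hs s : ℝ) - p.eta k| ≤ cc * |p.xx s k| + 1 := by
  have h1 := p.hs_bounds s
  have h2 := abs_le.mp (Clock.abs_logWt p.σ s (p.σ k))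
  unfold eta xx
  rw [abs_le]
  constructor <;> linarith [h1.1, h1.2, h2.1, h2.2]

theorem eta_lip (k l : Fin d) : |p.eta k - p.eta l| ≤ cc * |p.σ k - p.σ l| := by
  unfold eta
  rw [add_sub_add_left_eq_sub]
  exact Clock.abs_logWt p.σ _ _

theorem sum_cc_le (s : ℕ) :
    ∑ k, (2 : ℝ) ^ (-(cc * |p.xx s k|)) ≤ (2 : ℝ) ^ ((p.hs s : ℝ) - p.h0) := by
  have h1 := Clock.Wt_le p.σ s
  have h2 : Wt p.σ s = ∑ k, (2 : ℝ) ^ (-(cc * |p.xx s k|)) := rfl
  rw [← h2]
  refine h1.trans (Real.rpow_le_rpow_of_exponent_le one_le_two ?_)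
  linarith [(p.hs_bounds s).1]

theorem hs_le (s : ℕ) : (p.hs s : ℝ) ≤ p.h0 + 1 + 2 * Wt p.σ s := by
  have h1 := (p.hs_bounds s).2
  have h2 := Wt_nonneg p.σ s
  have h3 : logb 2 (1 + Wt p.σ s) ≤ 2 * Wt p.σ s := by
    unfold logb
    have h4 : (1 / 2 : ℝ) < Real.log 2 := by
      have := Real.log_two_gt_d9
      linarith
    rw [div_le_iff₀ (by linarith)]
    have h5 : Real.log (1 + Wt p.σ s) ≤ Wt p.σ s := by
      have := Real.log_le_sub_one_of_pos (show 0 < 1 + Wt p.σ s by linarith)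
      linarith
    nlinarith
  linarith

theorem mem_act {s : ℕ} {k : Fin d} : k ∈ p.act s ↔ (s : ℝ) ≤ p.tau k := by
  simp [act]

theorem mem_dead {s : ℕ} {k : Fin d} : k ∈ p.dead s ↔ 40 * p.eta k ≤ p.xx s k := by
  simp [dead]

theorem mem_tr {s : ℕ} {k : Fin d} : k ∈ p.tr s ↔ p.tau k < s ∧ p.xx s k < 40 * p.eta k := by
  simp [tr]

theorem mem_lev {s : ℕ} {g : ℝ} {k : Fin d} :
    k ∈ p.lev s g ↔ p.xx s k < 40 * p.eta k ∧ p.tau k < g := by
  simp [lev]

theorem mem_below {g : ℝ} {k : Fin d} : k ∈ p.below g ↔ p.tau k < g := by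
  simp [below]

/-- every coordinate is active, in transition, or dead -/
theorem trichotomy (s : ℕ) (k : Fin d) : k ∈ p.act s ∨ k ∈ p.tr s ∨ k ∈ p.dead s := by
  rw [mem_act, mem_tr, mem_dead]
  rcases le_or_gt (s : ℝ) (p.tau k) with h1 | h1
  · exact Or.inl h1
  · rcases lt_or_ge (p.xx s k) (40 * p.eta k) with h2 | h2
    · exact Or.inr (Or.inl ⟨h1, h2⟩)
    · exact Or.inr (Or.inr h2)

theorem act_le {s : ℕ} {k : Fin d} (h : k ∈ p.act s) : p.xx s k ≤ -(40 * p.eta k) := by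
  rw [mem_act] at h
  unfold tau at h
  unfold xx
  linarith

theorem act_not_dead {s : ℕ} {k : Fin d} (h : k ∈ p.act s) : k ∉ p.dead s := by
  intro h'
  rw [mem_dead] at h'
  have h1 := p.act_le h
  have h2 := p.eta_ge k
  linarith

theorem act_not_tr {s : ℕ} {k : Fin d} (h : k ∈ p.act s) : k ∉ p.tr s := by
  intro h'
  rw [mem_act] at h
  rw [mem_tr] at h'
  linarith [h'.1]

theorem tr_not_dead {s : ℕ} {k : Fin d} (h : k ∈ p.tr s) : k ∉ p.dead s := by
  intro h'
  rw [mem_tr] at h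
  rw [mem_dead] at h'
  linarith [h.2]

theorem xx_add (s h : ℕ) (k : Fin d) : p.xx (s + h) k = p.xx s k + h := by
  unfold xx
  push_cast
  ring

theorem mu_add (s h : ℕ) (l : Fin d) : p.mu (s + h) l = p.mu s l / 2 ^ h := by
  unfold mu
  rw [xx_add, neg_add, Real.rpow_add two_pos, Real.rpow_neg zero_le_two (h : ℝ),
    Real.rpow_natCast, div_eq_mul_inv]

theorem mu_pos (s : ℕ) (l : Fin d) : 0 < p.mu s l := by
  unfold mu
  positivity

theorem act_anti (s h : ℕ) : p.act (s + h) ⊆ p.act s := by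
  intro k hk
  rw [mem_act] at hk ⊢
  push_cast at hk
  have : (0 : ℝ) ≤ h := Nat.cast_nonneg h
  linarith

theorem dead_mono (s h : ℕ) : p.dead s ⊆ p.dead (s + h) := by
  intro k hk
  rw [mem_dead] at hk ⊢
  rw [xx_add]
  have : (0 : ℝ) ≤ h := Nat.cast_nonneg h
  linarith

theorem lev_anti (s h : ℕ) (g : ℝ) : p.lev (s + h) g ⊆ p.lev s g := by
  intro k hk
  rw [mem_lev] at hk ⊢
  rw [xx_add] at hk
  have : (0 : ℝ) ≤ h := Nat.cast_nonneg h
  exact ⟨by linarith [hk.1], hk.2⟩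

theorem act_xx {s : ℕ} {k : Fin d} (h : k ∈ p.act s) : 39 * (p.hs s : ℝ) ≤ -(p.xx s k) := by
  have h1 := p.act_le h
  have h2 := p.eta_ge k
  have h3 := p.hs_ge s
  have h4 := (abs_le.mp (p.hs_lip s k)).2
  rw [abs_of_nonpos (by linarith)] at h4
  unfold cc at h4
  linarith

theorem dead_xx {s : ℕ} {k : Fin d} (h : k ∈ p.dead s) : 39 * (p.hs s : ℝ) ≤ p.xx s k := by
  rw [mem_dead] at h
  have h2 := p.eta_ge k
  have h3 := p.hs_ge s
  have h4 := (abs_le.mp (p.hs_lip s k)).2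
  rw [abs_of_nonneg (by linarith)] at h4
  unfold cc at h4
  linarith

theorem tr_xx {s : ℕ} {k : Fin d} (h : k ∈ p.tr s) : |p.xx s k| ≤ 41 * (p.hs s : ℝ) := by
  rw [mem_tr] at h
  have h1 : |p.xx s k| ≤ 40 * p.eta k := by
    rw [abs_le]
    refine ⟨?_, h.2.le⟩
    have := h.1
    unfold tau at this
    unfold xx
    linarith
  have h3 := p.hs_ge s
  have h4 := (abs_le.mp (p.hs_lip s k)).1
  unfold cc at h4
  linarith

/-- during the transition (and one round before it and after it) the round length is close to `eta k` -/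
theorem hs_near {s : ℕ} {k : Fin d} (h : |p.xx s k| ≤ 40 * p.eta k) :
    97 / 100 * p.eta k ≤ p.hs s ∧ (p.hs s : ℝ) ≤ 103 / 100 * p.eta k := by
  have h2 := p.eta_ge k
  have h4 := abs_le.mp (p.hs_lip s k)
  unfold cc at h4
  constructor <;> linarith [h4.1, h4.2]

theorem tr_abs {s : ℕ} {k : Fin d} (h : k ∈ p.tr s) : |p.xx s k| ≤ 40 * p.eta k := by
  rw [mem_tr] at h
  rw [abs_le]
  refine ⟨?_, h.2.le⟩
  have := h.1
  unfold tau at this
  unfold xx
  linarith

theorem Clock_card_le (s : ℕ) {A : ℝ} (J : Finset (Fin d)) (hJ : ∀ k ∈ J, |p.xx s k| ≤ A) :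
    (J.card : ℝ) ≤ (2 : ℝ) ^ (cc * A + ((p.hs s : ℝ) - p.h0)) := by
  have hc : (0 : ℝ) < cc := by unfold cc; norm_num
  have h1 : (J.card : ℝ) ≤ ∑ k ∈ J, (2 : ℝ) ^ (cc * A) * (2 : ℝ) ^ (-(cc * |p.xx s k|)) := by
    rw [Finset.card_eq_sum_ones, Nat.cast_sum]
    refine Finset.sum_le_sum fun k hk => ?_
    rw [← Real.rpow_add two_pos, Nat.cast_one]
    refine Real.one_le_rpow one_le_two ?_
    have := hJ k hk
    nlinarith
  refine h1.trans ?_
  rw [← Finset.mul_sum, Real.rpow_add two_pos]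
  refine mul_le_mul_of_nonneg_left (le_trans ?_ (p.sum_cc_le s)) (by positivity)
  exact Finset.sum_le_sum_of_subset_of_nonneg (Finset.subset_univ _) fun k _ _ => by positivity

theorem card_tr_le (s : ℕ) : ((p.tr s).card : ℝ) ≤ (2 : ℝ) ^ (103 / 100 * (p.hs s : ℝ)) := by
  refine (p.Clock_card_le s (p.tr s) (A := 41 * (p.hs s : ℝ)) fun k hk => p.tr_xx hk).trans ?_
  refine Real.rpow_le_rpow_of_exponent_le one_le_two ?_
  have h1 := p.hs_ge s
  have h2 : (0 : ℝ) ≤ p.h0 := Nat.cast_nonneg _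
  unfold cc
  linarith

/-- coordinates which freeze in the current round: they are in transition afterwards -/
theorem new_tr {s : ℕ} {k : Fin d} (h : k ∈ p.act s) (h' : k ∉ p.act (s + p.hs s)) :
    k ∈ p.tr (s + p.hs s) ∧ |p.xx s k| ≤ 42 * (p.hs s : ℝ) ∧
      (p.hs s : ℝ) ≤ 104 / 100 * p.eta k ∧ 96 / 100 * p.eta k ≤ p.hs s := by
  have h1 := p.act_le h
  have h2 := p.eta_ge k
  have h3 := p.hs_ge s
  have h5 := abs_le.mp (p.hs_lip s k)
  rw [mem_act] at h'
  push_cast at h'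
  have h6 : -(p.xx s k) < 40 * p.eta k + p.hs s := by
    unfold tau at h'
    unfold xx
    linarith
  have hx : |p.xx s k| = -(p.xx s k) := abs_of_nonpos (by linarith)
  rw [hx] at h5 ⊢
  unfold cc at h5
  obtain ⟨h5a, h5b⟩ := h5
  have h7 : (p.hs s : ℝ) ≤ 104 / 100 * p.eta k := by linarith
  refine ⟨?_, by linarith, h7, by linarith⟩
  rw [mem_tr, xx_add]
  push_cast
  exact ⟨by linarith, by linarith⟩

/-- the age of a coordinate which dies in the current round -/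
theorem new_dead {s : ℕ} {k : Fin d} (h : k ∈ p.tr s) (h' : k ∈ p.dead (s + p.hs s)) :
    p.xx (s + p.hs s) k ≤ 411 / 10 * p.eta k := by
  have h1 := p.hs_near (p.tr_abs h)
  have h2 := p.eta_ge k
  rw [mem_tr] at h
  rw [xx_add]
  linarith [h.2, h1.2]

/-- the number of active coordinates before time `g`, at the next time -/
theorem nact_le (s : ℕ) (g : ℝ) :
    p.nact s g ≤ p.nact (s + p.hs s) g + (2 : ℝ) ^ (103 / 100 * (p.hs s : ℝ)) := by
  classical
  have h1 : (p.act s).filter (fun k => p.tau k < g) ⊆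
      (p.act (s + p.hs s)).filter (fun k => p.tau k < g) ∪ (p.act s \ p.act (s + p.hs s)) := by
    intro k hk
    rw [Finset.mem_filter] at hk
    rw [Finset.mem_union, Finset.mem_filter, Finset.mem_sdiff]
    by_cases h2 : k ∈ p.act (s + p.hs s)
    · exact Or.inl ⟨h2, hk.2⟩
    · exact Or.inr ⟨hk.1, h2⟩
  have h2 := (Finset.card_le_card h1).trans (Finset.card_union_le _ _)
  have h3 : ((p.act s \ p.act (s + p.hs s)).card : ℝ) ≤
      (2 : ℝ) ^ (103 / 100 * (p.hs s : ℝ)) := by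
    refine (p.Clock_card_le s (p.act s \ p.act (s + p.hs s)) (A := 42 * (p.hs s : ℝ))
      fun k hk => ?_).trans ?_
    · rw [Finset.mem_sdiff] at hk
      exact (p.new_tr hk.1 hk.2).2.1
    · refine Real.rpow_le_rpow_of_exponent_le one_le_two ?_
      have h1 := p.hs_ge s
      have h2 : (0 : ℝ) ≤ p.h0 := Nat.cast_nonneg _
      unfold cc
      linarith
  unfold nact
  have h4 : (((p.act s).filter (fun k => p.tau k < g)).card : ℝ) ≤
      (((p.act (s + p.hs s)).filter (fun k => p.tau k < g)).card : ℝ) +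
        ((p.act s \ p.act (s + p.hs s)).card : ℝ) := by exact_mod_cast h2
  linarith

theorem card_lev_le (s : ℕ) {g : ℝ} (hg : (s : ℝ) ≤ g) :
    ((p.lev s g).card : ℝ) = (p.tr s).card + p.nact s g := by
  classical
  unfold nact
  have h1 : p.lev s g = p.tr s ∪ (p.act s).filter (fun k => p.tau k < g) := by
    ext k
    rw [mem_lev, Finset.mem_union, mem_tr, Finset.mem_filter, mem_act]
    constructor
    · rintro ⟨a, b⟩
      rcases le_or_gt (s : ℝ) (p.tau k) with h1 | h1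
      · exact Or.inr ⟨h1, b⟩
      · exact Or.inl ⟨h1, a⟩
    · rintro (⟨a, b⟩ | ⟨a, b⟩)
      · exact ⟨b, a.trans_le hg⟩
      · refine ⟨?_, b⟩
        have h2 := p.act_le (p.mem_act.mpr a)
        have h3 := p.eta_ge k
        linarith
  have h2 : Disjoint (p.tr s) ((p.act s).filter (fun k => p.tau k < g)) := by
    rw [Finset.disjoint_left]
    intro k hk hk'
    rw [Finset.mem_filter] at hk'
    exact p.act_not_tr hk'.1 hk
  rw [h1, Finset.card_union_of_disjoint h2, Nat.cast_add]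

theorem card_below_eq (s : ℕ) {g : ℝ} (hg : (s : ℝ) ≤ g) :
    ((p.below g).card : ℝ) = (p.below s).card + p.nact s g := by
  classical
  unfold nact
  have h1 : p.below g = p.below s ∪ (p.act s).filter (fun k => p.tau k < g) := by
    ext k
    rw [mem_below, Finset.mem_union, mem_below, Finset.mem_filter, mem_act]
    constructor
    · intro b
      rcases le_or_gt (s : ℝ) (p.tau k) with h1 | h1
      · exact Or.inr ⟨h1, b⟩
      · exact Or.inl h1
    · rintro (a | ⟨a, b⟩)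
      · exact a.trans_le hg
      · exact b
  have h2 : Disjoint (p.below s) ((p.act s).filter (fun k => p.tau k < g)) := by
    rw [Finset.disjoint_left]
    intro k hk hk'
    rw [Finset.mem_filter, mem_act] at hk'
    rw [mem_below] at hk
    linarith [hk'.1]
  rw [h1, Finset.card_union_of_disjoint h2, Nat.cast_add]

end Par

end Vale.Agent.P262F
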