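import Vale.Agent.Lib.P262F.Clock

/-! The clocks and the total budget. -/

namespace Vale.Agent.P262F

open Finset Real

namespace Par

variable {d : ℕ} (p : Par d)

theorem one_le_rr (s : ℕ) (k : Fin d) : 1 ≤ p.rr s k := by
  unfold rr
  have : (-42 : ℝ) ≤ max (-42) (min 42 (p.xx s k / p.eta k)) := le_max_left _ _
  linarith

theorem rr_le (s : ℕ) (k : Fin d) : p.rr s k ≤ 85 := by
  unfold rr
  have : max (-42) (min 42 (p.xx s k / p.eta k)) ≤ (42 : ℝ) :=
    max_le (by norm_num) (min_le_left _ _)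
  linarith

theorem clockHH_eta_pos (k : Fin d) : 0 < p.eta k := by
  have := p.eta_ge k
  linarith

theorem rr_mono (s h : ℕ) (k : Fin d) : p.rr s k ≤ p.rr (s + h) k := by
  unfold rr
  have h1 := p.clockHH_eta_pos k
  have h2 : p.xx s k / p.eta k ≤ p.xx (s + h) k / p.eta k := by
    refine div_le_div_of_nonneg_right ?_ h1.le
    rw [xx_add]
    have : (0 : ℝ) ≤ h := Nat.cast_nonneg h
    linarith
  have h3 := max_le_max (le_refl (-42 : ℝ)) (min_le_min (le_refl (42 : ℝ)) h2)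
  linarith

theorem rr_step {s : ℕ} {k : Fin d} (h : k ∈ p.tr s) :
    p.rr s k + 9 / 10 ≤ p.rr (s + p.hs s) k := by
  have h1 := p.clockHH_eta_pos k
  have habs := p.tr_abs h
  obtain ⟨hn1, hn2⟩ := p.hs_near habs
  obtain ⟨ha1, ha2⟩ := abs_le.1 habs
  have e1 : -40 ≤ p.xx s k / p.eta k := by
    rw [le_div_iff₀ h1]; linarith
  have e2 : p.xx s k / p.eta k ≤ 40 := by
    rw [div_le_iff₀ h1]; linarith
  have e3 : 97 / 100 ≤ (p.hs s : ℝ) / p.eta k := by
    rw [le_div_iff₀ h1]; exact hn1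
  have e4 : (p.hs s : ℝ) / p.eta k ≤ 103 / 100 := by
    rw [div_le_iff₀ h1]; exact hn2
  unfold rr
  rw [xx_add, add_div]
  rw [min_eq_right (by linarith), max_eq_right (by linarith), min_eq_right (by linarith),
    max_eq_right (by linarith)]
  linarith

theorem clockHH_cc_pos : (0 : ℝ) < cc := by unfold cc; norm_num

theorem clockHH_Gf_nonneg (x : ℝ) : 0 ≤ Gf x := by
  unfold Gf
  split_ifs with hx
  · positivity
  · have : (2 : ℝ) ^ (-(cc * x)) ≤ 1 := by
      refine rpow_le_one_of_one_le_of_nonpos (by norm_num) ?_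
      push Not at hx
      nlinarith [clockHH_cc_pos]
    linarith

theorem clockHH_Gf_le (x : ℝ) : Gf x ≤ 2 := by
  unfold Gf
  split_ifs with hx
  · have : (2 : ℝ) ^ (cc * x) ≤ 1 := by
      refine rpow_le_one_of_one_le_of_nonpos (by norm_num) ?_
      nlinarith [clockHH_cc_pos]
    linarith
  · have : 0 < (2 : ℝ) ^ (-(cc * x)) := by positivity
    linarith

/-- `2^(1/2) ≥ 7/5` -/
theorem clockHH_half : (2 : ℝ) ^ (-(1 / 2) : ℝ) ≤ 3 / 4 := by
  have h1 : (0 : ℝ) ≤ (2 : ℝ) ^ (-(1 / 2) : ℝ) := by positivity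
  have h2 : ((2 : ℝ) ^ (-(1 / 2) : ℝ)) ^ 2 = 1 / 2 := by
    rw [← rpow_natCast, ← rpow_mul (by norm_num)]
    norm_num
  nlinarith

theorem clockHH_Gf_step {x h : ℝ} (hh : 2000 ≤ h) :
    Gf x + 1 / 4 * (2 : ℝ) ^ (-(cc * |x|)) ≤ Gf (x + h) := by
  have hcc : cc = 1 / 2000 := rfl
  have hch : 1 ≤ cc * h := by rw [hcc]; linarith
  have h2pos : (0 : ℝ) < 2 := by norm_num
  have hK : (2 : ℝ) ≤ (2 : ℝ) ^ (cc * h) := by
    calc (2 : ℝ) = (2 : ℝ) ^ (1 : ℝ) := (rpow_one 2).symm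
      _ ≤ _ := rpow_le_rpow_of_exponent_le (by norm_num) hch
  have hKi : (2 : ℝ) ^ (-(cc * h)) ≤ 1 / 2 := by
    calc (2 : ℝ) ^ (-(cc * h)) ≤ (2 : ℝ) ^ (-1 : ℝ) :=
          rpow_le_rpow_of_exponent_le (by norm_num) (by linarith)
      _ = 1 / 2 := by rw [rpow_neg_one]; norm_num
  by_cases hx : x ≤ 0
  · rw [abs_of_nonpos hx]
    have e0 : -(cc * -x) = cc * x := by ring
    rw [e0]
    by_cases hxh : x + h ≤ 0
    · have e : Gf (x + h) = (2 : ℝ) ^ (cc * x) * (2 : ℝ) ^ (cc * h) := by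
        unfold Gf
        rw [if_pos hxh, ← rpow_add h2pos]
        congr 1; ring
      have e' : Gf x = (2 : ℝ) ^ (cc * x) := by unfold Gf; rw [if_pos hx]
      rw [e, e']
      have : 0 < (2 : ℝ) ^ (cc * x) := by positivity
      nlinarith
    · have e : Gf (x + h) = 2 - (2 : ℝ) ^ (-(cc * (x + h))) := by
        unfold Gf; rw [if_neg hxh]
      have e' : Gf x = (2 : ℝ) ^ (cc * x) := by unfold Gf; rw [if_pos hx]
      rw [e, e']
      push Not at hxh
      have hle1 : (2 : ℝ) ^ (cc * x) ≤ 1 :=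
        rpow_le_one_of_one_le_of_nonpos (by norm_num) (by rw [hcc]; linarith)
      have hle2 : (2 : ℝ) ^ (-(cc * (x + h))) ≤ 1 :=
        rpow_le_one_of_one_le_of_nonpos (by norm_num) (by rw [hcc]; linarith)
      by_cases hc : x ≤ -1000
      · have : (2 : ℝ) ^ (cc * x) ≤ 3 / 4 := by
          refine le_trans (rpow_le_rpow_of_exponent_le (by norm_num) ?_) clockHH_half
          rw [hcc]; linarith
        linarith
      · push Not at hc
        have : (2 : ℝ) ^ (-(cc * (x + h))) ≤ 3 / 4 := by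
          refine le_trans (rpow_le_rpow_of_exponent_le (by norm_num) ?_) clockHH_half
          rw [hcc]; linarith
        linarith
  · push Not at hx
    rw [abs_of_pos hx]
    have hxh : ¬ (x + h ≤ 0) := by linarith
    have e : Gf (x + h) = 2 - (2 : ℝ) ^ (-(cc * x)) * (2 : ℝ) ^ (-(cc * h)) := by
      unfold Gf
      rw [if_neg hxh, ← rpow_add h2pos]
      congr 2; ring
    have e' : Gf x = 2 - (2 : ℝ) ^ (-(cc * x)) := by
      unfold Gf; rw [if_neg (not_le.2 hx)]
    rw [e, e']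
    have : 0 < (2 : ℝ) ^ (-(cc * x)) := by positivity
    nlinarith

theorem HH_nonneg (s : ℕ) : 0 ≤ p.HH s := by
  unfold HH
  refine Finset.sum_nonneg fun k _ => ?_
  have h1 := p.one_le_rr s k
  have h2 := clockHH_Gf_nonneg (p.xx s k)
  linarith

theorem HH_le (s : ℕ) : p.HH s ≤ 9000 * d := by
  unfold HH
  calc ∑ k, (10 / 9 * (p.rr s k - 1) + 4000 * Gf (p.xx s k)) ≤ ∑ _k : Fin d, (9000 : ℝ) := by
        refine Finset.sum_le_sum fun k _ => ?_
        have h1 := p.rr_le s k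
        have h2 := clockHH_Gf_le (p.xx s k)
        linarith
    _ = 9000 * d := by simp [mul_comm]

theorem HH_step (s : ℕ) :
    p.HH s + ((p.tr s).card + Wt p.σ s) ≤ p.HH (s + p.hs s) := by
  have hcard : ((p.tr s).card : ℝ) = ∑ k : Fin d, if k ∈ p.tr s then (1 : ℝ) else 0 := by
    rw [Finset.sum_ite_mem, Finset.univ_inter]
    simp
  rw [hcard]
  unfold HH Wt
  rw [← Finset.sum_add_distrib, ← Finset.sum_add_distrib]
  refine Finset.sum_le_sum fun k _ => ?_
  have h1 := clockHH_Gf_step (x := p.xx s k) (p.hs_ge s)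
  have h2 : (if k ∈ p.tr s then (1 : ℝ) else 0) ≤
      10 / 9 * (p.rr (s + p.hs s) k - p.rr s k) := by
    split_ifs with hk
    · have := p.rr_step hk
      linarith
    · have := p.rr_mono s (p.hs s) k
      linarith
  have h3 : p.xx (s + p.hs s) k = p.xx s k + p.hs s := p.xx_add s (p.hs s) k
  rw [h3]
  have h4 : 0 < (2 : ℝ) ^ (-(cc * |p.xx s k|)) := by positivity
  have h5 : (s : ℝ) - p.σ k = p.xx s k := rfl
  rw [h5]
  linarith

end Par

end Vale.Agent.P262F
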