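import Vale.Agent.Lib.P262F.Clock

/-! Sums over the active coordinates. -/

namespace Vale.Agent.P262F

open Finset Real

namespace Par

variable {d : ℕ} (p : Par d)

private theorem csum_h0_nonneg : (0 : ℝ) ≤ p.h0 := Nat.cast_nonneg _

private theorem csum_sum_cc (s : ℕ) (S : Finset (Fin d)) :
    ∑ k ∈ S, (2 : ℝ) ^ (-(cc * |p.xx s k|)) ≤ (2 : ℝ) ^ (p.hs s : ℝ) := by
  have h1 : ∑ k ∈ S, (2 : ℝ) ^ (-(cc * |p.xx s k|)) ≤ ∑ k, (2 : ℝ) ^ (-(cc * |p.xx s k|)) :=
    Finset.sum_le_sum_of_subset_of_nonneg (Finset.subset_univ _) fun _ _ _ => by positivity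
  refine (h1.trans (p.sum_cc_le s)).trans ?_
  exact Real.rpow_le_rpow_of_exponent_le (by norm_num) (by linarith [csum_h0_nonneg p])

/-- few active coordinates freeze before an active coordinate `k` -/
theorem card_below_act {s : ℕ} {k : Fin d} (h : k ∈ p.act s) :
    (((p.act s).filter (fun l => p.tau l ≤ p.tau k)).card : ℝ)
      ≤ (2 : ℝ) ^ (3 / 100 * -(p.xx s k)) := by
  have hk := p.act_xx h
  have hh := p.hs_ge s
  have h1 : ∀ l ∈ (p.act s).filter (fun l => p.tau l ≤ p.tau k),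
      (1 : ℝ) ≤ (2 : ℝ) ^ (cc * -(p.xx s k)) * (2 : ℝ) ^ (-(cc * |p.xx s l|)) := by
    intro l hl
    rw [Finset.mem_filter] at hl
    obtain ⟨hl1, hl2⟩ := hl
    have hxl := p.act_xx hl1
    have h2 : p.σ l ≤ p.σ k := by
      by_contra hcon
      push Not at hcon
      have h3 := p.eta_lip l k
      have h4 := le_abs_self (p.eta l - p.eta k)
      rw [abs_of_pos (show 0 < p.σ l - p.σ k by linarith)] at h3
      unfold tau at hl2
      unfold cc at h3
      linarith
    rw [← Real.rpow_add (by norm_num)]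
    apply Real.one_le_rpow (by norm_num)
    have h3 : |p.xx s l| = -(p.xx s l) := abs_of_nonpos (by linarith)
    rw [h3]
    unfold xx
    unfold cc
    linarith
  calc (((p.act s).filter (fun l => p.tau l ≤ p.tau k)).card : ℝ)
      = ∑ l ∈ (p.act s).filter (fun l => p.tau l ≤ p.tau k), (1 : ℝ) := by simp
    _ ≤ ∑ l ∈ (p.act s).filter (fun l => p.tau l ≤ p.tau k),
        (2 : ℝ) ^ (cc * -(p.xx s k)) * (2 : ℝ) ^ (-(cc * |p.xx s l|)) := Finset.sum_le_sum h1
    _ = (2 : ℝ) ^ (cc * -(p.xx s k)) *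
        ∑ l ∈ (p.act s).filter (fun l => p.tau l ≤ p.tau k), (2 : ℝ) ^ (-(cc * |p.xx s l|)) := by
        rw [Finset.mul_sum]
    _ ≤ (2 : ℝ) ^ (cc * -(p.xx s k)) * (2 : ℝ) ^ (p.hs s : ℝ) :=
        mul_le_mul_of_nonneg_left (csum_sum_cc p s _) (by positivity)
    _ = (2 : ℝ) ^ (cc * -(p.xx s k) + p.hs s) := by rw [← Real.rpow_add (by norm_num)]
    _ ≤ (2 : ℝ) ^ (3 / 100 * -(p.xx s k)) := by
        apply Real.rpow_le_rpow_of_exponent_le (by norm_num)
        unfold cc
        linarith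

theorem sum_act_le (s : ℕ) {a : ℝ} (ha : cc ≤ a) :
    ∑ l ∈ p.act s, (2 : ℝ) ^ (a * p.xx s l)
      ≤ (2 : ℝ) ^ (-(39 * (a - cc) * (p.hs s : ℝ)) + p.hs s) := by
  have h1 : ∀ l ∈ p.act s, (2 : ℝ) ^ (a * p.xx s l) ≤
      (2 : ℝ) ^ (-(39 * (a - cc) * (p.hs s : ℝ))) * (2 : ℝ) ^ (-(cc * |p.xx s l|)) := by
    intro l hl
    have hxl := p.act_xx hl
    have hh := p.hs_ge s
    rw [← Real.rpow_add (by norm_num)]
    apply Real.rpow_le_rpow_of_exponent_le (by norm_num)
    have h3 : |p.xx s l| = -(p.xx s l) := abs_of_nonpos (by linarith)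
    rw [h3]
    nlinarith [mul_le_mul_of_nonneg_left hxl (sub_nonneg.2 ha)]
  calc ∑ l ∈ p.act s, (2 : ℝ) ^ (a * p.xx s l)
      ≤ ∑ l ∈ p.act s, (2 : ℝ) ^ (-(39 * (a - cc) * (p.hs s : ℝ))) *
        (2 : ℝ) ^ (-(cc * |p.xx s l|)) := Finset.sum_le_sum h1
    _ = (2 : ℝ) ^ (-(39 * (a - cc) * (p.hs s : ℝ))) *
        ∑ l ∈ p.act s, (2 : ℝ) ^ (-(cc * |p.xx s l|)) := by rw [Finset.mul_sum]
    _ ≤ (2 : ℝ) ^ (-(39 * (a - cc) * (p.hs s : ℝ))) * (2 : ℝ) ^ (p.hs s : ℝ) :=
        mul_le_mul_of_nonneg_left (csum_sum_cc p s _) (by positivity)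
    _ = _ := by rw [← Real.rpow_add (by norm_num)]

theorem sum_mu_le (s : ℕ) {a : ℝ} (ha : cc ≤ a) :
    ∑ l ∈ p.act s, (p.mu (s + p.hs s) l) ^ (-a)
      ≤ (2 : ℝ) ^ ((-(39 * (a - cc)) + a + 1) * (p.hs s : ℝ)) := by
  have h1 : ∀ l ∈ p.act s, (p.mu (s + p.hs s) l) ^ (-a) =
      (2 : ℝ) ^ (a * p.hs s) * (2 : ℝ) ^ (a * p.xx s l) := by
    intro l _
    unfold mu
    rw [← Real.rpow_mul (by norm_num), ← Real.rpow_add (by norm_num), p.xx_add]
    congr 1
    ring
  rw [Finset.sum_congr rfl h1, ← Finset.mul_sum]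
  refine (mul_le_mul_of_nonneg_left (p.sum_act_le s ha) (by positivity)).trans ?_
  rw [← Real.rpow_add (by norm_num)]
  apply le_of_eq
  congr 1
  ring

/-- a threshold just above the freezing time of `k` -/
theorem exists_above (k : Fin d) : ∃ g : ℝ, p.tau k < g ∧ ∀ l, p.tau l < g ↔ p.tau l ≤ p.tau k := by
  by_cases hne : (Finset.univ.filter (fun l => p.tau k < p.tau l)).Nonempty
  · obtain ⟨m, hm, hmin⟩ := Finset.exists_min_image _ p.tau hne
    rw [Finset.mem_filter] at hm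
    refine ⟨p.tau m, hm.2, fun l => ⟨fun hl => ?_, fun hl => lt_of_le_of_lt hl hm.2⟩⟩
    by_contra hcon
    push Not at hcon
    have := hmin l (by simp [hcon])
    linarith
  · refine ⟨p.tau k + 1, by linarith, fun l => ⟨fun _ => ?_, fun hl => by linarith⟩⟩
    by_contra hcon
    push Not at hcon
    exact hne ⟨l, by simp [hcon]⟩

private theorem csum_rank (f : Fin d → ℝ) (S : Finset (Fin d)) :
    ∑ k ∈ S, Real.exp (-((S.filter (fun l => f l ≤ f k)).card : ℝ)) ≤
      1 - Real.exp (-(S.card : ℝ)) := by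
  induction S using Finset.induction_on_max_value f with
  | empty => simp
  | insert a t hat hmax ih =>
    rw [Finset.sum_insert hat]
    have h1 : (insert a t).filter (fun l => f l ≤ f a) = insert a t := by
      apply Finset.filter_true_of_mem
      intro x hx
      rcases Finset.mem_insert.1 hx with rfl | hx
      · exact le_rfl
      · exact hmax x hx
    rw [h1, Finset.card_insert_of_notMem hat]
    have h2 : ∑ k ∈ t, Real.exp (-(((insert a t).filter (fun l => f l ≤ f k)).card : ℝ)) ≤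
        ∑ k ∈ t, Real.exp (-((t.filter (fun l => f l ≤ f k)).card : ℝ)) := by
      refine Finset.sum_le_sum fun k _ => ?_
      apply Real.exp_le_exp.2
      apply neg_le_neg
      exact_mod_cast Finset.card_le_card (Finset.filter_subset_filter _ (Finset.subset_insert _ _))
    have h3 : 2 * Real.exp (-((t.card + 1 : ℕ) : ℝ)) ≤ Real.exp (-(t.card : ℝ)) := by
      have h4 : Real.exp (-(t.card : ℝ)) = Real.exp 1 * Real.exp (-((t.card + 1 : ℕ) : ℝ)) := by
        rw [← Real.exp_add]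
        congr 1
        push_cast
        ring
      rw [h4]
      have h5 : (2 : ℝ) ≤ Real.exp 1 := by
        have := Real.add_one_le_exp (1 : ℝ)
        linarith
      exact mul_le_mul_of_nonneg_right h5 (Real.exp_pos _).le
    linarith

theorem rank_sum_le (s : ℕ) :
    ∑ k ∈ p.act s, Real.exp (-(((p.act s).filter (fun l => p.tau l ≤ p.tau k)).card : ℝ)) ≤ 1 := by
  have h := csum_rank p.tau (p.act s)
  have h2 := Real.exp_pos (-((p.act s).card : ℝ))
  linarith

end Par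

end Vale.Agent.P262F
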