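import Vale.Agent.Lib.P262F.Norm2

/-! Parameters, clocks and node invariants for the sharp Steinitz theorem in Euclidean space. -/

namespace Vale.Agent.P262F

open Finset Real

/-- decay rate of the density function -/
noncomputable def cc : ℝ := 1 / 2000

/-- density of the exponents `σ k` near time `s` -/
noncomputable def Wt {d : ℕ} (σ : Fin d → ℝ) (s : ℝ) : ℝ :=
  ∑ k, (2 : ℝ) ^ (-(cc * |s - σ k|))

/-- The parameters: `σ k` is the binary logarithm of the `k`-th eigenvalue. -/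
structure Par (d : ℕ) where
  h0 : ℕ
  CR : ℝ
  σ : Fin d → ℝ
  hCR : 1 ≤ CR
  hh0 : 2000 ≤ h0
  hCRh : CR ≤ (2 : ℝ) ^ ((h0 : ℝ) / 100)
  hσ : ∀ k, 0 ≤ σ k

namespace Par

variable {d : ℕ} (p : Par d)

/-- round length at the death time of coordinate `k` -/
noncomputable def eta (k : Fin d) : ℝ := p.h0 + logb 2 (1 + Wt p.σ (p.σ k))

/-- round length at time `s` -/
noncomputable def hs (s : ℕ) : ℕ := p.h0 + ⌈logb 2 (1 + Wt p.σ s)⌉₊

/-- freezing time -/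
noncomputable def tau (k : Fin d) : ℝ := p.σ k - 40 * p.eta k

/-- age of coordinate `k` at time `s` -/
noncomputable def xx (s : ℕ) (k : Fin d) : ℝ := s - p.σ k

/-- active coordinates -/
noncomputable def act (s : ℕ) : Finset (Fin d) := univ.filter (fun k => (s : ℝ) ≤ p.tau k)

/-- dead coordinates -/
noncomputable def dead (s : ℕ) : Finset (Fin d) := univ.filter (fun k => 40 * p.eta k ≤ p.xx s k)

/-- coordinates in transition -/
noncomputable def tr (s : ℕ) : Finset (Fin d) :=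
  univ.filter (fun k => p.tau k < s ∧ p.xx s k < 40 * p.eta k)

/-- living coordinates which freeze before time `g` -/
noncomputable def lev (s : ℕ) (g : ℝ) : Finset (Fin d) :=
  univ.filter (fun k => p.xx s k < 40 * p.eta k ∧ p.tau k < g)

/-- all coordinates which freeze before time `g` -/
noncomputable def below (g : ℝ) : Finset (Fin d) := univ.filter (fun k => p.tau k < g)

/-- number of active coordinates which freeze before time `g` -/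
noncomputable def nact (s : ℕ) (g : ℝ) : ℝ := (((p.act s).filter (fun k => p.tau k < g)).card : ℝ)

/-- energy of coordinate `l` at time `s` -/
noncomputable def mu (s : ℕ) (l : Fin d) : ℝ := (2 : ℝ) ^ (-(p.xx s l))

/-- threshold between light and heavy entries -/
noncomputable def thr (s : ℕ) (k : Fin d) : ℝ :=
  (2 : ℝ) ^ (-(5 / 8 * max (p.xx s k) (40 * p.eta k)))

/-- weight of the scalar statistics -/
noncomputable def kap (s : ℕ) (k : Fin d) : ℝ :=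
  1 / 2 * (2 : ℝ) ^ (-(cc / 2 * |p.xx s k|) - ((p.hs s : ℝ) - p.h0) / 2)

/-- error scale of the scalar statistics -/
noncomputable def qq (s : ℕ) (k : Fin d) : ℝ := √(p.CR * (1 + 3 * (p.hs s : ℝ) + |p.xx s k|))

/-- light energy bound in transition -/
noncomputable def ThT (s : ℕ) (k : Fin d) : ℝ :=
  (2 : ℝ) ^ (1 + 5 * p.eta k - 7 / 8 * p.xx s k) + (2 : ℝ) ^ (-(23 * p.eta k))

/-- light energy bound for dead coordinates -/
noncomputable def ThD (s : ℕ) (k : Fin d) : ℝ := (2 : ℝ) ^ (-(p.xx s k / 2))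

/-- heavy sum bound in transition -/
noncomputable def PP (s : ℕ) (k : Fin d) : ℝ :=
  (2 : ℝ) ^ (1 + 35 / 2 * p.eta k - 7 / 8 * p.xx s k)

/-- clock of coordinate `k`, with values in `[1, 85]` -/
noncomputable def rr (s : ℕ) (k : Fin d) : ℝ := 43 + max (-42) (min 42 (p.xx s k / p.eta k))

/-- accumulated tiny errors of a dead coordinate -/
noncomputable def Tt (s : ℕ) (k : Fin d) : ℝ := 1 - (2 : ℝ) ^ (-(p.xx s k / 10))

/-- budget function -/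
noncomputable def Gf (x : ℝ) : ℝ :=
  if x ≤ 0 then (2 : ℝ) ^ (cc * x) else 2 - (2 : ℝ) ^ (-(cc * x))

/-- total budget spent before time `s` -/
noncomputable def HH (s : ℕ) : ℝ := ∑ k, (10 / 9 * (p.rr s k - 1) + 4000 * Gf (p.xx s k))

noncomputable def C5 : ℝ := 27 * p.CR
noncomputable def C1 : ℝ := p.C5 * (p.h0 + 3)
noncomputable def C6 : ℝ := 1000 * p.CR
noncomputable def C7 : ℝ := 2 * p.C6 * (p.h0 + 2)

variable {α : Type} (v : α → Fin d → ℝ)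

/-- light energy of a vector -/
noncomputable def lE (s : ℕ) (k : Fin d) (a : α) : ℝ :=
  if v a k ^ 2 ≤ p.thr s k then v a k ^ 2 else 0

/-- light part of a vector -/
noncomputable def lS (s : ℕ) (k : Fin d) (a : α) : ℝ :=
  if v a k ^ 2 ≤ p.thr s k then v a k else 0

/-- heavy part of a vector -/
noncomputable def hS (s : ℕ) (k : Fin d) (a : α) : ℝ :=
  if v a k ^ 2 ≤ p.thr s k then 0 else |v a k|

/-- deviation of the energy matrix of `V` from its ideal value -/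
noncomputable def rdev (s : ℕ) (V : Finset α) (l k : Fin d) : ℝ :=
  ∑ a ∈ V, v a l * v a k - if l = k then p.mu s l else 0

/-- The node invariants at time `s`. -/
structure Inv (s : ℕ) (V : Finset α) (x y Lx Ly ε : Fin d → ℝ) : Prop where
  sum : ∀ k, y k = x k + ∑ a ∈ V, v a k
  actx : ∀ k ∈ p.act s, Lx k = x k
  acty : ∀ k ∈ p.act s, Ly k = y k
  row : ∀ l ∈ p.act s, ∀ g : ℝ, (s : ℝ) ≤ g → n2 (p.lev s g) (p.rdev v s V l)
    ≤ √(p.mu s l) + (p.mu s l) ^ (1 / 10 : ℝ) * √(1 + p.nact s g)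
  le_tr : ∀ k ∈ p.tr s, ∑ a ∈ V, p.lE v s k a ≤ p.ThT s k
  le_dead : ∀ k ∈ p.dead s, ∑ a ∈ V, p.lE v s k a ≤ p.ThD s k
  hv_tr : ∀ k ∈ p.tr s, ∑ a ∈ V, p.hS v s k a ≤ p.PP s k + ε k
  phx : ∀ g : ℝ, (s : ℝ) ≤ g → ∑ k ∈ p.below g, Lx k ^ 2 ≤ p.C1 * ((p.below g).card + p.HH s)
  phy : ∀ g : ℝ, (s : ℝ) ≤ g → ∑ k ∈ p.below g, Ly k ^ 2 ≤ p.C1 * ((p.below g).card + p.HH s)
  eps : ∀ k, 0 ≤ ε k
  dtr : ∀ k ∈ p.tr s, |x k - Lx k| + |∑ a ∈ V, v a k - (Ly k - Lx k)| ≤ ε k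
  ddead : ∀ k ∈ p.dead s, |x k - Lx k| + |∑ a ∈ V, p.lS v s k a - (Ly k - Lx k)|
    + ∑ a ∈ V, p.hS v s k a ≤ 3 * ε k + p.Tt s k
  pot : ∑ k ∈ (p.act s)ᶜ, ε k ^ 2 / p.rr s k ≤ p.C7 * p.HH s

/-- clipping to `[-c, c]` -/
noncomputable def clip (t c : ℝ) : ℝ := max (-c) (min c t)

/-- bias -/
noncomputable def bet (s : ℕ) (w : Fin d → ℝ) (a : α) : ℝ := ∑ l ∈ p.act s, w l * v a l

end Par

/-- deviation of the sum over the first `j` of `2 ^ h` parts from its ideal value -/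
noncomputable def dvf {α : Type} (V : Finset α) (h : ℕ) (c : α → ℕ) (j : ℕ) (f : α → ℝ) : ℝ :=
  ∑ a ∈ V.filter (fun a => c a < j), f a - (j / 2 ^ h) * ∑ a ∈ V, f a

/-- The outcome of the splitting procedure for one node. Here `K = 2 ^ h` parts are produced;
`U j` is the block in which the boundary `j` was chosen, `w j` are the healing weights,
`e j` the position error before healing, `zt j` an error of the heavy sums over `U j`. -/
structure Raw {α : Type} {d : ℕ} (p : Par d) (v : α → Fin d → ℝ) (s : ℕ) (V : Finset α)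
    (x y : Fin d → ℝ) where
  c : α → ℕ
  U : ℕ → Finset α
  w : ℕ → Fin d → ℝ
  e : ℕ → Fin d → ℝ
  zt : ℕ → Fin d → ℝ
  /-- the error of the sum before boundary `j` beyond the bias -/
  xi : ℕ → (α → ℝ) → ℝ
  xi_eq : ∀ j f, xi j f = dvf V (p.hs s) c j f - ∑ a ∈ U j, p.bet v s (w j) a * f a
  c_lt : ∀ a ∈ V, c a < 2 ^ p.hs s
  U_sub : ∀ j, U j ⊆ V
  U_zero : U 0 = ∅
  U_top : U (2 ^ p.hs s) = ∅
  zt_nonneg : ∀ j k, 0 ≤ zt j k
  heal : ∀ j, 0 < j → j < 2 ^ p.hs s → ∀ l ∈ p.act s,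
    w j l = - Par.clip ((1 - j / 2 ^ p.hs s) * x l + (j / 2 ^ p.hs s) * y l + e j l)
      ((p.mu (s + p.hs s) l) ^ (3 / 8 : ℝ)) / p.mu (s + p.hs s) l
  e_le : ∀ j ≤ 2 ^ p.hs s, ∀ g : ℝ, (s : ℝ) ≤ g →
    ∑ k ∈ p.lev s g, e j k ^ 2 ≤ p.CR * ((p.lev s g).card + 3 * p.hs s)
  ediff : ∀ j ≤ 2 ^ p.hs s, ∀ g : ℝ, (s : ℝ) ≤ g →
    ∑ k ∈ p.lev s g, (xi j (fun a => v a k) - e j k) ^ 2 ≤ p.CR * ((p.lev s g).card + 3 * p.hs s)
  xi_row : ∀ j ≤ 2 ^ p.hs s, ∀ l ∈ p.act s, ∀ g : ℝ, (s : ℝ) ≤ g →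
    ∑ k ∈ p.lev s g, (xi j (fun a => v a l * v a k)) ^ 2
      ≤ 4 * p.CR * ((p.lev s g).card + 3 * p.hs s - p.xx s l)
  xi_hS : ∀ j ≤ 2 ^ p.hs s, ∑ k ∈ p.tr s, (xi j (p.hS v s k)) ^ 2
      ≤ 4 * p.CR * ((p.tr s).card + 3 * p.hs s)
  xi_lE : ∀ j ≤ 2 ^ p.hs s, ∀ k ∉ p.act s, |xi j (p.lE v s k)| ≤ 2 * p.qq s k * (p.thr s k / p.kap s k)
  xi_lS : ∀ j ≤ 2 ^ p.hs s, ∀ k ∈ p.dead s,
    |xi j (p.lS v s k)| ≤ 2 * p.qq s k * (√(p.thr s k) / p.kap s k)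
  U_row : ∀ j, 0 < j → j < 2 ^ p.hs s → ∀ l ∈ p.act s, ∀ g : ℝ, (s : ℝ) ≤ g →
    ∑ k ∈ p.lev s g, (∑ a ∈ U j, v a l * v a k - (∑ a ∈ V, v a l * v a k) / 2 ^ p.hs s) ^ 2
      ≤ 4 * p.CR * ((p.lev s g).card + 3 * p.hs s - p.xx s l)
  U_hS : ∀ j ≤ 2 ^ p.hs s, ∀ k ∈ p.tr s,
    ∑ a ∈ U j, p.hS v s k a ≤ (∑ a ∈ V, p.hS v s k a) / 2 ^ p.hs s + zt j k
  zt_le : ∀ j ≤ 2 ^ p.hs s, ∑ k ∈ p.tr s, zt j k ^ 2 ≤ 4 * p.CR * ((p.tr s).card + 3 * p.hs s)
  U_lE : ∀ j ≤ 2 ^ p.hs s, ∀ k ∉ p.act s,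
    ∑ a ∈ U j, p.lE v s k a ≤ (∑ a ∈ V, p.lE v s k a) / 2 ^ p.hs s
      + 2 * p.qq s k * (p.thr s k / p.kap s k)

end Vale.Agent.P262F
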