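import Vale.Agent.Lib.P262F.Child

/-! Deviations of the frozen coordinates. -/

namespace Vale.Agent.P262F

open Finset Real

variable {α : Type} {d : ℕ} {p : Par d} {v : α → Fin d → ℝ} {s : ℕ} {V : Finset α}
  {x y Lx Ly ε : Fin d → ℝ}

theorem dev_t_le {h j : ℕ} (hj : j < 2 ^ h) :
    (j : ℝ) / 2 ^ h + 1 / 2 ^ h ≤ 1 := by
  rw [← add_div, div_le_one (by positivity)]
  have : j + 1 ≤ 2 ^ h := hj
  exact_mod_cast this

/-- abstract form of the deviation estimate -/
theorem dev_abs {xL D t k1 A B : ℝ} (ht : 0 ≤ t) (hk : 0 ≤ k1) (h1 : t + k1 ≤ 1) :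
    |xL + t * D + A| + |k1 * D + (B - A)| ≤ |xL| + |D| + (2 * |A| + |B|) := by
  have a1 : |xL + t * D + A| ≤ |xL| + t * |D| + |A| := by
    have := abs_add_three xL (t * D) A
    rwa [abs_mul, abs_of_nonneg ht] at this
  have a2 : |k1 * D + (B - A)| ≤ k1 * |D| + (|B| + |A|) := by
    have e1 := abs_add_le (k1 * D) (B - A)
    rw [abs_mul, abs_of_nonneg hk] at e1
    have e2 := abs_sub B A
    linarith
  have a3 : (t + k1) * |D| ≤ 1 * |D| := mul_le_mul_of_nonneg_right h1 (abs_nonneg _)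
  linarith

theorem dev_base (R : Raw p v s V x y) (I : p.Inv v s V x y Lx Ly ε) {j : ℕ}
    (hj : j < 2 ^ p.hs s) {k : Fin d} (hk : k ∉ p.act s) :
    |zz R j k - LL R Lx Ly j k|
      + |∑ a ∈ V.filter (fun a => R.c a = j), v a k - (LL R Lx Ly (j + 1) k - LL R Lx Ly j k)|
      ≤ |x k - Lx k| + |∑ a ∈ V, v a k - (Ly k - Lx k)| + pErr R j k := by
  have h1 : zz R j k - LL R Lx Ly j k = (x k - Lx k)
      + (j : ℝ) / 2 ^ p.hs s * (∑ a ∈ V, v a k - (Ly k - Lx k))
      + dvf V (p.hs s) R.c j (fun a => v a k) := by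
    rw [zz_eq R I.sum, LL, if_neg hk, I.sum k]
    ring
  have h2 : ∑ a ∈ V.filter (fun a => R.c a = j), v a k - (LL R Lx Ly (j + 1) k - LL R Lx Ly j k)
      = 1 / 2 ^ p.hs s * (∑ a ∈ V, v a k - (Ly k - Lx k))
      + (dvf V (p.hs s) R.c (j + 1) (fun a => v a k) - dvf V (p.hs s) R.c j (fun a => v a k)) := by
    rw [sum_child V (p.hs s) R.c j (fun a => v a k), LL, LL, if_neg hk, if_neg hk]
    push_cast
    ring
  rw [h1, h2, pErr]
  exact dev_abs (by positivity) (by positivity) (dev_t_le hj)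

theorem child_dtr (hv : ∀ a, ∑ k, v a k ^ 2 ≤ 1) (R : Raw p v s V x y)
    (I : p.Inv v s V x y Lx Ly ε) {j : ℕ} (hj : j < 2 ^ p.hs s) {k : Fin d}
    (hk : k ∈ p.tr (s + p.hs s)) :
    |zz R j k - LL R Lx Ly j k|
      + |∑ a ∈ V.filter (fun a => R.c a = j), v a k - (LL R Lx Ly (j + 1) k - LL R Lx Ly j k)|
      ≤ ee R ε j k := by
  rcases p.trichotomy s k with ha | ht | hd
  · have e1 : LL R Lx Ly j k = zz R j k := by rw [LL, if_pos ha]
    have e2 : LL R Lx Ly (j + 1) k = zz R (j + 1) k := by rw [LL, if_pos ha]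
    rw [e1, e2, zz_succ, ee, if_pos ha]
    simp
  · have hna : k ∉ p.act s := fun h => p.act_not_tr h ht
    have h1 := dev_base R I hj hna
    have h2 := I.dtr k ht
    have h3 := hErr_nonneg R j k
    rw [ee, if_neg hna, if_pos ht]
    linarith
  · exact absurd (p.dead_mono s (p.hs s) hd) (p.tr_not_dead hk)

theorem dev_lin {z : ℝ} (hz : 2000 ≤ z) : z ≤ (2 : ℝ) ^ (z / 100) := by
  have h1 : z / 100 ≤ (2 : ℝ) ^ (z / 200) := by
    have h3 : (2 : ℝ) ^ (z / 200) = Real.exp ((z / 200) * Real.log 2) := by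
      rw [Real.rpow_def_of_pos two_pos, mul_comm]
    have h6 : (0.69 : ℝ) ≤ Real.log 2 := by
      have := Real.log_two_gt_d9
      linarith
    have h7 : z / 200 * 0.69 ≤ z / 200 * Real.log 2 :=
      mul_le_mul_of_nonneg_left h6 (by linarith)
    have h4 := Real.quadratic_le_exp_of_nonneg (x := (z / 200) * Real.log 2) (by positivity)
    rw [h3]
    refine le_trans ?_ h4
    set w := z / 200 with hw
    have hw1 : 10 ≤ w := by linarith
    have e : z / 100 = 2 * w := by rw [hw]; ring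
    rw [e]
    set u := w * Real.log 2
    nlinarith
  have h2 : (2 : ℝ) ^ (z / 100) = (2 : ℝ) ^ (z / 200) * (2 : ℝ) ^ (z / 200) := by
    rw [← Real.rpow_add two_pos]; congr 1; ring
  have h3 : (100 : ℝ) ≤ (2 : ℝ) ^ (z / 200) := by
    have h4 : (2 : ℝ) ^ (10 : ℝ) ≤ (2 : ℝ) ^ (z / 200) :=
      Real.rpow_le_rpow_of_exponent_le one_le_two (by linarith)
    have h5 : (2 : ℝ) ^ (10 : ℝ) = 1024 := by
      have : (10 : ℝ) = ((10 : ℕ) : ℝ) := by norm_num
      rw [this, Real.rpow_natCast]; norm_num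
    linarith
  rw [h2]
  have h4 : 0 < (2 : ℝ) ^ (z / 200) := by positivity
  nlinarith

theorem dev_two_rpow_le {a b : ℝ} (h : a ≤ b) : (2 : ℝ) ^ a ≤ (2 : ℝ) ^ b :=
  Real.rpow_le_rpow_of_exponent_le one_le_two h

theorem dev_hS_nonneg (s : ℕ) (k : Fin d) (a : α) : 0 ≤ p.hS v s k a := by
  unfold Par.hS
  split_ifs
  · exact le_rfl
  · exact abs_nonneg _

theorem dev_lS_sq (s : ℕ) (k : Fin d) (a : α) : p.lS v s k a ^ 2 = p.lE v s k a := by
  unfold Par.lS Par.lE
  split_ifs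
  · rfl
  · norm_num

theorem dev_split (s : ℕ) (k : Fin d) (a : α) :
    |v a k - p.lS v s k a| = p.hS v s k a := by
  unfold Par.lS Par.hS
  split_ifs <;> simp

/-- the light parts of the blocks -/
theorem dev_dvf (R : Raw p v s V x y) (I : p.Inv v s V x y Lx Ly ε) {j : ℕ}
    (hj : j ≤ 2 ^ p.hs s) {k : Fin d} (hk : k ∈ p.dead s) :
    |dvf V (p.hs s) R.c j (p.lS v s k)| ≤ 2 * (2 : ℝ) ^ (-(p.xx s k / 4)) := by
  have hh := p.hs_ge s
  have hx := p.dead_xx hk
  set h : ℝ := (p.hs s : ℝ) with hhdef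
  set X : ℝ := p.xx s k with hX
  have hX0 : 78000 ≤ X := by linarith
  have e1 : dvf V (p.hs s) R.c j (p.lS v s k) = R.xi j (p.lS v s k)
      + ∑ a ∈ R.U j, p.bet v s (R.w j) a * p.lS v s k a := by
    have := R.xi_eq j (p.lS v s k)
    linarith
  have h1 : |∑ a ∈ R.U j, p.bet v s (R.w j) a * p.lS v s k a| ≤ (2 : ℝ) ^ (-(X / 4)) := by
    have a1 := abs_sum_mul_le (R.U j) (p.bet v s (R.w j)) (p.lS v s k)
    have a2 := bet_n2_le R I hj
    have a3 : n2 (R.U j) (p.lS v s k) ≤ (2 : ℝ) ^ (-(X / 4)) := by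
      rw [n2_le_iff (by positivity)]
      have b1 : ∑ a ∈ R.U j, p.lS v s k a ^ 2 = ∑ a ∈ R.U j, p.lE v s k a :=
        Finset.sum_congr rfl fun a _ => dev_lS_sq s k a
      rw [b1]
      refine (U_light R I hj hk).trans ?_
      unfold Par.ThD
      rw [p.xx_add, ← hX, ← hhdef, sq, ← Real.rpow_add two_pos]
      apply dev_two_rpow_le
      linarith
    have a4 : (2 : ℝ) ^ (-(3 * (p.hs s : ℝ))) ≤ 1 := by
      apply Real.rpow_le_one_of_one_le_of_nonpos one_le_two
      linarith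
    calc |∑ a ∈ R.U j, p.bet v s (R.w j) a * p.lS v s k a|
        ≤ n2 (R.U j) (p.bet v s (R.w j)) * n2 (R.U j) (p.lS v s k) := a1
      _ ≤ 1 * (2 : ℝ) ^ (-(X / 4)) :=
          mul_le_mul (a2.trans a4) a3 (n2_nonneg _ _) zero_le_one
      _ = _ := one_mul _
  have h2 : |R.xi j (p.lS v s k)| ≤ (2 : ℝ) ^ (-(X / 4)) := by
    refine (R.xi_lS j hj k hk).trans ?_
    have hthr : √(p.thr s k) = (2 : ℝ) ^ (-(5 / 16 * X)) := by
      rw [thr_dead p hk, ← hX]
      have : (2 : ℝ) ^ (-(5 / 8 * X)) = ((2 : ℝ) ^ (-(5 / 16 * X))) ^ 2 := by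
        rw [sq, ← Real.rpow_add two_pos]; congr 1; ring
      rw [this, Real.sqrt_sq (by positivity)]
    have hkap : (2 : ℝ) ^ (-1 - X / 4000 - h / 2) ≤ p.kap s k := by
      unfold Par.kap
      rw [← hX, abs_of_nonneg (by linarith : (0 : ℝ) ≤ X), ← hhdef]
      have b1 : (1 / 2 : ℝ) = (2 : ℝ) ^ (-1 : ℝ) := by
        rw [Real.rpow_neg_one]; norm_num
      rw [b1, ← Real.rpow_add two_pos]
      apply dev_two_rpow_le
      unfold cc
      have b2 : (0 : ℝ) ≤ p.h0 := Nat.cast_nonneg _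
      linarith
    have hkap0 : 0 < p.kap s k := lt_of_lt_of_le (by positivity) hkap
    have hqq : p.qq s k ≤ (2 : ℝ) ^ (h / 200 + X / 50) := by
      unfold Par.qq
      rw [← hX, abs_of_nonneg (by linarith : (0 : ℝ) ≤ X), ← hhdef]
      rw [Real.sqrt_le_left (by positivity), sq, ← Real.rpow_add two_pos]
      have b1 : p.CR ≤ (2 : ℝ) ^ (h / 100) := by
        refine p.hCRh.trans (dev_two_rpow_le ?_)
        have : (p.h0 : ℝ) ≤ h := by
          rw [hhdef]; exact_mod_cast p.h0_le_hs s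
        linarith
      have b2 : 1 + 3 * h + X ≤ (2 : ℝ) ^ (X / 50) := by
        have c1 := dev_lin (z := 2 * X) (by linarith)
        have c2 : 2 * X / 100 = X / 50 := by ring
        rw [c2] at c1
        linarith
      calc p.CR * (1 + 3 * h + X) ≤ (2 : ℝ) ^ (h / 100) * (2 : ℝ) ^ (X / 50) :=
            mul_le_mul b1 b2 (by linarith) (by positivity)
        _ = (2 : ℝ) ^ (h / 100 + X / 50) := by rw [← Real.rpow_add two_pos]
        _ ≤ _ := dev_two_rpow_le (by linarith)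
    have hdiv : √(p.thr s k) / p.kap s k ≤
        (2 : ℝ) ^ (-(5 / 16 * X) + 1 + X / 4000 + h / 2) := by
      rw [hthr, div_le_iff₀ hkap0]
      have b1 : (2 : ℝ) ^ (-(5 / 16 * X)) = (2 : ℝ) ^ (-(5 / 16 * X) + 1 + X / 4000 + h / 2) *
          (2 : ℝ) ^ (-1 - X / 4000 - h / 2) := by
        rw [← Real.rpow_add two_pos]; congr 1; ring
      rw [b1]
      exact mul_le_mul_of_nonneg_left hkap (by positivity)
    have b3 : 2 * p.qq s k ≤ (2 : ℝ) ^ (1 + h / 200 + X / 50) := by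
      have : (2 : ℝ) ^ (1 + h / 200 + X / 50) = 2 * (2 : ℝ) ^ (h / 200 + X / 50) := by
        rw [add_assoc, Real.rpow_add two_pos, Real.rpow_one]
      rw [this]
      linarith
    calc 2 * p.qq s k * (√(p.thr s k) / p.kap s k)
        ≤ (2 : ℝ) ^ (1 + h / 200 + X / 50) *
          (2 : ℝ) ^ (-(5 / 16 * X) + 1 + X / 4000 + h / 2) :=
          mul_le_mul b3 hdiv (by positivity) (by positivity)
      _ = (2 : ℝ) ^ (1 + h / 200 + X / 50 + (-(5 / 16 * X) + 1 + X / 4000 + h / 2)) := by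
          rw [← Real.rpow_add two_pos]
      _ ≤ _ := dev_two_rpow_le (by linarith)
  rw [e1]
  refine (abs_add_le _ _).trans ?_
  linarith

theorem child_ddead (hv : ∀ a, ∑ k, v a k ^ 2 ≤ 1) (R : Raw p v s V x y)
    (I : p.Inv v s V x y Lx Ly ε) {j : ℕ} (hj : j < 2 ^ p.hs s) {k : Fin d}
    (hk : k ∈ p.dead (s + p.hs s)) :
    |zz R j k - LL R Lx Ly j k|
      + |∑ a ∈ V.filter (fun a => R.c a = j), p.lS v (s + p.hs s) k a
          - (LL R Lx Ly (j + 1) k - LL R Lx Ly j k)|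
      + ∑ a ∈ V.filter (fun a => R.c a = j), p.hS v (s + p.hs s) k a
      ≤ 3 * ee R ε j k + p.Tt (s + p.hs s) k := by
  classical
  rcases p.trichotomy s k with ha | ht | hd
  · exfalso
    have h1 : k ∉ p.act (s + p.hs s) := fun h => p.act_not_dead h hk
    exact p.tr_not_dead (p.new_tr ha h1).1 hk
  · have hna : k ∉ p.act s := fun h => p.act_not_tr h ht
    have h1 := dev_base R I hj hna
    have h2 := I.dtr k ht
    have h3 := hErr_nonneg R j k
    have h3' := pErr_nonneg R j k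
    have h4 := child_heavy_death hv R I hj ht hk
    have h5 := lS_full (p := p) (v := v) (s + p.hs s) k (V.filter (fun a => R.c a = j))
    have h7 : 1 / 4 ≤ p.Tt (s + p.hs s) k := by
      have c1 := (p.mem_dead (s := s + p.hs s) (k := k)).mp hk
      have c2 := p.eta_ge k
      unfold Par.Tt
      have c3 : (2 : ℝ) ^ (-(p.xx (s + p.hs s) k / 10)) ≤ (2 : ℝ) ^ (-1 : ℝ) :=
        dev_two_rpow_le (by linarith)
      rw [Real.rpow_neg_one] at c3
      linarith
    have h6 : |∑ a ∈ V.filter (fun a => R.c a = j), p.lS v (s + p.hs s) k a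
          - (LL R Lx Ly (j + 1) k - LL R Lx Ly j k)| ≤
        |∑ a ∈ V.filter (fun a => R.c a = j), p.lS v (s + p.hs s) k a -
          ∑ a ∈ V.filter (fun a => R.c a = j), v a k| +
        |∑ a ∈ V.filter (fun a => R.c a = j), v a k
          - (LL R Lx Ly (j + 1) k - LL R Lx Ly j k)| := abs_sub_le _ _ _
    rw [ee, if_neg hna, if_pos ht]
    linarith
  · have hna : k ∉ p.act s := fun h => p.act_not_dead h hd
    have hnt : k ∉ p.tr s := fun h => p.tr_not_dead h hd
    have hee : ee R ε j k = ε k := by rw [ee, if_neg hna, if_neg hnt]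
    have hI := I.ddead k hd
    have hh := p.hs_ge s
    have hx := p.dead_xx hd
    have d1 := dev_dvf R I hj.le hd
    have d2 := dev_dvf R I (Nat.succ_le_of_lt hj) hd
    have h4 := child_heavy_dead hv R I hj hd
    have h5 := child_lS_dead hv R I hj hd
    -- first term
    have e1 : zz R j k - LL R Lx Ly j k = ((x k - Lx k)
        + (j : ℝ) / 2 ^ p.hs s * (∑ a ∈ V, p.lS v s k a - (Ly k - Lx k))
        + dvf V (p.hs s) R.c j (p.lS v s k))
        + ∑ a ∈ V.filter (fun a => R.c a < j), (v a k - p.lS v s k a) := by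
      rw [zz, LL, if_neg hna, dvf, Finset.sum_sub_distrib]
      ring
    have e2 : ∑ a ∈ V.filter (fun a => R.c a = j), p.lS v s k a
        - (LL R Lx Ly (j + 1) k - LL R Lx Ly j k)
        = 1 / 2 ^ p.hs s * (∑ a ∈ V, p.lS v s k a - (Ly k - Lx k))
        + (dvf V (p.hs s) R.c (j + 1) (p.lS v s k) - dvf V (p.hs s) R.c j (p.lS v s k)) := by
      rw [sum_child V (p.hs s) R.c j (p.lS v s k), LL, LL, if_neg hna, if_neg hna]
      push_cast
      ring
    have f1 := dev_abs (xL := x k - Lx k) (D := ∑ a ∈ V, p.lS v s k a - (Ly k - Lx k))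
      (t := (j : ℝ) / 2 ^ p.hs s) (k1 := 1 / 2 ^ p.hs s)
      (A := dvf V (p.hs s) R.c j (p.lS v s k))
      (B := dvf V (p.hs s) R.c (j + 1) (p.lS v s k)) (by positivity) (by positivity)
      (dev_t_le hj)
    rw [← e2] at f1
    have f2 : |zz R j k - LL R Lx Ly j k| ≤ |(x k - Lx k)
        + (j : ℝ) / 2 ^ p.hs s * (∑ a ∈ V, p.lS v s k a - (Ly k - Lx k))
        + dvf V (p.hs s) R.c j (p.lS v s k)| +
        ∑ a ∈ V.filter (fun a => R.c a < j), p.hS v s k a := by
      rw [e1]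
      refine (abs_add_le _ _).trans ?_
      have g1 := Finset.abs_sum_le_sum_abs (fun a => v a k - p.lS v s k a)
        (V.filter (fun a => R.c a < j))
      simp only [dev_split] at g1
      linarith
    have f3 : ∑ a ∈ V.filter (fun a => R.c a < j), p.hS v s k a
        + ∑ a ∈ V.filter (fun a => R.c a = j), p.hS v s k a ≤ ∑ a ∈ V, p.hS v s k a := by
      have g1 : Disjoint (V.filter (fun a => R.c a < j)) (V.filter (fun a => R.c a = j)) := by
        rw [Finset.disjoint_filter]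
        intro a _ h3 h4
        omega
      rw [← Finset.sum_union g1]
      refine Finset.sum_le_sum_of_subset_of_nonneg ?_ fun a _ _ => dev_hS_nonneg s k a
      intro a ha
      rw [Finset.mem_union, Finset.mem_filter, Finset.mem_filter] at ha
      rcases ha with ha | ha <;> exact ha.1
    have f4 : |∑ a ∈ V.filter (fun a => R.c a = j), p.lS v (s + p.hs s) k a
          - (LL R Lx Ly (j + 1) k - LL R Lx Ly j k)| ≤
        |∑ a ∈ V.filter (fun a => R.c a = j), p.lS v (s + p.hs s) k a -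
          ∑ a ∈ V.filter (fun a => R.c a = j), p.lS v s k a| +
        |∑ a ∈ V.filter (fun a => R.c a = j), p.lS v s k a
          - (LL R Lx Ly (j + 1) k - LL R Lx Ly j k)| := abs_sub_le _ _ _
    have hTt : 6 * (2 : ℝ) ^ (-(p.xx s k / 4)) + 2 * (2 : ℝ) ^ (-(3 / 16 * p.xx (s + p.hs s) k))
        ≤ p.Tt (s + p.hs s) k - p.Tt s k := by
      have hTd : p.Tt (s + p.hs s) k - p.Tt s k =
          (2 : ℝ) ^ (-(p.xx s k / 10)) - (2 : ℝ) ^ (-(p.xx (s + p.hs s) k / 10)) := by
        unfold Par.Tt; ring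
      rw [hTd, p.xx_add]
      set X := p.xx s k
      set h : ℝ := (p.hs s : ℝ)
      have q1 : (2 : ℝ) ^ (-((X + h) / 10)) ≤ 1 / 2 * (2 : ℝ) ^ (-(X / 10)) := by
        have : 1 / 2 * (2 : ℝ) ^ (-(X / 10)) = (2 : ℝ) ^ (-1 + -(X / 10)) := by
          rw [Real.rpow_add two_pos, Real.rpow_neg_one]; norm_num
        rw [this]
        exact dev_two_rpow_le (by linarith)
      have q2 : (2 : ℝ) ^ (-(X / 4)) ≤ 1 / 16 * (2 : ℝ) ^ (-(X / 10)) := by
        have : 1 / 16 * (2 : ℝ) ^ (-(X / 10)) = (2 : ℝ) ^ (-4 + -(X / 10)) := by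
          rw [Real.rpow_add two_pos]
          have : (2 : ℝ) ^ (-4 : ℝ) = 1 / 16 := by
            rw [Real.rpow_neg two_pos.le]
            have : (4 : ℝ) = ((4 : ℕ) : ℝ) := by norm_num
            rw [this, Real.rpow_natCast]; norm_num
          rw [this]
        rw [this]
        exact dev_two_rpow_le (by linarith)
      have q3 : (2 : ℝ) ^ (-(3 / 16 * (X + h))) ≤ 1 / 16 * (2 : ℝ) ^ (-(X / 10)) := by
        have : 1 / 16 * (2 : ℝ) ^ (-(X / 10)) = (2 : ℝ) ^ (-4 + -(X / 10)) := by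
          rw [Real.rpow_add two_pos]
          have : (2 : ℝ) ^ (-4 : ℝ) = 1 / 16 := by
            rw [Real.rpow_neg two_pos.le]
            have : (4 : ℝ) = ((4 : ℕ) : ℝ) := by norm_num
            rw [this, Real.rpow_natCast]; norm_num
          rw [this]
        rw [this]
        exact dev_two_rpow_le (by linarith)
      linarith
    rw [hee]
    linarith

end Vale.Agent.P262F
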