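import Vale.Agent.Lib.P262F.Main

/-! The sharp Steinitz theorem in Euclidean space: final step. -/

namespace Vale.Agent.P262F

open Finset Real Vale.Agent.P262

section Lists

variable {A B : Type} {E : Type*} [AddCommGroup E]

theorem sum_split_list (f : A ⊕ B → E) (l : List (A ⊕ B)) :
    (l.map f).sum = ((l.filterMap Sum.getLeft?).map (fun a => f (Sum.inl a))).sum
      + ((l.filterMap Sum.getRight?).map (fun b => f (Sum.inr b))).sum := by
  induction l with
  | nil => simp
  | cons a l ih =>
    rcases a with a | b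
    · simp only [List.map_cons, List.sum_cons, ih]
      simp [List.filterMap_cons, add_assoc]
    · simp only [List.map_cons, List.sum_cons, ih]
      simp only [List.filterMap_cons, Sum.getLeft?_inr, Sum.getRight?_inr, List.map_cons,
        List.sum_cons]
      abel

theorem take_filterMap {C D : Type} (f : C → Option D) (l : List C) (k : ℕ) :
    ∃ k', (l.filterMap f).take k = (l.take k').filterMap f := by
  have h1 : (l.filterMap f).take k <+: l.filterMap f := List.take_prefix _ _
  rw [List.prefix_filterMap_iff] at h1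
  obtain ⟨l0, h2, h3⟩ := h1
  refine ⟨l0.length, ?_⟩
  rw [h3]
  congr 1
  exact List.prefix_iff_eq_take.mp h2

end Lists

/-- the auxiliary vectors `± e k` -/
noncomputable def aux (d : ℕ) : Fin d ⊕ Fin d → Fin d → ℝ :=
  Sum.elim (fun k => Pi.single k 1) (fun k => Pi.single k (-1))

theorem aux_sum (d : ℕ) (k : Fin d) : ∑ b, aux d b k = 0 := by
  rw [Fintype.sum_sum_type]
  simp [aux, Pi.single_apply, Finset.sum_ite_eq]

theorem aux_norm (d : ℕ) (b : Fin d ⊕ Fin d) : ∑ k, aux d b k ^ 2 ≤ 1 := by
  rcases b with j | j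
  · simp [aux, Pi.single_apply, ite_pow]
  · simp [aux, Pi.single_apply, ite_pow]

theorem aux_diag (d : ℕ) (l k : Fin d) :
    ∑ b, aux d b l * aux d b k = if l = k then 2 else 0 := by
  rw [Fintype.sum_sum_type]
  simp only [aux, Sum.elim_inl, Sum.elim_inr, Pi.single_apply, mul_ite, ite_mul, mul_one, one_mul,
    zero_mul, mul_zero, mul_neg, neg_mul, neg_neg, neg_zero]
  by_cases h : l = k
  · subst h
    simp
    norm_num
  · have h' : k ≠ l := fun e => h e.symm
    simp [h, h']

theorem aux_partial (d : ℕ) (G : Finset (Fin d ⊕ Fin d)) (k : Fin d) :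
    |∑ b ∈ G, aux d b k| ≤ 1 := by
  classical
  have h1 : ∑ b ∈ G, aux d b k = (if Sum.inl k ∈ G then 1 else 0)
      + (if Sum.inr k ∈ G then (-1 : ℝ) else 0) := by
    rw [← Finset.sum_filter_add_sum_filter_not G (fun b => b = Sum.inl k)]
    congr 1
    · rw [Finset.filter_eq']
      split_ifs with h
      · simp [aux]
      · simp
    · by_cases h : Sum.inr k ∈ G
      · rw [if_pos h, Finset.sum_eq_single (Sum.inr k)]
        · simp [aux]
        · intro b hb hne
          rcases b with j | j
          · have h2 : j ≠ k := by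
              intro e
              apply (Finset.mem_filter.mp hb).2
              rw [e]
            simp [aux, Pi.single_apply, h2.symm]
          · have h2 : j ≠ k := by
              intro e
              apply hne
              rw [e]
            simp [aux, Pi.single_apply, h2.symm]
        · intro h2
          exfalso
          apply h2
          simp [h]
      · rw [if_neg h]
        apply Finset.sum_eq_zero
        intro b hb
        rcases b with j | j
        · have h2 : j ≠ k := by
            intro e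
            apply (Finset.mem_filter.mp hb).2
            rw [e]
          simp [aux, Pi.single_apply, h2.symm]
        · have h2 : j ≠ k := by
            intro e
            apply h
            rw [← e]
            exact (Finset.mem_filter.mp hb).1
          simp [aux, Pi.single_apply, h2.symm]
  rw [h1]
  split_ifs <;> norm_num

theorem nrm_aux (d : ℕ) (G : Finset (Fin d ⊕ Fin d)) : nrm (∑ b ∈ G, aux d b) ≤ √d := by
  have h1 : ∑ i, (∑ b ∈ G, aux d b) i ^ 2 ≤ (√d) ^ 2 := by
    rw [Real.sq_sqrt (Nat.cast_nonneg d)]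
    calc ∑ i, (∑ b ∈ G, aux d b) i ^ 2 ≤ ∑ _i : Fin d, (1 : ℝ) := by
          apply Finset.sum_le_sum
          intro i _
          rw [Finset.sum_apply, ← sq_abs]
          exact pow_le_one₀ (abs_nonneg _) (aux_partial d G i)
      _ = d := by simp
  exact nrm_le_of_sq _ (Real.sqrt_nonneg _) h1

/-- the constant of the theorem, as a function of the signing constant and `h0` -/
noncomputable def Cfin (CR : ℝ) (h0 : ℕ) : ℝ :=
  √(10 ^ 8 * (27 * CR * (h0 + 3) + 2 * (1000 * CR) * (h0 + 2) + 1)) + 1

theorem steinitz_list_sharp {CR : ℝ} (hCR : 1 ≤ CR) (hSP : SignProp CR) {h0 : ℕ}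
    (hh0 : 2000 ≤ h0) (hCRh : CR ≤ (2 : ℝ) ^ ((h0 : ℝ) / 100)) (d : ℕ) {N : ℕ}
    (v : Fin N → EuclideanSpace ℝ (Fin d)) (hv : ∀ a, ‖v a‖ ≤ 1) (hsum : ∑ a, v a = 0) :
    ∃ l : List (Fin N), l.Nodup ∧ l.toFinset = univ ∧
      ∀ k : ℕ, ‖((l.take k).map v).sum‖ ≤ Cfin CR h0 * √d := by
  obtain ⟨b, lam, hdiag⟩ := exists_basis d v
  have hlam : ∀ l, 0 ≤ lam l := by
    intro l
    have h1 := hdiag l l
    rw [if_pos rfl] at h1
    rw [← h1]
    exact Finset.sum_nonneg fun a _ => mul_self_nonneg _
  have hσ : ∀ l, (2 : ℝ) ^ (logb 2 (lam l + 2)) = lam l + 2 := by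
    intro l
    apply Real.rpow_logb (by norm_num) (by norm_num)
    linarith [hlam l]
  let p : Par d :=
    { h0 := h0
      CR := CR
      σ := fun l => logb 2 (lam l + 2)
      hCR := hCR
      hh0 := hh0
      hCRh := hCRh
      hσ := fun l => Real.logb_nonneg (by norm_num) (by linarith [hlam l]) }
  set w : Fin N ⊕ (Fin d ⊕ Fin d) → Fin d → ℝ := Sum.elim (fun a => crd b (v a)) (aux d) with hw
  have hw1 : ∀ a, ∑ k, w a k ^ 2 ≤ 1 := by
    intro a
    rcases a with a | a
    · simp only [hw, Sum.elim_inl]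
      rw [← nrm_sq, nrm_crd]
      exact pow_le_one₀ (norm_nonneg _) (hv a)
    · simp only [hw, Sum.elim_inr]
      exact aux_norm d a
  have hw2 : ∀ k, ∑ a, w a k = 0 := by
    intro k
    rw [Fintype.sum_sum_type]
    simp only [hw, Sum.elim_inl, Sum.elim_inr]
    rw [aux_sum, add_zero]
    unfold crd
    rw [← inner_sum, hsum, inner_zero_right]
  have hw3 : ∀ l k, ∑ a, w a l * w a k = if l = k then (2 : ℝ) ^ (p.σ l) else 0 := by
    intro l k
    rw [Fintype.sum_sum_type]
    simp only [hw, Sum.elim_inl, Sum.elim_inr]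
    rw [aux_diag]
    unfold crd
    rw [hdiag l k]
    split_ifs
    · exact (hσ l).symm
    · norm_num
  obtain ⟨l, hl1, hl2, hl3⟩ := diag_adm (p := p) hSP hw1 hw2 hw3
  have hl3' : ∀ k : ℕ, nrm ((l.take k).map w).sum ≤ √(Bd p) := by
    intro k
    have h1 := hl3 k
    rw [zero_add, Set.mem_setOf_eq] at h1
    rw [← Real.sqrt_sq (nrm_nonneg _), nrm_sq]
    exact Real.sqrt_le_sqrt h1
  have hmem : ∀ x, x ∈ l := by
    intro x
    rw [← List.mem_toFinset, hl2]
    exact Finset.mem_univ x
  refine ⟨l.filterMap Sum.getLeft?, ?_, ?_, ?_⟩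
  · apply hl1.filterMap
    intro a a' c hc hc'
    rw [Option.mem_def, Sum.getLeft?_eq_some_iff] at hc hc'
    rw [hc, hc']
  · rw [Finset.eq_univ_iff_forall]
    intro a
    rw [List.mem_toFinset, List.mem_filterMap]
    exact ⟨Sum.inl a, hmem _, rfl⟩
  · intro k
    obtain ⟨k', hk'⟩ := take_filterMap (Sum.getLeft? : Fin N ⊕ (Fin d ⊕ Fin d) → Option (Fin N)) l k
    rw [hk']
    set l0 := l.take k' with hl0
    have hnd : l0.Nodup := (List.take_sublist k' l).nodup hl1
    have h1 := hl3' k'
    rw [← hl0, sum_split_list] at h1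
    have h2 : ((l0.filterMap Sum.getLeft?).map (fun a => w (Sum.inl a))).sum
        = crd b (((l0.filterMap Sum.getLeft?).map v).sum) := by
      simp only [hw, Sum.elim_inl]
      generalize (l0.filterMap Sum.getLeft?) = m
      induction m with
      | nil =>
        funext i
        simp [crd]
      | cons a m ih =>
        rw [List.map_cons, List.sum_cons, ih, List.map_cons, List.sum_cons]
        funext i
        simp [crd, inner_add_right]
    have hndr : (l0.filterMap Sum.getRight?).Nodup := by
      apply hnd.filterMap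
      intro a a' c hc hc'
      rw [Option.mem_def, Sum.getRight?_eq_some_iff] at hc hc'
      rw [hc, hc']
    have h3 : nrm (((l0.filterMap Sum.getRight?).map (fun b => w (Sum.inr b))).sum) ≤ √d := by
      simp only [hw, Sum.elim_inr]
      have h4 : ((l0.filterMap Sum.getRight?).map (fun b => aux d b)).sum
          = ∑ b ∈ (l0.filterMap Sum.getRight?).toFinset, aux d b :=
        (List.sum_toFinset (aux d) hndr).symm
      rw [h4]
      exact nrm_aux d _
    rw [h2] at h1
    rw [← nrm_crd b]
    set X := crd b (((l0.filterMap Sum.getLeft?).map v).sum) with hX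
    set Y := ((l0.filterMap Sum.getRight?).map (fun b => w (Sum.inr b))).sum with hY
    have h5 : nrm X ≤ nrm (X + Y) + nrm Y := by
      have h6 := nrm_add_le (X + Y) (-Y)
      have h7 : nrm (-Y) = nrm Y := by
        have h8 : nrm (-Y) ^ 2 = nrm Y ^ 2 := by
          rw [nrm_sq, nrm_sq]
          apply Finset.sum_congr rfl
          intro i _
          simp
        exact (sq_eq_sq₀ (nrm_nonneg _) (nrm_nonneg _)).mp h8
      rw [h7, add_neg_cancel_right] at h6
      exact h6
    have h6 : √(Bd p) = √(10 ^ 8 * (27 * CR * (h0 + 3) + 2 * (1000 * CR) * (h0 + 2) + 1)) * √d := by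
      unfold Bd
      rw [Real.sqrt_mul]
      · rfl
      · have := C1_pos p
        have := C7_pos p
        positivity
    unfold Cfin
    rw [add_mul, one_mul, ← h6]
    linarith

theorem steinitz_sharp : ∃ C : ℝ, ∀ (d N : ℕ) (v : Fin N → EuclideanSpace ℝ (Fin d)),
    (∀ a, ‖v a‖ ≤ 1) → ∑ a, v a = 0 →
    ∃ s : Equiv.Perm (Fin N), ∀ k : ℕ,
      ‖∑ i ∈ univ.filter (fun i : Fin N => (i : ℕ) < k), v (s i)‖ ≤ C * √d := by
  obtain ⟨CR, hCR, hSP⟩ := exists_signProp
  obtain ⟨m, hm⟩ := exists_nat_ge (100 * logb 2 CR)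
  set h0 := max 2000 m with hh0
  have hCRh : CR ≤ (2 : ℝ) ^ ((h0 : ℝ) / 100) := by
    have h1 : logb 2 CR ≤ (h0 : ℝ) / 100 := by
      have h2 : (m : ℝ) ≤ h0 := by exact_mod_cast le_max_right 2000 m
      linarith
    calc CR = (2 : ℝ) ^ (logb 2 CR) := by
          rw [Real.rpow_logb (by norm_num) (by norm_num) (by linarith)]
      _ ≤ _ := Real.rpow_le_rpow_of_exponent_le (by norm_num) h1
  refine ⟨Cfin CR h0, fun d N v hv hsum => ?_⟩
  obtain ⟨l, hl1, hl2, hl3⟩ := steinitz_list_sharp hCR hSP (le_max_left 2000 m) hCRh d v hv hsum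
  have hmem : ∀ x, x ∈ l := by
    intro x
    rw [← List.mem_toFinset, hl2]
    exact Finset.mem_univ x
  have hlen : l.length = N := by
    rw [← List.toFinset_card_of_nodup hl1, hl2, Finset.card_univ, Fintype.card_fin]
  set e := hl1.getEquivOfForallMemList l hmem with he
  set s : Equiv.Perm (Fin N) := (finCongr hlen.symm).trans e with hs
  refine ⟨s, fun k => ?_⟩
  have h1 : List.ofFn (fun i : Fin N => v (s i)) = l.map v := by
    apply List.ext_getElem
    · simp [hlen]
    · intro n h2 h3
      simp [hs, he]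
  rw [← List.sum_take_ofFn, h1, ← List.map_take]
  exact hl3 k

end Vale.Agent.P262F
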