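import Mathlib

/-! Folding: from signings to balanced ordered partitions. -/

namespace Vale.Agent.P262F

open Finset Real

theorem fold_half_mem {ι : Type} {B : Set (ι → ℝ)} (hconv : Convex ℝ B) {x y : ι → ℝ}
    (hx : x ∈ B) (hy : y ∈ B) : (fun j => (x j + y j) / 2) ∈ B := by
  have := hconv hx hy (by norm_num : (0 : ℝ) ≤ 1 / 2) (by norm_num : (0 : ℝ) ≤ 1 / 2)
    (by norm_num)
  convert this using 1
  funext j
  simp only [Pi.add_apply, Pi.smul_apply, smul_eq_mul]
  ring

theorem fold_aux {α ι : Type} [Fintype α] (u : α → ι → ℝ) (B : Set (ι → ℝ)) (hconv : Convex ℝ B)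
    (hsymm : ∀ x ∈ B, -x ∈ B) (h : ℕ)
    (hsig : ∀ f : α → ℕ, ∃ ε : α → ℝ, (∀ a, ε a = 1 ∨ ε a = -1) ∧
      ∀ m ≤ 2 ^ h, (fun j => ∑ a ∈ univ.filter (fun a => f a < m), ε a * u a j) ∈ B)
    (V : Finset α) (i : ℕ) (hi : i ≤ h) :
    ∃ g : α → ℕ, (∀ a ∈ V, g a < 2 ^ i) ∧ ∀ m ≤ 2 ^ i,
      (fun j => ∑ a ∈ V.filter (fun a => g a < m), u a j - ((m : ℝ) / 2 ^ i) * ∑ a ∈ V, u a j)
        ∈ B := by
  classical
  have h0 : (fun _ : ι => (0 : ℝ)) ∈ B := by
    obtain ⟨ε, -, hε⟩ := hsig (fun _ => 0)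
    have := hε 0 (Nat.zero_le _)
    simpa using this
  induction i with
  | zero =>
    refine ⟨fun _ => 0, fun a _ => by simp, fun m hm => ?_⟩
    rw [pow_zero] at hm
    interval_cases m
    · simpa using h0
    · simpa using h0
  | succ i ih =>
    obtain ⟨g, hg, hE⟩ := ih (by omega)
    obtain ⟨ε, hε1, hε⟩ := hsig (fun a => if a ∈ V then g a else 2 ^ h)
    have hpow : 2 ^ i ≤ 2 ^ h := Nat.pow_le_pow_right (by norm_num) (by omega)
    have hS : ∀ m ≤ 2 ^ i, (fun j => ∑ a ∈ V.filter (fun a => g a < m), ε a * u a j) ∈ B := by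
      intro m hm
      have h1 := hε m (hm.trans hpow)
      have h2 : univ.filter (fun a => (if a ∈ V then g a else 2 ^ h) < m)
          = V.filter (fun a => g a < m) := by
        ext a
        simp only [mem_filter, mem_univ, true_and]
        by_cases ha : a ∈ V
        · simp [ha]
        · simp only [ha, if_false, false_and, iff_false, not_lt]
          exact hm.trans hpow
      rwa [h2] at h1
    refine ⟨fun a => if ε a = 1 then g a else 2 ^ (i + 1) - 1 - g a, ?_, ?_⟩
    · intro a ha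
      have h1 := hg a ha
      have h2 : 2 ^ (i + 1) = 2 * 2 ^ i := pow_succ' 2 i
      dsimp only
      split_ifs
      · omega
      · omega
    · intro m hm
      have h2 : 2 ^ (i + 1) = 2 * 2 ^ i := pow_succ' 2 i
      have h2r : (2 : ℝ) ^ (i + 1) = 2 * 2 ^ i := pow_succ' 2 i
      have hne : ((2 : ℝ) ^ i) ≠ 0 := by positivity
      rcases le_or_gt m (2 ^ i) with hmi | hmi
      · have h3 := fold_half_mem hconv (hE m hmi) (hS m hmi)
        convert h3 using 1
        funext j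
        have h4 : ∑ a ∈ V.filter (fun a => (if ε a = 1 then g a else 2 ^ (i + 1) - 1 - g a) < m),
            u a j = (∑ a ∈ V.filter (fun a => g a < m), u a j
              + ∑ a ∈ V.filter (fun a => g a < m), ε a * u a j) / 2 := by
          rw [sum_filter, sum_filter, sum_filter, ← sum_add_distrib, sum_div]
          refine sum_congr rfl fun a ha => ?_
          have h5 := hg a ha
          rcases hε1 a with he | he
          · rw [if_pos he, he]
            split_ifs <;> ring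
          · have he1 : ε a ≠ 1 := by rw [he]; norm_num
            rw [if_neg he1, he, if_neg (by omega)]
            split_ifs <;> ring
        rw [h4, h2r]
        field_simp
        ring
      · obtain ⟨m', hm'⟩ : ∃ m', m + m' = 2 ^ (i + 1) := ⟨2 ^ (i + 1) - m, by omega⟩
        have hm'i : m' ≤ 2 ^ i := by omega
        have h3 := fold_half_mem hconv (hsymm _ (hE m' hm'i)) (hS m' hm'i)
        convert h3 using 1
        funext j
        have h4 : ∑ a ∈ V.filter (fun a => (if ε a = 1 then g a else 2 ^ (i + 1) - 1 - g a) < m),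
            u a j = ∑ a ∈ V, u a j - (∑ a ∈ V.filter (fun a => g a < m'), u a j
              - ∑ a ∈ V.filter (fun a => g a < m'), ε a * u a j) / 2 := by
          rw [sum_filter, sum_filter, sum_filter, ← sum_sub_distrib, sum_div, ← sum_sub_distrib]
          refine sum_congr rfl fun a ha => ?_
          have h5 := hg a ha
          rcases hε1 a with he | he
          · rw [if_pos he, he, if_pos (by omega)]
            split_ifs <;> ring
          · have he1 : ε a ≠ 1 := by rw [he]; norm_num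
            rw [if_neg he1, he]
            by_cases hc : g a < m'
            · rw [if_neg (by omega), if_pos hc, if_pos hc]; ring
            · rw [if_pos (by omega), if_neg hc, if_neg hc]; ring
        have hmr : (m : ℝ) = 2 * 2 ^ i - m' := by
          have : (m : ℝ) + m' = 2 ^ (i + 1) := by exact_mod_cast hm'
          rw [h2r] at this
          linarith
        rw [h4, h2r, hmr]
        simp only [Pi.neg_apply]
        field_simp
        ring

theorem fold {α ι : Type} [Fintype α] (u : α → ι → ℝ) (B : Set (ι → ℝ)) (hconv : Convex ℝ B)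
    (hsymm : ∀ x ∈ B, -x ∈ B) (h : ℕ)
    (hsig : ∀ f : α → ℕ, ∃ ε : α → ℝ, (∀ a, ε a = 1 ∨ ε a = -1) ∧
      ∀ m ≤ 2 ^ h, (fun j => ∑ a ∈ univ.filter (fun a => f a < m), ε a * u a j) ∈ B)
    (V : Finset α) :
    ∃ g : α → ℕ, (∀ a ∈ V, g a < 2 ^ h) ∧ ∀ m ≤ 2 ^ h,
      (fun j => ∑ a ∈ V.filter (fun a => g a < m), u a j - ((m : ℝ) / 2 ^ h) * ∑ a ∈ V, u a j)
        ∈ B :=
  fold_aux u B hconv hsymm h hsig V h le_rfl

/-- The dyadic case of the biased split. -/
theorem fold_dyadic {α ι : Type} [Fintype α] (u : α → ι → ℝ) (B : Set (ι → ℝ))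
    (hconv : Convex ℝ B)
    (hsig : ∀ W : Finset α, ∃ ε : α → ℝ, (∀ a, ε a = 1 ∨ ε a = -1) ∧
      (fun j => ∑ a ∈ W, ε a * u a j) ∈ B)
    (U : Finset α) (t : ℕ) : ∀ n : α → ℕ, (∀ a ∈ U, n a ≤ 2 ^ t) →
    ∃ L ⊆ U, ∃ b ∈ B, ∀ j, ∑ a ∈ L, u a j - ∑ a ∈ U, ((n a : ℝ) / 2 ^ t) * u a j
      = (1 - (1 / 2 : ℝ) ^ t) * b j := by
  classical
  have h0 : (fun _ : ι => (0 : ℝ)) ∈ B := by
    obtain ⟨ε, -, hε⟩ := hsig ∅
    simpa using hε
  induction t with
  | zero =>
    intro n hn
    refine ⟨U.filter (fun a => n a = 1), filter_subset _ _, _, h0, fun j => ?_⟩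
    rw [sum_filter, ← sum_sub_distrib]
    simp only [pow_zero, sub_self, zero_mul]
    refine sum_eq_zero fun a ha => ?_
    have h1 := hn a ha
    rw [pow_zero] at h1
    rcases Nat.le_one_iff_eq_zero_or_eq_one.mp h1 with h2 | h2 <;> simp [h2]
  | succ t ih =>
    intro n hn
    obtain ⟨ε, hε1, hε⟩ := hsig (U.filter (fun a => n a % 2 = 1))
    obtain ⟨L, hLU, b, hb, hL⟩ := ih (fun a => if n a % 2 = 1 then
      (if ε a = 1 then n a / 2 + 1 else n a / 2) else n a / 2) (by
        intro a ha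
        have h1 := hn a ha
        have h2 : 2 ^ (t + 1) = 2 * 2 ^ t := pow_succ' 2 t
        split_ifs <;> omega)
    set p : ℝ := (1 / 2) ^ t with hp
    have hp0 : 0 < p := by positivity
    have hp1 : p ≤ 1 := pow_le_one₀ (by norm_num) (by norm_num)
    have hps : (1 / 2 : ℝ) ^ (t + 1) = p / 2 := by rw [pow_succ]; ring
    have hden : 0 < 1 - p / 2 := by linarith
    have hcomb := hconv hb hε (div_nonneg (by linarith) hden.le : 0 ≤ (1 - p) / (1 - p / 2))
      (div_nonneg (by linarith) hden.le : 0 ≤ (p / 2) / (1 - p / 2)) (by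
        rw [← add_div, div_eq_one_iff_eq hden.ne']; ring)
    refine ⟨L, hLU, _, hcomb, fun j => ?_⟩
    have h3 : ∑ a ∈ U, ((n a : ℝ) / 2 ^ (t + 1)) * u a j
        = ∑ a ∈ U, ((((if n a % 2 = 1 then (if ε a = 1 then n a / 2 + 1 else n a / 2)
            else n a / 2 : ℕ) : ℕ) : ℝ) / 2 ^ t) * u a j
          - (p / 2) * ∑ a ∈ U.filter (fun a => n a % 2 = 1), ε a * u a j := by
      rw [sum_filter, mul_sum, ← sum_sub_distrib]
      refine sum_congr rfl fun a ha => ?_
      have h2r : (2 : ℝ) ^ (t + 1) = 2 * 2 ^ t := pow_succ' 2 t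
      have hpt : p = 1 / 2 ^ t := by rw [hp, one_div_pow]
      rw [h2r, hpt]
      have h2t : (0 : ℝ) < 2 ^ t := by positivity
      by_cases hodd : n a % 2 = 1
      · have hna : n a = 2 * (n a / 2) + 1 := by omega
        have hnar : (n a : ℝ) = 2 * ((n a / 2 : ℕ) : ℝ) + 1 := by exact_mod_cast hna
        rw [if_pos hodd, if_pos hodd]
        rcases hε1 a with he | he
        · rw [if_pos he, he]
          push_cast at hnar ⊢
          rw [hnar]
          field_simp
          ring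
        · have he1 : ε a ≠ 1 := by rw [he]; norm_num
          rw [if_neg he1, he, hnar]
          field_simp
          ring
      · have hna : n a = 2 * (n a / 2) := by omega
        have hnar : (n a : ℝ) = 2 * ((n a / 2 : ℕ) : ℝ) := by exact_mod_cast hna
        rw [if_neg hodd, if_neg hodd, hnar]
        field_simp
        ring
    have h4 := hL j
    rw [h3, hps]
    simp only [Pi.add_apply, Pi.smul_apply, smul_eq_mul]
    have h5 : (1 - p / 2) * ((1 - p) / (1 - p / 2) * b j + p / 2 / (1 - p / 2) *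
        ∑ a ∈ U.filter (fun a => n a % 2 = 1), ε a * u a j)
        = (1 - p) * b j + p / 2 * ∑ a ∈ U.filter (fun a => n a % 2 = 1), ε a * u a j := by
      have hne : (2 : ℝ) - p ≠ 0 := by linarith
      field_simp
    rw [h5, ← h4]
    ring

theorem bias_split {α ι : Type} [Fintype α] [Fintype ι] (u : α → ι → ℝ) (B : Set (ι → ℝ))
    (hconv : Convex ℝ B) (hclosed : IsClosed B) (hsymm : ∀ x ∈ B, -x ∈ B)
    (hsig : ∀ W : Finset α, ∃ ε : α → ℝ, (∀ a, ε a = 1 ∨ ε a = -1) ∧
      (fun j => ∑ a ∈ W, ε a * u a j) ∈ B)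
    (U : Finset α) (β : α → ℝ) (hβ : ∀ a ∈ U, |β a| ≤ 1 / 2) :
    ∃ L ⊆ U, (fun j => ∑ a ∈ L, u a j - ∑ a ∈ U, (1 / 2 + β a) * u a j) ∈ B := by
  classical
  have h0 : (fun _ : ι => (0 : ℝ)) ∈ B := by
    obtain ⟨ε, -, hε⟩ := hsig ∅
    simpa using hε
  have hq0 : ∀ a ∈ U, 0 ≤ 1 / 2 + β a := fun a ha => by
    have := (abs_le.mp (hβ a ha)).1; linarith
  have hq1 : ∀ a ∈ U, 1 / 2 + β a ≤ 1 := fun a ha => by
    have := (abs_le.mp (hβ a ha)).2; linarith
  have key : ∀ t : ℕ, ∃ L : Finset α, L ⊆ U ∧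
      (fun j => ∑ a ∈ L, u a j - ∑ a ∈ U, ((⌊(1 / 2 + β a) * 2 ^ t⌋₊ : ℝ) / 2 ^ t) * u a j)
        ∈ B := by
    intro t
    obtain ⟨L, hLU, b, hb, hL⟩ := fold_dyadic u B hconv hsig U t
      (fun a => ⌊(1 / 2 + β a) * 2 ^ t⌋₊) (by
        intro a ha
        have h1 : (1 / 2 + β a) * 2 ^ t ≤ ((2 ^ t : ℕ) : ℝ) := by
          push_cast
          have := mul_le_mul_of_nonneg_right (hq1 a ha) (by positivity : (0 : ℝ) ≤ 2 ^ t)
          linarith
        exact Nat.floor_le_of_le h1)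
    refine ⟨L, hLU, ?_⟩
    have h1 : (1 / 2 : ℝ) ^ t ≤ 1 := pow_le_one₀ (by norm_num) (by norm_num)
    have h2 := hconv hb h0 (by linarith : 0 ≤ 1 - (1 / 2 : ℝ) ^ t)
      (by positivity : 0 ≤ (1 / 2 : ℝ) ^ t) (by ring)
    convert h2 using 1
    funext j
    rw [hL j]
    simp
  obtain ⟨L, hL⟩ : ∃ L : Finset α, ∃ᶠ t in Filter.atTop, L ⊆ U ∧
      (fun j => ∑ a ∈ L, u a j - ∑ a ∈ U, ((⌊(1 / 2 + β a) * 2 ^ t⌋₊ : ℝ) / 2 ^ t) * u a j)
        ∈ B := by
    by_contra hcon
    rw [not_exists] at hcon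
    have h1 : ∀ L : Finset α, ∀ᶠ t in Filter.atTop, ¬ (L ⊆ U ∧
        (fun j => ∑ a ∈ L, u a j
          - ∑ a ∈ U, ((⌊(1 / 2 + β a) * 2 ^ t⌋₊ : ℝ) / 2 ^ t) * u a j) ∈ B) := by
      intro L
      have := hcon L
      rwa [Filter.not_frequently] at this
    have h2 := Filter.eventually_all.mpr h1
    obtain ⟨t, ht⟩ := h2.exists
    obtain ⟨L, hL1, hL2⟩ := key t
    exact ht L ⟨hL1, hL2⟩
  obtain ⟨-, hLU, -⟩ := hL.exists
  refine ⟨L, hLU, ?_⟩
  refine hclosed.mem_of_frequently_of_tendsto (hL.mono fun t ht => ht.2) ?_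
  rw [tendsto_pi_nhds]
  intro j
  refine Filter.Tendsto.sub tendsto_const_nhds (tendsto_finsetSum _ fun a ha => ?_)
  refine Filter.Tendsto.mul_const _ ?_
  have h1 := tendsto_nat_floor_mul_div_atTop (hq0 a ha)
  have h2 : Filter.Tendsto (fun t : ℕ => (2 : ℝ) ^ t) Filter.atTop Filter.atTop :=
    tendsto_pow_atTop_atTop_of_one_lt (by norm_num)
  exact h1.comp h2

/-- Folding into `2 ^ (h + 1)` parts, then choosing a biased split of each block consisting of
the parts `2 j - 1` and `2 j`. -/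
theorem split_all {α ι : Type} [Fintype α] [Fintype ι] (u : α → ι → ℝ) (B : Set (ι → ℝ))
    (hconv : Convex ℝ B) (hclosed : IsClosed B) (hsymm : ∀ x ∈ B, -x ∈ B) (h : ℕ)
    (hsig : ∀ f : α → ℕ, ∃ ε : α → ℝ, (∀ a, ε a = 1 ∨ ε a = -1) ∧
      ∀ m ≤ 2 ^ (h + 1), (fun j => ∑ a ∈ univ.filter (fun a => f a < m), ε a * u a j) ∈ B)
    (V : Finset α) :
    ∃ g : α → ℕ, (∀ a ∈ V, g a < 2 ^ (h + 1)) ∧
      (∀ m ≤ 2 ^ (h + 1), (fun j => ∑ a ∈ V.filter (fun a => g a < m), u a j
        - ((m : ℝ) / 2 ^ (h + 1)) * ∑ a ∈ V, u a j) ∈ B) ∧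
      ∀ β : ℕ → α → ℝ, (∀ j, ∀ a ∈ V, |β j a| ≤ 1 / 2) →
        ∃ c : α → ℕ, (∀ a ∈ V, c a < 2 ^ h) ∧ ∀ j, 0 < j → j < 2 ^ h →
          (fun i => ∑ a ∈ V.filter (fun a => c a < j), u a i
            - (1 / 2 * (∑ a ∈ V.filter (fun a => g a < 2 * j - 1), u a i
                + ∑ a ∈ V.filter (fun a => g a < 2 * j + 1), u a i)
              + ∑ a ∈ V.filter (fun a => g a = 2 * j - 1 ∨ g a = 2 * j), β j a * u a i)) ∈ B := by
  classical
  obtain ⟨g, hg, hE⟩ := fold u B hconv hsymm (h + 1) hsig V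
  refine ⟨g, hg, hE, ?_⟩
  intro β hβ
  have hsig' : ∀ W : Finset α, ∃ ε : α → ℝ, (∀ a, ε a = 1 ∨ ε a = -1) ∧
      (fun j => ∑ a ∈ W, ε a * u a j) ∈ B := by
    intro W
    obtain ⟨ε, hε1, hε⟩ := hsig (fun a => if a ∈ W then 0 else 1)
    refine ⟨ε, hε1, ?_⟩
    have h1 := hε 1 (Nat.one_le_two_pow)
    have h2 : univ.filter (fun a => (if a ∈ W then 0 else 1) < 1) = W := by
      ext a
      by_cases ha : a ∈ W <;> simp [ha]
    rwa [h2] at h1
  have hch : ∀ j : ℕ, ∃ L : Finset α, L ⊆ V.filter (fun a => g a = 2 * j - 1 ∨ g a = 2 * j) ∧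
      (fun i => ∑ a ∈ L, u a i
        - ∑ a ∈ V.filter (fun a => g a = 2 * j - 1 ∨ g a = 2 * j), (1 / 2 + β j a) * u a i)
        ∈ B := by
    intro j
    obtain ⟨L, h1, h2⟩ := bias_split u B hconv hclosed hsymm hsig'
      (V.filter (fun a => g a = 2 * j - 1 ∨ g a = 2 * j)) (β j)
      (fun a ha => hβ j a (mem_filter.mp ha).1)
    exact ⟨L, h1, h2⟩
  choose L hLU hLB using hch
  refine ⟨fun a => if g a = 0 then 0 else if (g a + 1) / 2 = 2 ^ h then 2 ^ h - 1 else
    if a ∈ L ((g a + 1) / 2) then (g a + 1) / 2 - 1 else (g a + 1) / 2, ?_, ?_⟩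
  · intro a ha
    have h1 := hg a ha
    have h2 : 2 ^ (h + 1) = 2 * 2 ^ h := pow_succ' 2 h
    have h3 : 0 < 2 ^ h := by positivity
    dsimp only
    split_ifs <;> omega
  · intro j hj hjh
    have hset : V.filter (fun a => (if g a = 0 then 0 else if (g a + 1) / 2 = 2 ^ h then 2 ^ h - 1
        else if a ∈ L ((g a + 1) / 2) then (g a + 1) / 2 - 1 else (g a + 1) / 2) < j)
        = V.filter (fun a => g a < 2 * j - 1) ∪ L j := by
      ext a
      rw [mem_union, mem_filter, mem_filter]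
      constructor
      · rintro ⟨haV, hlt⟩
        by_cases hk : (g a + 1) / 2 = j
        · right
          by_contra hL
          rw [hk, if_neg (by omega), if_neg (by omega), if_neg hL] at hlt
          omega
        · left
          refine ⟨haV, ?_⟩
          by_contra hge
          rw [if_neg (by omega)] at hlt
          split_ifs at hlt <;> omega
      · rintro (⟨haV, hlt⟩ | haL)
        · refine ⟨haV, ?_⟩
          split_ifs <;> omega
        · have h1 := mem_filter.mp (hLU j haL)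
          refine ⟨h1.1, ?_⟩
          have hk : (g a + 1) / 2 = j := by
            rcases h1.2 with h2 | h2 <;> omega
          rw [hk, if_neg (by rcases h1.2 with h2 | h2 <;> omega), if_neg (by omega), if_pos haL]
          omega
    have hdisj : Disjoint (V.filter (fun a => g a < 2 * j - 1)) (L j) := by
      rw [Finset.disjoint_left]
      intro a ha haL
      have h1 := (mem_filter.mp ha).2
      have h2 := (mem_filter.mp (hLU j haL)).2
      rcases h2 with h2 | h2 <;> omega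
    have hset2 : V.filter (fun a => g a < 2 * j + 1) = V.filter (fun a => g a < 2 * j - 1) ∪
        V.filter (fun a => g a = 2 * j - 1 ∨ g a = 2 * j) := by
      ext a
      rw [mem_union, mem_filter, mem_filter, mem_filter]
      constructor
      · rintro ⟨haV, h1⟩
        by_cases h2 : g a < 2 * j - 1
        · exact Or.inl ⟨haV, h2⟩
        · exact Or.inr ⟨haV, by omega⟩
      · rintro (⟨haV, h1⟩ | ⟨haV, h1⟩)
        · exact ⟨haV, by omega⟩
        · exact ⟨haV, by omega⟩
    have hdisj2 : Disjoint (V.filter (fun a => g a < 2 * j - 1))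
        (V.filter (fun a => g a = 2 * j - 1 ∨ g a = 2 * j)) := by
      rw [Finset.disjoint_left]
      intro a ha ha2
      have h1 := (mem_filter.mp ha).2
      rcases (mem_filter.mp ha2).2 with h2 | h2 <;> omega
    have h1 := hLB j
    convert h1 using 1
    funext i
    rw [hset, hset2, sum_union hdisj, sum_union hdisj2]
    simp only [add_mul, sum_add_distrib, ← mul_sum]
    ring

end Vale.Agent.P262F
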