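import Vale.Agent.Lib.P262F.Defs

/-! The healing lemma. -/

namespace Vale.Agent.P262F

open Finset Real

theorem heal_exists_above {κ : Type} [Fintype κ] (τ : κ → ℝ) (t : ℝ) :
    ∃ g : ℝ, t < g ∧ ∀ k, τ k < g ↔ τ k ≤ t := by
  classical
  by_cases h : (univ.filter (fun k => t < τ k)).Nonempty
  · obtain ⟨k0, hk0, hmin⟩ := Finset.exists_min_image _ τ h
    rw [mem_filter] at hk0
    refine ⟨τ k0, hk0.2, fun k => ⟨fun hk => ?_, fun hk => lt_of_le_of_lt hk hk0.2⟩⟩
    by_contra hcon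
    have := hmin k (mem_filter.mpr ⟨mem_univ _, not_le.mp hcon⟩)
    linarith
  · refine ⟨t + 1, by linarith, fun k => ⟨fun _ => ?_, fun hk => by linarith⟩⟩
    by_contra hcon
    exact h ⟨k, mem_filter.mpr ⟨mem_univ _, not_le.mp hcon⟩⟩

/-- pointwise estimate at a coordinate which is clipped -/
theorem heal_pointwise {z ab pp c e f : ℝ} (he : 0 ≤ e) (hf : 0 ≤ f) (hc : 0 ≤ c)
    (h2 : |z - (pp - Par.clip pp c)| ≤ e) (h3 : |pp - ab| ≤ f) (hpp : c < |pp|)
    (hef : (e + f) ^ 2 ≤ c ^ 2 / 16) : z ^ 2 ≤ ab ^ 2 - 9 / 16 * c ^ 2 := by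
  have hef' : e + f ≤ c / 4 := by
    refine le_of_sq_le_sq ?_ (by positivity)
    calc (e + f) ^ 2 ≤ c ^ 2 / 16 := hef
      _ = (c / 4) ^ 2 := by ring
  have hclip : |pp - Par.clip pp c| = |pp| - c := by
    unfold Par.clip
    rcases le_total 0 pp with h | h
    · rw [abs_of_nonneg h] at hpp ⊢
      rw [min_eq_left hpp.le, max_eq_right (by linarith), abs_of_nonneg (by linarith)]
    · rw [abs_of_nonpos h] at hpp ⊢
      rw [min_eq_right (by linarith), max_eq_left (by linarith), abs_of_nonpos (by linarith)]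
      ring
  have hz : |z| ≤ |pp| - c + e := by
    have h4 : |z| ≤ |z - (pp - Par.clip pp c)| + |pp - Par.clip pp c| := by
      have := abs_add_le (z - (pp - Par.clip pp c)) (pp - Par.clip pp c)
      simpa using this
    linarith
  have hab : |pp| ≤ |ab| + f := by
    have := abs_add_le (pp - ab) ab
    rw [sub_add_cancel] at this
    linarith
  have hz2 : |z| ≤ |ab| - 3 / 4 * c := by linarith
  have hab2 : 3 / 4 * c ≤ |ab| := by linarith
  have hz3 : |z| ^ 2 ≤ (|ab| - 3 / 4 * c) ^ 2 := pow_le_pow_left₀ (abs_nonneg z) hz2 2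
  rw [sq_abs] at hz3
  have h5 : (|ab| - 3 / 4 * c) ^ 2 = ab ^ 2 - 3 / 2 * c * |ab| + 9 / 16 * c ^ 2 := by
    rw [sub_sq, sq_abs]; ring
  have h6 : 3 / 2 * c * |ab| ≥ 3 / 2 * c * (3 / 4 * c) := by gcongr
  nlinarith

theorem heal_step {κ : Type} [Fintype κ] [DecidableEq κ] (τ : κ → ℝ) {s g : ℝ} (hg : s ≤ g)
    (ab z c pp e f : κ → ℝ) {C1 C5 H H' T h : ℝ} (hC5 : 0 ≤ C5) (hC : C5 ≤ C1) (hT : 0 ≤ T)
    (hh : 0 ≤ h) (hH : H ≤ H')
    (h1 : ∀ g' : ℝ, s ≤ g' → ∑ k ∈ univ.filter (fun k => τ k < g'), ab k ^ 2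
      ≤ C1 * (((univ.filter (fun k => τ k < g')).card : ℝ) + H))
    (he : ∀ k, 0 ≤ e k) (hf : ∀ k, 0 ≤ f k) (hc : ∀ k, 0 ≤ c k)
    (h2 : ∀ k, s ≤ τ k → |z k - (pp k - Par.clip (pp k) (c k))| ≤ e k)
    (h3 : ∀ k, s ≤ τ k → |pp k - ab k| ≤ f k)
    (h4 : ∀ g' : ℝ, s ≤ g' → ∑ k ∈ univ.filter (fun k => s ≤ τ k ∧ τ k < g'), (e k + f k) ^ 2
      ≤ C5 * (((univ.filter (fun k => s ≤ τ k ∧ τ k < g')).card : ℝ) + T + h))
    (h5 : ∀ k, s ≤ τ k →
      16 * C5 * (((univ.filter (fun l => s ≤ τ l ∧ τ l ≤ τ k)).card : ℝ) + T + h) ≤ c k ^ 2)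
    (h6 : ∀ k, τ k < s → z k = ab k)
    (h7 : ∀ n : ℝ, 1 ≤ n → C5 * (n + T + h) ≤ C1 * (n + (H' - H))) :
    ∑ k ∈ univ.filter (fun k => τ k < g), z k ^ 2
      ≤ C1 * (((univ.filter (fun k => τ k < g)).card : ℝ) + H') := by
  have hC1 : 0 ≤ C1 := hC5.trans hC
  -- the sets
  set Bs := univ.filter (fun k => τ k < s) with hBs
  set A := univ.filter (fun k => s ≤ τ k ∧ τ k < g) with hA
  have hBg : univ.filter (fun k => τ k < g) = Bs ∪ A := by
    ext k
    simp only [hBs, hA, mem_filter, mem_univ, true_and, mem_union]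
    constructor
    · intro hk
      rcases lt_or_ge (τ k) s with h | h
      · exact Or.inl h
      · exact Or.inr ⟨h, hk⟩
    · rintro (h | h)
      · linarith
      · exact h.2
  have hdisj : Disjoint Bs A := by
    rw [Finset.disjoint_left]
    intro k hk1 hk2
    rw [hBs, mem_filter] at hk1
    rw [hA, mem_filter] at hk2
    linarith [hk1.2, hk2.2.1]
  rw [hBg, sum_union hdisj, card_union_of_disjoint hdisj]
  have hsB : ∑ k ∈ Bs, z k ^ 2 = ∑ k ∈ Bs, ab k ^ 2 := by
    refine sum_congr rfl fun k hk => ?_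
    rw [hBs, mem_filter] at hk
    rw [h6 k hk.2]
  have hA4 := h4 g hg
  rw [← hA] at hA4
  push_cast
  -- unclipped coordinates
  have hun : ∀ k ∈ A, |pp k| ≤ c k → z k ^ 2 ≤ (e k + f k) ^ 2 := by
    intro k hk hle
    rw [hA, mem_filter] at hk
    have h8 := h2 k hk.2.1
    have h9 : Par.clip (pp k) (c k) = pp k := by
      unfold Par.clip
      rw [abs_le] at hle
      rw [min_eq_right hle.2, max_eq_right hle.1]
    rw [h9, sub_self, sub_zero] at h8
    have h10 : |z k| ≤ e k + f k := h8.trans (le_add_of_nonneg_right (hf k))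
    rw [← sq_abs]
    exact pow_le_pow_left₀ (abs_nonneg _) h10 2
  set S := A.filter (fun k => c k < |pp k|) with hS
  rcases S.eq_empty_or_nonempty with hSe | hSne
  · -- no clipped coordinate
    have hall : ∀ k ∈ A, z k ^ 2 ≤ (e k + f k) ^ 2 := by
      intro k hk
      refine hun k hk ?_
      by_contra hcon
      have : k ∈ S := by
        rw [hS, mem_filter]; exact ⟨hk, not_le.mp hcon⟩
      rw [hSe] at this
      simp at this
    have hsA : ∑ k ∈ A, z k ^ 2 ≤ C5 * ((A.card : ℝ) + T + h) :=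
      (sum_le_sum hall).trans hA4
    have hB1 := h1 s le_rfl
    rw [← hBs] at hB1
    rw [hsB]
    rcases Nat.eq_zero_or_pos A.card with h0 | hpos
    · have hAe : A = ∅ := card_eq_zero.mp h0
      rw [hAe, sum_empty, card_empty, add_zero]
      refine hB1.trans ?_
      push_cast
      rw [add_zero]
      gcongr
    · have h8 := h7 (A.card : ℝ) (by exact_mod_cast hpos)
      calc ∑ k ∈ Bs, ab k ^ 2 + ∑ k ∈ A, z k ^ 2
          ≤ C1 * ((Bs.card : ℝ) + H) + C1 * ((A.card : ℝ) + (H' - H)) :=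
            add_le_add hB1 (hsA.trans h8)
        _ = C1 * ((Bs.card : ℝ) + (A.card : ℝ) + H') := by ring
  · -- clipped coordinates
    obtain ⟨ks, hks, hmax⟩ := Finset.exists_max_image S τ hSne
    obtain ⟨gs, hgs1, hgs2⟩ := heal_exists_above τ (τ ks)
    have hksA : ks ∈ A := by rw [hS, mem_filter] at hks; exact hks.1
    have hksτ : s ≤ τ ks ∧ τ ks < g := by rw [hA, mem_filter] at hksA; exact hksA.2
    have hgs_s : s ≤ gs := hksτ.1.trans hgs1.le
    -- estimate for elements of `S`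
    have hSpt : ∀ k ∈ S, z k ^ 2 ≤ ab k ^ 2 - 9 / 16 * c k ^ 2 := by
      intro k hk
      rw [hS, mem_filter] at hk
      obtain ⟨hkA, hkc⟩ := hk
      have hkA' := hkA
      rw [hA, mem_filter] at hkA'
      obtain ⟨gk, hgk1, hgk2⟩ := heal_exists_above τ (τ k)
      have h8 := h4 gk (hkA'.2.1.trans hgk1.le)
      have hseteq : univ.filter (fun l => s ≤ τ l ∧ τ l < gk) =
          univ.filter (fun l => s ≤ τ l ∧ τ l ≤ τ k) := by
        ext l
        simp only [mem_filter, mem_univ, true_and, hgk2 l]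
      rw [hseteq] at h8
      have h9 : (e k + f k) ^ 2 ≤
          ∑ l ∈ univ.filter (fun l => s ≤ τ l ∧ τ l ≤ τ k), (e l + f l) ^ 2 := by
        refine single_le_sum (f := fun l => (e l + f l) ^ 2) (fun l _ => sq_nonneg _) ?_
        rw [mem_filter]
        exact ⟨mem_univ _, hkA'.2.1, le_rfl⟩
      have h10 := h5 k hkA'.2.1
      refine heal_pointwise (he k) (hf k) (hc k) (h2 k hkA'.2.1) (h3 k hkA'.2.1) hkc ?_
      linarith
    -- split `A` into `S` and the rest
    have hsplit : ∑ k ∈ A, z k ^ 2 = ∑ k ∈ S, z k ^ 2 +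
        ∑ k ∈ A.filter (fun k => ¬ c k < |pp k|), z k ^ 2 := by
      rw [hS, sum_filter_add_sum_filter_not]
    have hrest : ∑ k ∈ A.filter (fun k => ¬ c k < |pp k|), z k ^ 2 ≤
        C5 * ((A.card : ℝ) + T + h) := by
      refine le_trans ?_ hA4
      calc ∑ k ∈ A.filter (fun k => ¬ c k < |pp k|), z k ^ 2
          ≤ ∑ k ∈ A.filter (fun k => ¬ c k < |pp k|), (e k + f k) ^ 2 := by
            refine sum_le_sum fun k hk => ?_
            rw [mem_filter] at hk
            exact hun k hk.1 (not_lt.mp hk.2)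
        _ ≤ ∑ k ∈ A, (e k + f k) ^ 2 :=
            sum_le_sum_of_subset_of_nonneg (filter_subset _ _) fun _ _ _ => sq_nonneg _
    have hSsum : ∑ k ∈ S, z k ^ 2 ≤ ∑ k ∈ S, ab k ^ 2 - 9 / 16 * c ks ^ 2 := by
      have h8 : ∑ k ∈ S, z k ^ 2 ≤ ∑ k ∈ S, (ab k ^ 2 - 9 / 16 * c k ^ 2) := sum_le_sum hSpt
      rw [sum_sub_distrib] at h8
      have h9 : 9 / 16 * c ks ^ 2 ≤ ∑ k ∈ S, 9 / 16 * c k ^ 2 :=
        single_le_sum (f := fun k => 9 / 16 * c k ^ 2) (fun k _ => by positivity) hks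
      linarith
    -- comparison with the set below `gs`
    set As := univ.filter (fun k => s ≤ τ k ∧ τ k ≤ τ ks) with hAs
    have hBgs : univ.filter (fun k => τ k < gs) = Bs ∪ As := by
      ext k
      simp only [hBs, hAs, mem_filter, mem_univ, true_and, mem_union, hgs2 k]
      constructor
      · intro hk
        rcases lt_or_ge (τ k) s with h | h
        · exact Or.inl h
        · exact Or.inr ⟨h, hk⟩
      · rintro (h | h)
        · linarith [hksτ.1]
        · exact h.2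
    have hdisj2 : Disjoint Bs As := by
      rw [Finset.disjoint_left]
      intro k hk1 hk2
      rw [hBs, mem_filter] at hk1
      rw [hAs, mem_filter] at hk2
      linarith [hk1.2, hk2.2.1]
    have h11 := h1 gs hgs_s
    rw [hBgs, sum_union hdisj2, card_union_of_disjoint hdisj2] at h11
    push_cast at h11
    have hSsub : S ⊆ As := by
      intro k hk
      have h12 := hmax k hk
      rw [hS, mem_filter, hA, mem_filter] at hk
      rw [hAs, mem_filter]
      exact ⟨mem_univ _, hk.1.2.1, h12⟩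
    have hSle : ∑ k ∈ S, ab k ^ 2 ≤ ∑ k ∈ As, ab k ^ 2 :=
      sum_le_sum_of_subset_of_nonneg hSsub fun _ _ _ => sq_nonneg _
    have hAsA : As.card ≤ A.card := by
      refine card_le_card ?_
      intro k hk
      rw [hAs, mem_filter] at hk
      rw [hA, mem_filter]
      exact ⟨mem_univ _, hk.2.1, lt_of_le_of_lt hk.2.2 hksτ.2⟩
    have hAsA' : (As.card : ℝ) ≤ (A.card : ℝ) := by exact_mod_cast hAsA
    have h13 := h5 ks hksτ.1
    rw [← hAs] at h13
    have h14 : 0 ≤ C5 * ((As.card : ℝ) + T + h) := by positivity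
    have h15 : C5 * ((A.card : ℝ) - (As.card : ℝ)) ≤ C1 * ((A.card : ℝ) - (As.card : ℝ)) :=
      mul_le_mul_of_nonneg_right hC (by linarith)
    have h16 : C1 * H ≤ C1 * H' := mul_le_mul_of_nonneg_left hH hC1
    rw [hsB, hsplit]
    have h17 : 9 / 16 * c ks ^ 2 ≥ 9 * (C5 * ((As.card : ℝ) + T + h)) := by linarith
    have h18 : C1 * ((Bs.card : ℝ) + (As.card : ℝ) + H) + C1 * ((A.card : ℝ) - (As.card : ℝ)) =
        C1 * ((Bs.card : ℝ) + (A.card : ℝ)) + C1 * H := by ring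
    have h19 : C1 * ((Bs.card : ℝ) + (A.card : ℝ) + H') =
        C1 * ((Bs.card : ℝ) + (A.card : ℝ)) + C1 * H' := by ring
    have h20 : C5 * ((A.card : ℝ) + T + h) = C5 * ((As.card : ℝ) + T + h) +
        C5 * ((A.card : ℝ) - (As.card : ℝ)) := by ring
    linarith

end Vale.Agent.P262F
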