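import Vale.Agent.Lib.P262F.Light

/-! Heavy sums of a child and changes of the threshold. -/

namespace Vale.Agent.P262F

open Finset Real

variable {α : Type} {d : ℕ} {p : Par d} {v : α → Fin d → ℝ} {s : ℕ} {V : Finset α}
  {x y Lx Ly ε : Fin d → ℝ}

/-- fresh error of the heavy sums in the child `j` -/
noncomputable def hErr (R : Raw p v s V x y) (j : ℕ) (k : Fin d) : ℝ :=
  |R.xi j (p.hS v s k)| + |R.xi (j + 1) (p.hS v s k)| + R.zt j k + R.zt (j + 1) k

theorem hS_nonneg (p : Par d) (v : α → Fin d → ℝ) (s : ℕ) (k : Fin d) (a : α) :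
    0 ≤ p.hS v s k a := by
  unfold Par.hS
  split_ifs
  · exact le_refl _
  · exact abs_nonneg _

theorem lE_nonneg' (p : Par d) (v : α → Fin d → ℝ) (s : ℕ) (k : Fin d) (a : α) :
    0 ≤ p.lE v s k a := by
  unfold Par.lE
  split_ifs
  · exact sq_nonneg _
  · exact le_refl _

theorem thr_pos' (p : Par d) (s : ℕ) (k : Fin d) : 0 < p.thr s k := by
  unfold Par.thr
  positivity

theorem abs_le_sq_div {t r : ℝ} (hr : 0 < r) (h : r < t ^ 2) : |t| ≤ t ^ 2 / √r := by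
  have h1 : 0 < √r := Real.sqrt_pos.2 hr
  rw [le_div_iff₀ h1]
  have h2 : √r ≤ |t| := by
    rw [← Real.sqrt_sq_eq_abs]
    exact Real.sqrt_le_sqrt h.le
  have h3 : |t| * √r ≤ |t| * |t| := mul_le_mul_of_nonneg_left h2 (abs_nonneg _)
  rw [abs_mul_abs_self] at h3
  linarith [h3, sq t]

/-- pointwise comparison of the heavy parts at two times -/
theorem hS_step (s h : ℕ) (k : Fin d) (a : α) :
    p.hS v (s + h) k a ≤ p.hS v s k a + p.lE v s k a / √(p.thr (s + h) k) := by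
  have h0 : 0 < √(p.thr (s + h) k) := Real.sqrt_pos.2 (thr_pos' p _ k)
  have h1 : 0 ≤ p.lE v s k a / √(p.thr (s + h) k) := div_nonneg (lE_nonneg' p v s k a) h0.le
  by_cases hc : v a k ^ 2 ≤ p.thr (s + h) k
  · have h2 : p.hS v (s + h) k a = 0 := by
      unfold Par.hS
      rw [if_pos hc]
    rw [h2]
    exact add_nonneg (hS_nonneg p v s k a) h1
  · have h2 : p.hS v (s + h) k a = |v a k| := by
      unfold Par.hS
      rw [if_neg hc]
    rw [h2]
    by_cases hd : v a k ^ 2 ≤ p.thr s k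
    · have h3 : p.lE v s k a = v a k ^ 2 := by
        unfold Par.lE
        rw [if_pos hd]
      rw [h3]
      have h4 := abs_le_sq_div (thr_pos' p (s + h) k) (not_le.1 hc)
      linarith [hS_nonneg p v s k a]
    · have h3 : p.hS v s k a = |v a k| := by
        unfold Par.hS
        rw [if_neg hd]
      rw [h3]
      linarith

/-- pointwise comparison of the light parts at two times -/
theorem lS_step (s h : ℕ) (k : Fin d) (a : α) :
    |p.lS v (s + h) k a - p.lS v s k a| ≤ p.lE v s k a / √(p.thr (s + h) k) := by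
  have h0 : 0 < √(p.thr (s + h) k) := Real.sqrt_pos.2 (thr_pos' p _ k)
  have h1 : 0 ≤ p.lE v s k a / √(p.thr (s + h) k) := div_nonneg (lE_nonneg' p v s k a) h0.le
  by_cases hc : v a k ^ 2 ≤ p.thr (s + h) k
  · have hd : v a k ^ 2 ≤ p.thr s k := hc.trans (thr_anti p s h k)
    have h2 : p.lS v (s + h) k a = v a k := by
      unfold Par.lS
      rw [if_pos hc]
    have h3 : p.lS v s k a = v a k := by
      unfold Par.lS
      rw [if_pos hd]
    rw [h2, h3, sub_self, abs_zero]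
    exact h1
  · have h2 : p.lS v (s + h) k a = 0 := by
      unfold Par.lS
      rw [if_neg hc]
    rw [h2]
    by_cases hd : v a k ^ 2 ≤ p.thr s k
    · have h3 : p.lE v s k a = v a k ^ 2 := by
        unfold Par.lE
        rw [if_pos hd]
      have h5 : p.lS v s k a = v a k := by
        unfold Par.lS
        rw [if_pos hd]
      rw [h3, h5, zero_sub, abs_neg]
      exact abs_le_sq_div (thr_pos' p (s + h) k) (not_le.1 hc)
    · have h3 : p.lS v s k a = 0 := by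
        unfold Par.lS
        rw [if_neg hd]
      rw [h3, sub_zero, abs_zero]
      exact h1

theorem dvf_hS_le (hv : ∀ a, ∑ k, v a k ^ 2 ≤ 1) (R : Raw p v s V x y) {j : ℕ}
    (hj : j ≤ 2 ^ p.hs s) {k : Fin d} (hk : k ∈ p.tr s) :
    |dvf V (p.hs s) R.c j (p.hS v s k)| ≤ |R.xi j (p.hS v s k)|
      + (2 : ℝ) ^ (-(20 * (p.hs s : ℝ))) * ((∑ a ∈ V, p.hS v s k a) / 2 ^ p.hs s + R.zt j k) := by
  have h1 : dvf V (p.hs s) R.c j (p.hS v s k)
      = R.xi j (p.hS v s k) + ∑ a ∈ R.U j, p.bet v s (R.w j) a * p.hS v s k a := by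
    rw [R.xi_eq]
    ring
  rw [h1]
  refine (abs_add_le _ _).trans ?_
  have h2 : |∑ a ∈ R.U j, p.bet v s (R.w j) a * p.hS v s k a|
      ≤ ∑ a ∈ R.U j, (2 : ℝ) ^ (-(20 * (p.hs s : ℝ))) * p.hS v s k a := by
    refine (Finset.abs_sum_le_sum_abs _ _).trans ?_
    apply Finset.sum_le_sum
    intro a ha
    rw [abs_mul, abs_of_nonneg (hS_nonneg p v s k a)]
    exact mul_le_mul_of_nonneg_right (bet_abs_le hv R hj ha) (hS_nonneg p v s k a)
  rw [← Finset.mul_sum] at h2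
  have h3 := R.U_hS j hj k hk
  have h4 : (0 : ℝ) ≤ (2 : ℝ) ^ (-(20 * (p.hs s : ℝ))) := by positivity
  have h5 := mul_le_mul_of_nonneg_left h3 h4
  linarith

theorem child_heavy_old (hv : ∀ a, ∑ k, v a k ^ 2 ≤ 1) (R : Raw p v s V x y)
    (I : p.Inv v s V x y Lx Ly ε) {j : ℕ} (hj : j < 2 ^ p.hs s) {k : Fin d} (hk : k ∈ p.tr s) :
    ∑ a ∈ V.filter (fun a => R.c a = j), p.hS v s k a
      ≤ p.PP (s + p.hs s) k + ε k + hErr R j k := by
  rw [sum_child]
  have hd1 := dvf_hS_le hv R hj.le hk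
  have hd2 := dvf_hS_le hv R (Nat.succ_le_of_lt hj) hk
  rw [Nat.succ_eq_add_one] at hd2
  have h1 := le_abs_self (dvf V (p.hs s) R.c (j + 1) (p.hS v s k))
  have h2 := neg_abs_le (dvf V (p.hs s) R.c j (p.hS v s k))
  set T := ∑ a ∈ V, p.hS v s k a with hT
  have hT0 : 0 ≤ T := Finset.sum_nonneg fun a _ => hS_nonneg p v s k a
  have hT1 : T ≤ p.PP s k + ε k := I.hv_tr k hk
  have hh := p.hs_ge s
  have hz1 := R.zt_nonneg j k
  have hz2 := R.zt_nonneg (j + 1) k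
  have hε := I.eps k
  have hPP : p.PP (s + p.hs s) k = p.PP s k * (2 : ℝ) ^ (-(7 / 8 * (p.hs s : ℝ))) := by
    unfold Par.PP
    rw [p.xx_add, ← Real.rpow_add (by norm_num)]
    congr 1
    ring
  have hPP0 : 0 ≤ p.PP s k := by
    unfold Par.PP
    positivity
  have he1 : (2 : ℝ) ^ (-(20 * (p.hs s : ℝ))) ≤ 1 / 2 := by
    have : (2 : ℝ) ^ (-(20 * (p.hs s : ℝ))) ≤ (2 : ℝ) ^ (-1 : ℝ) :=
      Real.rpow_le_rpow_of_exponent_le (by norm_num) (by linarith)
    rw [Real.rpow_neg_one] at this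
    linarith
  have he0 : (0 : ℝ) ≤ (2 : ℝ) ^ (-(20 * (p.hs s : ℝ))) := by positivity
  have hK : (1 : ℝ) / 2 ^ p.hs s = (2 : ℝ) ^ (-(p.hs s : ℝ)) := by
    rw [Real.rpow_neg (by norm_num), Real.rpow_natCast, one_div]
  have hK0 : (0 : ℝ) ≤ (2 : ℝ) ^ (-(p.hs s : ℝ)) := by positivity
  have hK1 : 2 * (2 : ℝ) ^ (-(p.hs s : ℝ)) ≤ (2 : ℝ) ^ (-(7 / 8 * (p.hs s : ℝ))) := by
    calc 2 * (2 : ℝ) ^ (-(p.hs s : ℝ)) = (2 : ℝ) ^ (1 + -(p.hs s : ℝ)) := by
          rw [Real.rpow_add (by norm_num), Real.rpow_one]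
      _ ≤ (2 : ℝ) ^ (-(7 / 8 * (p.hs s : ℝ))) :=
          Real.rpow_le_rpow_of_exponent_le (by norm_num) (by linarith)
  have hK2 : 2 * (2 : ℝ) ^ (-(p.hs s : ℝ)) ≤ 1 := by
    refine hK1.trans ?_
    exact Real.rpow_le_one_of_one_le_of_nonpos (by norm_num) (by linarith)
  have hTK : T / 2 ^ p.hs s = T * (2 : ℝ) ^ (-(p.hs s : ℝ)) := by
    rw [← hK]
    ring
  rw [hTK] at hd1 hd2 ⊢
  set e := (2 : ℝ) ^ (-(20 * (p.hs s : ℝ))) with he
  set κ := (2 : ℝ) ^ (-(p.hs s : ℝ)) with hκ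
  have hTκ : 0 ≤ T * κ := mul_nonneg hT0 hK0
  have h3 : e * (T * κ + R.zt j k) ≤ 1 / 2 * (T * κ) + R.zt j k := by
    have := mul_le_mul_of_nonneg_right he1 hTκ
    have := mul_le_mul_of_nonneg_right he1 hz1
    nlinarith
  have h4 : e * (T * κ + R.zt (j + 1) k) ≤ 1 / 2 * (T * κ) + R.zt (j + 1) k := by
    have := mul_le_mul_of_nonneg_right he1 hTκ
    have := mul_le_mul_of_nonneg_right he1 hz2
    nlinarith
  have h5 : T * (2 * κ) ≤ p.PP (s + p.hs s) k + ε k := by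
    have h6 : T * (2 * κ) ≤ (p.PP s k + ε k) * (2 * κ) :=
      mul_le_mul_of_nonneg_right hT1 (by linarith)
    have h7 : p.PP s k * (2 * κ) ≤ p.PP (s + p.hs s) k := by
      rw [hPP]
      exact mul_le_mul_of_nonneg_left hK1 hPP0
    have h8 : ε k * (2 * κ) ≤ ε k := mul_le_of_le_one_right hε hK2
    linarith
  unfold hErr
  linarith

/-- coordinates staying in transition -/
theorem child_heavy_tr (hv : ∀ a, ∑ k, v a k ^ 2 ≤ 1) (R : Raw p v s V x y)
    (I : p.Inv v s V x y Lx Ly ε) {j : ℕ} (hj : j < 2 ^ p.hs s) {k : Fin d} (hk : k ∈ p.tr s)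
    (hk' : k ∈ p.tr (s + p.hs s)) :
    ∑ a ∈ V.filter (fun a => R.c a = j), p.hS v (s + p.hs s) k a
      ≤ p.PP (s + p.hs s) k + (ε k + hErr R j k) := by
  have h1 : p.thr (s + p.hs s) k = p.thr s k := by
    rw [thr_tr p (p.tr_not_dead hk), thr_tr p (p.tr_not_dead hk')]
  have h2 : ∀ a, p.hS v (s + p.hs s) k a = p.hS v s k a := by
    intro a
    unfold Par.hS
    rw [h1]
  have h3 := child_heavy_old hv R I hj hk
  have h4 : ∑ a ∈ V.filter (fun a => R.c a = j), p.hS v (s + p.hs s) k a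
      = ∑ a ∈ V.filter (fun a => R.c a = j), p.hS v s k a :=
    Finset.sum_congr rfl fun a _ => h2 a
  rw [h4]
  linarith

/-- coordinates which freeze in this round -/
theorem child_heavy_new (hv : ∀ a, ∑ k, v a k ^ 2 ≤ 1) (R : Raw p v s V x y)
    (I : p.Inv v s V x y Lx Ly ε) {j : ℕ} (hj : j < 2 ^ p.hs s) {k : Fin d} (hk : k ∈ p.act s)
    (hk' : k ∉ p.act (s + p.hs s)) :
    ∑ a ∈ V.filter (fun a => R.c a = j), p.hS v (s + p.hs s) k a ≤ p.PP (s + p.hs s) k := by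
  obtain ⟨htr, -, -, -⟩ := p.new_tr hk hk'
  have hthr : p.thr (s + p.hs s) k = (2 : ℝ) ^ (-(25 * p.eta k)) := thr_tr p (p.tr_not_dead htr)
  have hsq : √(p.thr (s + p.hs s) k) = (2 : ℝ) ^ (-(25 / 2 * p.eta k)) := by
    rw [hthr, Real.sqrt_eq_rpow, ← Real.rpow_mul (by norm_num)]
    congr 1
    ring
  have hpos : 0 < √(p.thr (s + p.hs s) k) := Real.sqrt_pos.2 (thr_pos' p _ k)
  have h1 : ∑ a ∈ V.filter (fun a => R.c a = j), p.hS v (s + p.hs s) k a
      ≤ ∑ a ∈ V.filter (fun a => R.c a = j), v a k ^ 2 / √(p.thr (s + p.hs s) k) := by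
    apply Finset.sum_le_sum
    intro a _
    unfold Par.hS
    split_ifs with hc
    · exact div_nonneg (sq_nonneg _) hpos.le
    · exact abs_le_sq_div (thr_pos' p _ k) (not_le.1 hc)
  rw [← Finset.sum_div] at h1
  refine h1.trans ?_
  have h2 := child_energy hv R I hj hk
  rw [div_le_iff₀ hpos]
  refine h2.trans ?_
  rw [hsq]
  unfold Par.mu Par.PP
  have hx : -(40 * p.eta k) < p.xx (s + p.hs s) k := by
    have := (p.mem_tr.1 htr).1
    unfold Par.tau at this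
    unfold Par.xx
    linarith
  have h3 : 2 * (2 : ℝ) ^ (-p.xx (s + p.hs s) k) = (2 : ℝ) ^ (1 + -p.xx (s + p.hs s) k) := by
    rw [Real.rpow_add (by norm_num), Real.rpow_one]
  rw [h3, ← Real.rpow_add (by norm_num)]
  apply Real.rpow_le_rpow_of_exponent_le (by norm_num)
  linarith

/-- coordinates which die in this round -/
theorem child_heavy_death (hv : ∀ a, ∑ k, v a k ^ 2 ≤ 1) (R : Raw p v s V x y)
    (I : p.Inv v s V x y Lx Ly ε) {j : ℕ} (hj : j < 2 ^ p.hs s) {k : Fin d} (hk : k ∈ p.tr s)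
    (hk' : k ∈ p.dead (s + p.hs s)) :
    ∑ a ∈ V.filter (fun a => R.c a = j), p.hS v (s + p.hs s) k a
      ≤ ε k + hErr R j k + 1 / 8 := by
  have hthr : p.thr (s + p.hs s) k = (2 : ℝ) ^ (-(5 / 8 * p.xx (s + p.hs s) k)) :=
    thr_dead p hk'
  have hsq : √(p.thr (s + p.hs s) k) = (2 : ℝ) ^ (-(5 / 16 * p.xx (s + p.hs s) k)) := by
    rw [hthr, Real.sqrt_eq_rpow, ← Real.rpow_mul (by norm_num)]
    congr 1
    ring
  have hpos : 0 < √(p.thr (s + p.hs s) k) := Real.sqrt_pos.2 (thr_pos' p _ k)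
  have h1 : ∑ a ∈ V.filter (fun a => R.c a = j), p.hS v (s + p.hs s) k a
      ≤ ∑ a ∈ V.filter (fun a => R.c a = j),
        (p.hS v s k a + p.lE v s k a / √(p.thr (s + p.hs s) k)) :=
    Finset.sum_le_sum fun a _ => hS_step s _ k a
  rw [Finset.sum_add_distrib, ← Finset.sum_div] at h1
  have h2 := child_heavy_old hv R I hj hk
  have h3 := child_light_tr hv R I hj hk
  have hη := p.eta_ge k
  have hx1 : 40 * p.eta k ≤ p.xx (s + p.hs s) k := p.mem_dead.1 hk'
  have hx2 := p.new_dead hk hk'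
  have h4 : p.PP (s + p.hs s) k ≤ (2 : ℝ) ^ (-5 : ℝ) := by
    unfold Par.PP
    apply Real.rpow_le_rpow_of_exponent_le (by norm_num)
    linarith
  have h5 : (∑ a ∈ V.filter (fun a => R.c a = j), p.lE v s k a) / √(p.thr (s + p.hs s) k)
      ≤ (2 : ℝ) ^ (-5 : ℝ) + (2 : ℝ) ^ (-5 : ℝ) := by
    rw [div_le_iff₀ hpos]
    refine h3.trans ?_
    rw [hsq, add_mul, ← Real.rpow_add (by norm_num)]
    unfold Par.ThT
    apply add_le_add
    · apply Real.rpow_le_rpow_of_exponent_le (by norm_num)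
      linarith
    · apply Real.rpow_le_rpow_of_exponent_le (by norm_num)
      linarith
  have h6 : (2 : ℝ) ^ (-5 : ℝ) = 1 / 32 := by
    rw [Real.rpow_neg (by norm_num)]
    norm_num
  rw [h6] at h4 h5
  linarith

/-- light sum plus heavy sum control the full sum -/
theorem lS_full (s : ℕ) (k : Fin d) (C : Finset α) :
    |∑ a ∈ C, p.lS v s k a - ∑ a ∈ C, v a k| ≤ ∑ a ∈ C, p.hS v s k a := by
  rw [← Finset.sum_sub_distrib]
  refine (Finset.abs_sum_le_sum_abs _ _).trans ?_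
  apply Finset.sum_le_sum
  intro a _
  unfold Par.lS Par.hS
  split_ifs
  · rw [sub_self, abs_zero]
  · rw [zero_sub, abs_neg]

/-- change of the threshold for dead coordinates: light energy over the new threshold -/
theorem child_lE_div (hv : ∀ a, ∑ k, v a k ^ 2 ≤ 1) (R : Raw p v s V x y)
    (I : p.Inv v s V x y Lx Ly ε) {j : ℕ} (hj : j < 2 ^ p.hs s) {k : Fin d} (hk : k ∈ p.dead s) :
    (∑ a ∈ V.filter (fun a => R.c a = j), p.lE v s k a) / √(p.thr (s + p.hs s) k)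
      ≤ (2 : ℝ) ^ (-(3 / 16 * p.xx (s + p.hs s) k)) := by
  have hk' : k ∈ p.dead (s + p.hs s) := p.dead_mono s _ hk
  have hthr : p.thr (s + p.hs s) k = (2 : ℝ) ^ (-(5 / 8 * p.xx (s + p.hs s) k)) :=
    thr_dead p hk'
  have hsq : √(p.thr (s + p.hs s) k) = (2 : ℝ) ^ (-(5 / 16 * p.xx (s + p.hs s) k)) := by
    rw [hthr, Real.sqrt_eq_rpow, ← Real.rpow_mul (by norm_num)]
    congr 1
    ring
  have hpos : 0 < √(p.thr (s + p.hs s) k) := Real.sqrt_pos.2 (thr_pos' p _ k)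
  have h3 := child_light_dead hv R I hj hk
  rw [div_le_iff₀ hpos]
  refine h3.trans (le_of_eq ?_)
  rw [hsq, ← Real.rpow_add (by norm_num)]
  unfold Par.ThD
  congr 1
  ring

/-- change of the threshold for dead coordinates: heavy sums -/
theorem child_heavy_dead (hv : ∀ a, ∑ k, v a k ^ 2 ≤ 1) (R : Raw p v s V x y)
    (I : p.Inv v s V x y Lx Ly ε) {j : ℕ} (hj : j < 2 ^ p.hs s) {k : Fin d} (hk : k ∈ p.dead s) :
    ∑ a ∈ V.filter (fun a => R.c a = j), p.hS v (s + p.hs s) k a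
      ≤ ∑ a ∈ V.filter (fun a => R.c a = j), p.hS v s k a
        + (2 : ℝ) ^ (-(3 / 16 * p.xx (s + p.hs s) k)) := by
  have h1 : ∑ a ∈ V.filter (fun a => R.c a = j), p.hS v (s + p.hs s) k a
      ≤ ∑ a ∈ V.filter (fun a => R.c a = j),
        (p.hS v s k a + p.lE v s k a / √(p.thr (s + p.hs s) k)) :=
    Finset.sum_le_sum fun a _ => hS_step s _ k a
  rw [Finset.sum_add_distrib, ← Finset.sum_div] at h1
  have h2 := child_lE_div hv R I hj hk
  linarith

/-- change of the threshold for dead coordinates: light sums -/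
theorem child_lS_dead (hv : ∀ a, ∑ k, v a k ^ 2 ≤ 1) (R : Raw p v s V x y)
    (I : p.Inv v s V x y Lx Ly ε) {j : ℕ} (hj : j < 2 ^ p.hs s) {k : Fin d} (hk : k ∈ p.dead s) :
    |∑ a ∈ V.filter (fun a => R.c a = j), p.lS v (s + p.hs s) k a
        - ∑ a ∈ V.filter (fun a => R.c a = j), p.lS v s k a|
      ≤ (2 : ℝ) ^ (-(3 / 16 * p.xx (s + p.hs s) k)) := by
  rw [← Finset.sum_sub_distrib]
  refine (Finset.abs_sum_le_sum_abs _ _).trans ?_
  refine (Finset.sum_le_sum fun a _ => lS_step s (p.hs s) k a).trans ?_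
  rw [← Finset.sum_div]
  exact child_lE_div hv R I hj hk

end Vale.Agent.P262F
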