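import Vale.Agent.Lib.P262F.PLG
import Vale.Agent.Lib.P262F.Chord

open MeasureTheory ProbabilityTheory Set

namespace Vale.Agent.P262F

/-- The chord operation in the first coordinate. -/
def starProd {n : ℕ} (δ : ℝ) (K : Set (ℝ × (Fin n → ℝ))) : Set (ℝ × (Fin n → ℝ)) :=
  {p | ∃ τ ∈ Icc (-2 : ℝ) 2, (p.1 + (τ + 1) * δ, p.2) ∈ K ∧ (p.1 + (τ - 1) * δ, p.2) ∈ K}

/-- Projection of a closed set along a compact set of reals. -/
theorem closed_proj {X : Type*} [TopologicalSpace X] {A : Set (ℝ × X)} (hA : IsClosed A)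
    {s : Set ℝ} (hs : IsCompact s) : IsClosed {y | ∃ t ∈ s, (t, y) ∈ A} := by
  have : CompactSpace s := isCompact_iff_compactSpace.mp hs
  have h1 : IsClosed ((fun p : s × X => ((p.1 : ℝ), p.2)) ⁻¹' A) :=
    hA.preimage (by fun_prop)
  have h2 := isClosedMap_snd_of_compactSpace (X := s) (Y := X) _ h1
  convert h2 using 1
  ext y
  simp only [mem_ofPred_eq, mem_image, mem_preimage, Prod.exists, exists_eq_right]
  constructor
  · rintro ⟨t, ht, h⟩
    exact ⟨⟨t, ht⟩, h⟩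
  · rintro ⟨t, h⟩
    exact ⟨t, t.2, h⟩

/-- The fibre of a set over `y`. -/
def fib {n : ℕ} (K : Set (ℝ × (Fin n → ℝ))) (y : Fin n → ℝ) : Set ℝ := {t | (t, y) ∈ K}

theorem fib_convex {n : ℕ} {K : Set (ℝ × (Fin n → ℝ))} (hK : Convex ℝ K) (y : Fin n → ℝ) :
    Convex ℝ (fib K y) := by
  intro s hs t ht a b ha hb hab
  have h := hK hs ht ha hb hab
  have h2 : a • (s, y) + b • (t, y) = (a • s + b • t, y) := by
    ext1
    · rfl
    · simp only [Prod.snd_add, Prod.smul_snd]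
      rw [← add_smul, hab, one_smul]
  rw [h2] at h
  exact h

theorem fib_closed {n : ℕ} {K : Set (ℝ × (Fin n → ℝ))} (hc : IsClosed K) (y : Fin n → ℝ) :
    IsClosed (fib K y) :=
  hc.preimage (by fun_prop : Continuous fun t : ℝ => (t, y))

theorem fib_comb {n : ℕ} {K : Set (ℝ × (Fin n → ℝ))} (hK : Convex ℝ K) {x y : Fin n → ℝ}
    {s t : ℝ} (hs : s ∈ fib K x) (ht : t ∈ fib K y) {l : ℝ} (hl0 : 0 < l) (hl1 : l < 1) :
    (1 - l) * s + l * t ∈ fib K ((1 - l) • x + l • y) := by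
  have h := hK (x := (s, x)) hs (y := (t, y)) ht (by linarith : 0 ≤ 1 - l) hl0.le (by ring)
  exact h

theorem wide_zero {I : Set ℝ} : Wide 0 I ↔ I.Nonempty := by
  constructor
  · rintro ⟨t, ht, -⟩
    exact ⟨t, ht⟩
  · rintro ⟨t, ht⟩
    exact ⟨t, ht, by simpa using ht⟩

theorem wide_mono {I : Set ℝ} (hI : Convex ℝ I) {r s : ℝ} (hr : 0 ≤ r) (hrs : r ≤ s)
    (h : Wide s I) : Wide r I := by
  obtain ⟨t, ht, hts⟩ := h
  refine ⟨t, ht, ?_⟩
  exact hI.ordConnected.out ht hts ⟨by linarith, by linarith⟩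

theorem wt_pos (I : Set ℝ) : 0 < wt I := Real.exp_pos _

theorem wt_le_one (I : Set ℝ) : wt I ≤ 1 := by
  unfold wt
  rw [Real.exp_le_one_iff]
  have := sq_nonneg (Metric.infDist 0 I)
  linarith

theorem exists_abs_eq {I : Set ℝ} (hc : IsClosed I) (hn : I.Nonempty) :
    ∃ t ∈ I, |t| = Metric.infDist 0 I := by
  obtain ⟨t, ht, h⟩ := hc.exists_infDist_eq_dist hn 0
  refine ⟨t, ht, ?_⟩
  rw [h, dist_comm, Real.dist_eq, sub_zero]

/-- The weight, restricted to the wide fibres. -/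
noncomputable def gw {n : ℕ} (K : Set (ℝ × (Fin n → ℝ))) (r : ℝ) : (Fin n → ℝ) → ℝ :=
  indicator {y | Wide r (fib K y)} fun y => wt (fib K y)

theorem gw_of {n : ℕ} {K : Set (ℝ × (Fin n → ℝ))} {r : ℝ} {y : Fin n → ℝ}
    (h : Wide r (fib K y)) : gw K r y = wt (fib K y) := by
  have h' : y ∈ {y | Wide r (fib K y)} := h
  unfold gw
  rw [indicator_of_mem h']

theorem gw_not {n : ℕ} {K : Set (ℝ × (Fin n → ℝ))} {r : ℝ} {y : Fin n → ℝ}
    (h : ¬ Wide r (fib K y)) : gw K r y = 0 := by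
  have h' : y ∉ {y | Wide r (fib K y)} := h
  unfold gw
  rw [indicator_of_notMem h']

theorem gw_nonneg {n : ℕ} (K : Set (ℝ × (Fin n → ℝ))) (r : ℝ) (y : Fin n → ℝ) :
    0 ≤ gw K r y := indicator_nonneg (fun _ _ => (wt_pos _).le) y

theorem gw_le_one {n : ℕ} (K : Set (ℝ × (Fin n → ℝ))) (r : ℝ) (y : Fin n → ℝ) :
    gw K r y ≤ 1 := by
  by_cases h : Wide r (fib K y)
  · rw [gw_of h]
    exact wt_le_one _
  · rw [gw_not h]
    exact zero_le_one

theorem wide_meas {n : ℕ} {K : Set (ℝ × (Fin n → ℝ))} (hc : IsClosed K) (r : ℝ) :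
    MeasurableSet {y | Wide r (fib K y)} := by
  have h : {y | Wide r (fib K y)} =
      ⋃ m : ℕ, {y | ∃ t ∈ Icc (-(m : ℝ)) m, (t, y) ∈ {p : ℝ × (Fin n → ℝ) |
        p ∈ K ∧ (p.1 + r, p.2) ∈ K}} := by
    ext y
    simp only [mem_ofPred_eq, mem_iUnion]
    constructor
    · rintro ⟨t, ht, htr⟩
      obtain ⟨m, hm⟩ := exists_nat_ge |t|
      exact ⟨m, t, abs_le.mp hm, ht, htr⟩
    · rintro ⟨m, t, -, ht, htr⟩
      exact ⟨t, ht, htr⟩
  rw [h]
  refine MeasurableSet.iUnion fun m => IsClosed.measurableSet ?_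
  refine closed_proj ?_ isCompact_Icc
  exact hc.inter (hc.preimage (by fun_prop))

theorem dist_meas {n : ℕ} {K : Set (ℝ × (Fin n → ℝ))} (hc : IsClosed K) :
    Measurable fun y => Metric.infDist 0 (fib K y) := by
  refine measurable_of_Iic fun c => ?_
  rcases lt_or_ge c 0 with hc0 | hc0
  · convert MeasurableSet.empty
    ext y
    simp only [mem_preimage, mem_Iic, mem_empty_iff_false, iff_false, not_le]
    exact hc0.trans_le Metric.infDist_nonneg
  · have h : (fun y => Metric.infDist 0 (fib K y)) ⁻¹' Iic c =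
        {y | Wide 0 (fib K y)}ᶜ ∪ {y | ∃ t ∈ Icc (-c) c, (t, y) ∈ K} := by
      ext y
      simp only [mem_preimage, mem_Iic, mem_union, mem_compl_iff, mem_ofPred_eq, wide_zero]
      rcases (fib K y).eq_empty_or_nonempty with he | hn
      · simp only [he, Metric.infDist_empty, hc0, Set.not_nonempty_empty, not_false_eq_true,
          true_or]
      · simp only [hn, not_true_eq_false, false_or]
        constructor
        · intro h
          obtain ⟨t, ht, h2⟩ := exists_abs_eq (fib_closed hc y) hn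
          exact ⟨t, abs_le.mp (h2.trans_le h), ht⟩
        · rintro ⟨t, ht, h2⟩
          have h3 : Metric.infDist 0 (fib K y) ≤ dist 0 t := Metric.infDist_le_dist_of_mem h2
          rw [dist_comm, Real.dist_eq, sub_zero] at h3
          exact h3.trans (abs_le.mpr ht)
    rw [h]
    exact (wide_meas hc 0).compl.union (closed_proj hc isCompact_Icc).measurableSet

theorem gw_meas {n : ℕ} {K : Set (ℝ × (Fin n → ℝ))} (hc : IsClosed K) (r : ℝ) :
    Measurable (gw K r) := by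
  refine Measurable.indicator ?_ (wide_meas hc r)
  unfold wt
  have := dist_meas hc
  fun_prop

theorem gw_int {n : ℕ} {K : Set (ℝ × (Fin n → ℝ))} (hc : IsClosed K) (r : ℝ) :
    Integrable (gw K r) (gaussPi n) := by
  refine Integrable.of_bound (gw_meas hc r).aestronglyMeasurable 1 ?_
  refine Filter.Eventually.of_forall fun y => ?_
  rw [Real.norm_eq_abs, abs_of_nonneg (gw_nonneg K r y)]
  exact gw_le_one K r y

/-- The pointwise inequality needed for the Prekopa-Leindler inequality. -/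
theorem gw_point {n : ℕ} {K : Set (ℝ × (Fin n → ℝ))} (hK : Convex ℝ K) (hc : IsClosed K)
    {l : ℝ} (hl0 : 0 < l) (hl1 : l < 1) (x y : Fin n → ℝ) :
    gw K 0 x ^ (1 - l) * gw K 1 y ^ l ≤ gw K l ((1 - l) • x + l • y) := by
  by_cases hx : Wide 0 (fib K x)
  swap
  · rw [gw_not hx, Real.zero_rpow (by linarith), zero_mul]
    exact gw_nonneg _ _ _
  by_cases hy : Wide 1 (fib K y)
  swap
  · rw [gw_not hy, Real.zero_rpow (by linarith), mul_zero]
    exact gw_nonneg _ _ _
  have hy0 : (fib K y).Nonempty := by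
    obtain ⟨t, ht, -⟩ := hy
    exact ⟨t, ht⟩
  have hz : Wide l (fib K ((1 - l) • x + l • y)) := by
    obtain ⟨s, hs, -⟩ := hx
    obtain ⟨t, ht, ht1⟩ := hy
    refine ⟨(1 - l) * s + l * t, fib_comb hK hs ht hl0 hl1, ?_⟩
    have h := fib_comb hK hs ht1 hl0 hl1
    have e : (1 - l) * s + l * t + l = (1 - l) * s + l * (t + 1) := by ring
    rw [e]
    exact h
  rw [gw_of hx, gw_of hy, gw_of hz]
  obtain ⟨s, hs, hs2⟩ := exists_abs_eq (fib_closed hc x) (wide_zero.mp hx)
  obtain ⟨t, ht, ht2⟩ := exists_abs_eq (fib_closed hc y) hy0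
  have h3 : Metric.infDist 0 (fib K ((1 - l) • x + l • y)) ≤ dist 0 ((1 - l) * s + l * t) :=
    Metric.infDist_le_dist_of_mem (fib_comb hK hs ht hl0 hl1)
  rw [dist_comm, Real.dist_eq, sub_zero] at h3
  have h0 : 0 ≤ Metric.infDist 0 (fib K ((1 - l) • x + l • y)) := Metric.infDist_nonneg
  unfold wt
  rw [← Real.exp_mul, ← Real.exp_mul, ← Real.exp_add]
  apply Real.exp_le_exp.mpr
  rw [← hs2, ← ht2, sq_abs, sq_abs]
  have h4 : Metric.infDist 0 (fib K ((1 - l) • x + l • y)) ^ 2 ≤ ((1 - l) * s + l * t) ^ 2 := by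
    rw [← sq_abs ((1 - l) * s + l * t)]
    exact pow_le_pow_left₀ h0 h3 2
  have h5 : ((1 - l) * s + l * t) ^ 2 ≤ (1 - l) * s ^ 2 + l * t ^ 2 := by
    have : 0 ≤ l * (1 - l) * (s - t) ^ 2 :=
      mul_nonneg (mul_nonneg hl0.le (by linarith)) (sq_nonneg _)
    nlinarith
  nlinarith

theorem lint_gw {n : ℕ} {K : Set (ℝ × (Fin n → ℝ))} (hc : IsClosed K) (r : ℝ) :
    ∫⁻ y, ENNReal.ofReal (gw K r y) ∂(gaussPi n) = ENNReal.ofReal (∫ y, gw K r y ∂(gaussPi n)) :=
  (ofReal_integral_eq_lintegral_ofReal (gw_int hc r)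
    (Filter.Eventually.of_forall (gw_nonneg K r))).symm

theorem gw_pl {n : ℕ} {K : Set (ℝ × (Fin n → ℝ))} (hK : Convex ℝ K) (hc : IsClosed K)
    {l : ℝ} (hl0 : 0 < l) (hl1 : l < 1) :
    (∫ y, gw K 0 y ∂(gaussPi n)) ^ (1 - l) * (∫ y, gw K 1 y ∂(gaussPi n)) ^ l
      ≤ ∫ y, gw K l y ∂(gaussPi n) := by
  have n0 : ∀ r, 0 ≤ ∫ y, gw K r y ∂(gaussPi n) := fun r => integral_nonneg (gw_nonneg K r)
  have h := pl_gauss n (f := fun y => ENNReal.ofReal (gw K 0 y))
    (g := fun y => ENNReal.ofReal (gw K 1 y)) (h := fun y => ENNReal.ofReal (gw K l y))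
    (gw_meas hc 0).ennreal_ofReal (gw_meas hc 1).ennreal_ofReal (gw_meas hc l).ennreal_ofReal
    hl0 hl1 (by
      intro x y
      rw [ENNReal.ofReal_rpow_of_nonneg (gw_nonneg _ _ _) (by linarith),
        ENNReal.ofReal_rpow_of_nonneg (gw_nonneg _ _ _) hl0.le,
        ← ENNReal.ofReal_mul (Real.rpow_nonneg (gw_nonneg _ _ _) _)]
      exact ENNReal.ofReal_le_ofReal (gw_point hK hc hl0 hl1 x y))
  simp only [lint_gw hc] at h
  rw [ENNReal.ofReal_rpow_of_nonneg (n0 _) (by linarith),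
    ENNReal.ofReal_rpow_of_nonneg (n0 _) hl0.le,
    ← ENNReal.ofReal_mul (Real.rpow_nonneg (n0 _) _)] at h
  exact (ENNReal.ofReal_le_ofReal_iff (n0 _)).mp h

theorem starProd_closed {n : ℕ} {K : Set (ℝ × (Fin n → ℝ))} (hc : IsClosed K) (δ : ℝ) :
    IsClosed (starProd δ K) := by
  have h := closed_proj (X := ℝ × (Fin n → ℝ)) (A := {q : ℝ × (ℝ × (Fin n → ℝ)) |
    (q.2.1 + (q.1 + 1) * δ, q.2.2) ∈ K ∧ (q.2.1 + (q.1 - 1) * δ, q.2.2) ∈ K})
    ((hc.preimage (by fun_prop)).inter (hc.preimage (by fun_prop)))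
    (isCompact_Icc (a := (-2 : ℝ)) (b := 2))
  exact h

theorem prod_real {n : ℕ} {A : Set (ℝ × (Fin n → ℝ))} (hA : IsClosed A) :
    Integrable (fun y => (gaussianReal 0 1).real (fib A y)) (gaussPi n) ∧
    ((gaussianReal 0 1).prod (gaussPi n)).real A
      = ∫ y, (gaussianReal 0 1).real (fib A y) ∂(gaussPi n) := by
  have hm : Measurable fun y => (gaussianReal 0 1) (fib A y) :=
    measurable_measure_prodMk_right hA.measurableSet
  have hi : Integrable (fun y => (gaussianReal 0 1).real (fib A y)) (gaussPi n) := by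
    refine Integrable.of_bound (hm.ennreal_toReal.aestronglyMeasurable) 1 ?_
    refine Filter.Eventually.of_forall fun y => ?_
    rw [Real.norm_eq_abs, abs_of_nonneg measureReal_nonneg]
    exact measureReal_le_one
  refine ⟨hi, ?_⟩
  rw [integral_eq_lintegral_of_nonneg_ae (Filter.Eventually.of_forall fun y => measureReal_nonneg)
    hi.aestronglyMeasurable, measureReal_def, Measure.prod_apply_symm hA.measurableSet]
  congr 1
  refine lintegral_congr fun y => ?_
  rw [ofReal_measureReal]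
  rfl

theorem real_ineq {x : ℝ} (h0 : 83 / 100 ≤ x) (h1 : x ≤ 1) :
    83 / 100 * x ^ 10 + 2 ≤ 283 / 100 * x := by
  have e : 283 / 100 * x - (83 / 100 * x ^ 10 + 2) =
      (1 - x) * (83 / 100 * (1 + x + x ^ 2 + x ^ 3 + x ^ 4 + x ^ 5 * (1 + x + x ^ 2 + x ^ 3 + x ^ 4))
        - 283 / 100) := by ring
  have hx : 0 ≤ x := by linarith
  have a2 : (83 / 100 : ℝ) ^ 2 ≤ x ^ 2 := pow_le_pow_left₀ (by norm_num) h0 2
  have a3 : (83 / 100 : ℝ) ^ 3 ≤ x ^ 3 := pow_le_pow_left₀ (by norm_num) h0 3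
  have a4 : (83 / 100 : ℝ) ^ 4 ≤ x ^ 4 := pow_le_pow_left₀ (by norm_num) h0 4
  have a5 : 0 ≤ x ^ 5 * (1 + x + x ^ 2 + x ^ 3 + x ^ 4) := by positivity
  have h2 : 0 ≤ 83 / 100 * (1 + x + x ^ 2 + x ^ 3 + x ^ 4
      + x ^ 5 * (1 + x + x ^ 2 + x ^ 3 + x ^ 4)) - 283 / 100 := by
    norm_num at a2 a3 a4
    linarith
  have h3 := mul_nonneg (by linarith : 0 ≤ 1 - x) h2
  linarith

/-- The numerical inequality at the end. -/
theorem num_ineq {a b c l : ℝ} (ha : 0 < a) (hb : 1 / 6 * a ≤ b) (hba : b ≤ a)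
    (hl0 : 0 < l) (hl1 : l ≤ 1 / 10) (hc : a ^ (1 - l) * b ^ l ≤ c) :
    83 / 100 * b + 2 * a ≤ 283 / 100 * c := by
  have hb0 : 0 < b := by linarith
  set ρ := b / a with hρ
  have hρ0 : 0 < ρ := div_pos hb0 ha
  have hρ1 : ρ ≤ 1 := (div_le_one ha).mpr hba
  have hρ6 : 1 / 6 ≤ ρ := by
    rw [hρ, le_div_iff₀ ha]
    exact hb
  have hbρ : b = ρ * a := by
    rw [hρ]
    field_simp
  have h1 : a ^ (1 - l) * b ^ l = a * ρ ^ l := by
    rw [hbρ, Real.mul_rpow hρ0.le ha.le, mul_comm (ρ ^ l), ← mul_assoc, ← Real.rpow_add ha]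
    simp
  set x := ρ ^ (1 / 10 : ℝ) with hx
  have hx10 : x ^ 10 = ρ := by
    rw [hx, ← Real.rpow_natCast, ← Real.rpow_mul hρ0.le]
    norm_num
  have hx0 : 0 ≤ x := Real.rpow_nonneg hρ0.le _
  have hx1 : x ≤ 1 := Real.rpow_le_one hρ0.le hρ1 (by norm_num)
  have hx83 : 83 / 100 ≤ x := by
    by_contra hlt
    push Not at hlt
    have h := pow_lt_pow_left₀ hlt hx0 (by norm_num : (10 : ℕ) ≠ 0)
    rw [hx10] at h
    norm_num at h
    linarith
  have h2 : x ≤ ρ ^ l := Real.rpow_le_rpow_of_exponent_ge hρ0 hρ1 hl1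
  have h3 := real_ineq hx83 hx1
  rw [hx10] at h3
  rw [h1] at hc
  have h4 : a * x ≤ c := (mul_le_mul_of_nonneg_left h2 ha.le).trans hc
  rw [hbρ]
  nlinarith

/-- Kanter-type lemma in product coordinates. -/
theorem kl_prod {n : ℕ} {K : Set (ℝ × (Fin n → ℝ))} (hK : Convex ℝ K) (hc : IsClosed K)
    (hm : 1 / 2 ≤ ((gaussianReal 0 1).prod (gaussPi n)).real K)
    {δ : ℝ} (hδ : 0 < δ) (hδ1 : δ ≤ 1 / 20) :
    ((gaussianReal 0 1).prod (gaussPi n)).real K
      ≤ ((gaussianReal 0 1).prod (gaussPi n)).real (starProd δ K) := by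
  obtain ⟨ia, ea⟩ := prod_real hc
  obtain ⟨ib, eb⟩ := prod_real (starProd_closed hc δ)
  rw [ea] at hm ⊢
  rw [eb]
  have i0 := gw_int (n := n) hc 0
  have i1 := gw_int (n := n) hc 1
  have i2 := gw_int (n := n) hc (2 * δ)
  set κ : ℝ := δ / √(2 * Real.pi) with hκ
  have hκ0 : 0 ≤ κ := by positivity
  have hcf := fun y => fib_closed hc y
  have hKf := fun y => fib_convex hK y
  -- first pointwise inequality
  have p1 : ∀ y, (gaussianReal 0 1).real (fib K y) ≤ 3 / 5 * gw K 1 y + 2 / 5 * gw K 0 y := by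
    intro y
    rcases (fib K y).eq_empty_or_nonempty with he | hn
    · rw [he, measureReal_empty]
      have := gw_nonneg K 1 y
      have := gw_nonneg K 0 y
      linarith
    · rw [gw_of (r := 0) (wide_zero.mpr hn)]
      by_cases h1 : Wide 1 (fib K y)
      · rw [gw_of h1]
        have := chord_le_wt (hKf y) (hcf y) hn
        linarith
      · rw [gw_not h1]
        have := chord_short (hKf y) (hcf y) hn h1
        linarith
  have p2 : ∀ y, (gaussianReal 0 1).real (fib K y)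
      + κ * (283 / 100 * gw K (2 * δ) y - 83 / 100 * gw K 1 y - 2 * gw K 0 y)
      ≤ (gaussianReal 0 1).real (fib (starProd δ K) y) := by
    intro y
    have hs : fib (starProd δ K) y = starOne δ (fib K y) := rfl
    rw [hs]
    rcases (fib K y).eq_empty_or_nonempty with he | hn
    · have hw : ∀ r, ¬ Wide r (fib K y) := by
        rintro r ⟨t, ht, -⟩
        rw [he] at ht
        exact ht
      rw [gw_not (hw _), gw_not (hw _), gw_not (hw _), he, measureReal_empty]
      have : 0 ≤ (gaussianReal 0 1).real (starOne δ ∅) := measureReal_nonneg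
      linarith
    · rw [gw_of (r := 0) (wide_zero.mpr hn)]
      by_cases h2 : Wide (2 * δ) (fib K y)
      · rw [gw_of h2]
        by_cases h1 : Wide 1 (fib K y)
        · rw [gw_of h1]
          have := measureReal_mono (μ := gaussianReal 0 1) (chord_mono (hKf y) (hcf y) hδ h2)
          have e : κ * (283 / 100 * wt (fib K y) - 83 / 100 * wt (fib K y) - 2 * wt (fib K y)) = 0 := by
            ring
          rw [e]
          linarith
        · rw [gw_not h1]
          have := chord_gain (hKf y) (hcf y) hδ hδ1 h2 h1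
          rw [← hκ] at this
          have e : κ * (283 / 100 * wt (fib K y) - 83 / 100 * 0 - 2 * wt (fib K y))
            = 83 / 100 * κ * wt (fib K y) := by ring
          rw [e]
          exact this
      · have h1 : ¬ Wide 1 (fib K y) := fun h =>
          h2 (wide_mono (hKf y) (by linarith) (by linarith) h)
        rw [gw_not h1, gw_not h2]
        have := chord_loss (hKf y) (hcf y) hn hδ h2
        have e : 2 * δ / √(2 * Real.pi) * wt (fib K y) = 2 * κ * wt (fib K y) := by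
          rw [hκ]; ring
        rw [e] at this
        have : 0 ≤ (gaussianReal 0 1).real (starOne δ (fib K y)) := measureReal_nonneg
        have e2 : κ * (283 / 100 * 0 - 83 / 100 * 0 - 2 * wt (fib K y))
          = - (2 * κ * wt (fib K y)) := by ring
        rw [e2]
        linarith
  -- integrate
  have q1 := integral_mono ia ((i1.const_mul (3 / 5)).add (i0.const_mul (2 / 5))) p1
  have q2 := integral_mono (ia.add ((((i2.const_mul (283 / 100)).sub
    (i1.const_mul (83 / 100))).sub (i0.const_mul 2)).const_mul κ)) ib p2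
  have e1 : ∫ y, (3 / 5 * gw K 1 y + 2 / 5 * gw K 0 y) ∂(gaussPi n)
      = 3 / 5 * ∫ y, gw K 1 y ∂(gaussPi n) + 2 / 5 * ∫ y, gw K 0 y ∂(gaussPi n) := by
    rw [integral_add (i1.const_mul (3 / 5)) (i0.const_mul (2 / 5)), integral_const_mul,
      integral_const_mul]
  have e2 : ∫ y, ((gaussianReal 0 1).real (fib K y)
      + κ * (283 / 100 * gw K (2 * δ) y - 83 / 100 * gw K 1 y - 2 * gw K 0 y)) ∂(gaussPi n)
      = ∫ y, (gaussianReal 0 1).real (fib K y) ∂(gaussPi n)
        + κ * (283 / 100 * ∫ y, gw K (2 * δ) y ∂(gaussPi n)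
          - 83 / 100 * ∫ y, gw K 1 y ∂(gaussPi n) - 2 * ∫ y, gw K 0 y ∂(gaussPi n)) := by
    have j1 : Integrable (fun y => 283 / 100 * gw K (2 * δ) y - 83 / 100 * gw K 1 y)
        (gaussPi n) := (i2.const_mul (283 / 100)).sub (i1.const_mul (83 / 100))
    have j2 : Integrable (fun y => 283 / 100 * gw K (2 * δ) y - 83 / 100 * gw K 1 y
        - 2 * gw K 0 y) (gaussPi n) := j1.sub (i0.const_mul 2)
    rw [integral_add ia (j2.const_mul κ), integral_const_mul,
      integral_sub j1 (i0.const_mul 2),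
      integral_sub (i2.const_mul (283 / 100)) (i1.const_mul (83 / 100)), integral_const_mul,
      integral_const_mul, integral_const_mul]
  have q1' : ∫ y, (gaussianReal 0 1).real (fib K y) ∂(gaussPi n)
      ≤ 3 / 5 * ∫ y, gw K 1 y ∂(gaussPi n) + 2 / 5 * ∫ y, gw K 0 y ∂(gaussPi n) :=
    q1.trans_eq e1
  have q2' := e2.symm.trans_le q2
  have g0 : ∫ y, gw K 0 y ∂(gaussPi n) ≤ 1 := by
    have := integral_mono i0 (integrable_const (μ := gaussPi n) (1 : ℝ)) (gw_le_one K 0)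
    simpa using this
  have g10 : ∫ y, gw K 1 y ∂(gaussPi n) ≤ ∫ y, gw K 0 y ∂(gaussPi n) := by
    refine integral_mono i1 i0 fun y => ?_
    by_cases h1 : Wide 1 (fib K y)
    · rw [gw_of h1, gw_of (wide_mono (hKf y) le_rfl zero_le_one h1)]
    · rw [gw_not h1]
      exact gw_nonneg _ _ _
  have hpl := gw_pl hK hc (l := 2 * δ) (by linarith) (by linarith)
  have hnum := num_ineq (by linarith) (by linarith) g10 (l := 2 * δ) (by linarith)
    (by linarith) hpl
  have hfin : 0 ≤ κ * (283 / 100 * ∫ y, gw K (2 * δ) y ∂(gaussPi n)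
          - 83 / 100 * ∫ y, gw K 1 y ∂(gaussPi n) - 2 * ∫ y, gw K 0 y ∂(gaussPi n)) :=
    mul_nonneg hκ0 (by linarith)
  linarith

end Vale.Agent.P262F
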