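import Vale.Agent.Lib.P262F.Rows

/-! Light energies of a child. -/

namespace Vale.Agent.P262F

open Finset Real

variable {α : Type} {d : ℕ} {p : Par d} {v : α → Fin d → ℝ} {s : ℕ} {V : Finset α}
  {x y Lx Ly ε : Fin d → ℝ}

theorem thr_anti (p : Par d) (s h : ℕ) (k : Fin d) : p.thr (s + h) k ≤ p.thr s k := by
  unfold Par.thr
  apply Real.rpow_le_rpow_of_exponent_le one_le_two
  have h1 : p.xx s k ≤ p.xx (s + h) k := by
    rw [p.xx_add]
    have : (0 : ℝ) ≤ h := Nat.cast_nonneg h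
    linarith
  have h2 : max (p.xx s k) (40 * p.eta k) ≤ max (p.xx (s + h) k) (40 * p.eta k) :=
    max_le_max h1 le_rfl
  linarith

theorem thr_tr (p : Par d) {s : ℕ} {k : Fin d} (hk : k ∉ p.dead s) :
    p.thr s k = (2 : ℝ) ^ (-(25 * p.eta k)) := by
  rw [p.mem_dead, not_le] at hk
  unfold Par.thr
  rw [max_eq_right hk.le]
  congr 1
  ring

theorem thr_dead (p : Par d) {s : ℕ} {k : Fin d} (hk : k ∈ p.dead s) :
    p.thr s k = (2 : ℝ) ^ (-(5 / 8 * p.xx s k)) := by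
  rw [p.mem_dead] at hk
  unfold Par.thr
  rw [max_eq_left hk]

theorem lE_nonneg (s : ℕ) (k : Fin d) (a : α) : 0 ≤ p.lE v s k a := by
  unfold Par.lE
  split_ifs
  · positivity
  · exact le_rfl

theorem lE_le_sq (s : ℕ) (k : Fin d) (a : α) : p.lE v s k a ≤ v a k ^ 2 := by
  unfold Par.lE
  split_ifs
  · exact le_rfl
  · positivity

/-- new light energy is at most old light energy -/
theorem lE_anti (s h : ℕ) (k : Fin d) (a : α) : p.lE v (s + h) k a ≤ p.lE v s k a := by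
  by_cases h1 : v a k ^ 2 ≤ p.thr (s + h) k
  · have h2 := h1.trans (thr_anti p s h k)
    unfold Par.lE
    rw [if_pos h1, if_pos h2]
  · have h3 : p.lE v (s + h) k a = 0 := by
      unfold Par.lE
      rw [if_neg h1]
    rw [h3]
    exact lE_nonneg s k a

/-! ### Powers of two -/

theorem light_lin {z : ℝ} (hz : 2000 ≤ z) : 44 * z ≤ (2 : ℝ) ^ (z / 100) := by
  have h1 : (2 : ℝ) ^ (z / 100) = 2 ^ (20 : ℝ) * 2 ^ (z / 100 - 20) := by
    rw [← Real.rpow_add two_pos]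
    congr 1
    ring
  have h2 : (2 : ℝ) ^ (20 : ℝ) = 1048576 := by
    rw [show (20 : ℝ) = ((20 : ℕ) : ℝ) by norm_num, Real.rpow_natCast]
    norm_num
  have h3 : 1 + (z / 100 - 20) * (69 / 100) ≤ (2 : ℝ) ^ (z / 100 - 20) := by
    rw [Real.rpow_def_of_pos two_pos]
    have h4 := Real.add_one_le_exp (Real.log 2 * (z / 100 - 20))
    have h5 := Real.log_two_gt_d9
    have h6 : 0 ≤ z / 100 - 20 := by linarith
    nlinarith
  rw [h1, h2]
  nlinarith

theorem light_delta_le (p : Par d) (s : ℕ) (k : Fin d) {A T : ℝ}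
    (hq : p.CR * (1 + 3 * (p.hs s : ℝ) + |p.xx s k|) ≤ (2 : ℝ) ^ (2 * A))
    (hT : p.thr s k = (2 : ℝ) ^ T) :
    2 * p.qq s k * (p.thr s k / p.kap s k) ≤
      (2 : ℝ) ^ (2 + A + T + (cc / 2 * |p.xx s k| + ((p.hs s : ℝ) - p.h0) / 2)) := by
  have h1 : p.qq s k ≤ (2 : ℝ) ^ A := by
    unfold Par.qq
    rw [Real.sqrt_le_left (by positivity)]
    refine hq.trans (le_of_eq ?_)
    rw [← Real.rpow_natCast, ← Real.rpow_mul (by norm_num)]
    congr 1
    push_cast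
    ring
  obtain ⟨Z, hZ⟩ : ∃ Z : ℝ, Z = cc / 2 * |p.xx s k| + ((p.hs s : ℝ) - p.h0) / 2 := ⟨_, rfl⟩
  have h2 : p.thr s k / p.kap s k = 2 * (2 : ℝ) ^ (T + Z) := by
    rw [hT]
    unfold Par.kap
    rw [show -(cc / 2 * |p.xx s k|) - ((p.hs s : ℝ) - p.h0) / 2 = -Z by rw [hZ]; ring,
      Real.rpow_neg (by norm_num), Real.rpow_add two_pos]
    have h3 : 0 < (2 : ℝ) ^ Z := by positivity
    rw [div_eq_iff (by positivity)]
    field_simp
  rw [h2, ← hZ]
  have e : (2 : ℝ) ^ (2 + A + T + Z) = 2 * (2 : ℝ) ^ A * (2 * (2 : ℝ) ^ (T + Z)) := by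
    rw [show 2 + A + T + Z = 1 + A + (1 + (T + Z)) by ring,
      Real.rpow_add two_pos, Real.rpow_add two_pos, Real.rpow_add two_pos 1, Real.rpow_one]
  rw [e]
  gcongr

/-- dead coordinates -/
theorem light_delta_dead (p : Par d) {s : ℕ} {k : Fin d} (hk : k ∈ p.dead s) :
    2 * p.qq s k * (p.thr s k / p.kap s k) ≤
      (2 : ℝ) ^ (-(p.xx (s + p.hs s) k / 2) - 3 * (p.hs s : ℝ)) := by
  have hh := p.hs_ge s
  have hx := p.dead_xx hk
  have hh0 : (0 : ℝ) ≤ p.h0 := Nat.cast_nonneg _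
  have hh0' : (p.h0 : ℝ) ≤ p.hs s := by exact_mod_cast p.h0_le_hs s
  have hx0 : 0 ≤ p.xx s k := by linarith
  have habs : |p.xx s k| = p.xx s k := abs_of_nonneg hx0
  have hq : p.CR * (1 + 3 * (p.hs s : ℝ) + |p.xx s k|) ≤
      (2 : ℝ) ^ (2 * ((p.h0 : ℝ) / 200 + p.xx s k / 200)) := by
    have h1 := light_lin (z := p.xx s k) (by linarith)
    rw [habs, show 2 * ((p.h0 : ℝ) / 200 + p.xx s k / 200) = p.h0 / 100 + p.xx s k / 100 by ring,
      Real.rpow_add two_pos]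
    apply mul_le_mul p.hCRh (by linarith) (by linarith) (by positivity)
  refine (light_delta_le p s k hq (thr_dead p hk)).trans ?_
  apply Real.rpow_le_rpow_of_exponent_le one_le_two
  rw [habs, p.xx_add]
  unfold cc
  linarith

/-- coordinates in transition -/
theorem light_delta_tr (p : Par d) {s : ℕ} {k : Fin d} (hk : k ∈ p.tr s) :
    2 * p.qq s k * (p.thr s k / p.kap s k) ≤ (2 : ℝ) ^ (2 - 2446 / 100 * p.eta k) := by
  have hh := p.hs_ge s
  have hη := p.eta_ge k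
  have hx := p.tr_abs hk
  have hn := p.hs_near hx
  have hh0 : (0 : ℝ) ≤ p.h0 := Nat.cast_nonneg _
  have hh0' : (p.h0 : ℝ) ≤ p.eta k := p.h0_le_eta k
  have hq : p.CR * (1 + 3 * (p.hs s : ℝ) + |p.xx s k|) ≤
      (2 : ℝ) ^ (2 * ((p.h0 : ℝ) / 200 + p.eta k / 200)) := by
    have h1 := light_lin hη
    rw [show 2 * ((p.h0 : ℝ) / 200 + p.eta k / 200) = p.h0 / 100 + p.eta k / 100 by ring,
      Real.rpow_add two_pos]
    have h0 := abs_nonneg (p.xx s k)
    apply mul_le_mul p.hCRh (by linarith [hn.2]) (by linarith) (by positivity)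
  refine (light_delta_le p s k hq (thr_tr p (p.tr_not_dead hk))).trans ?_
  apply Real.rpow_le_rpow_of_exponent_le one_le_two
  unfold cc
  linarith [hn.2]

/-- old light energy of the blocks `U j` -/
theorem U_light (R : Raw p v s V x y) (I : p.Inv v s V x y Lx Ly ε) {j : ℕ}
    (hj : j ≤ 2 ^ p.hs s) {k : Fin d} (hk : k ∈ p.dead s) :
    ∑ a ∈ R.U j, p.lE v s k a ≤ p.ThD (s + p.hs s) k := by
  have hh := p.hs_ge s
  have hna : k ∉ p.act s := fun h => p.act_not_dead h hk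
  have h1 := R.U_lE j hj k hna
  have h2 := I.le_dead k hk
  have h3 := light_delta_dead p hk
  have h4 : (∑ a ∈ V, p.lE v s k a) / 2 ^ p.hs s ≤
      (2 : ℝ) ^ (-(p.xx (s + p.hs s) k / 2) - 1) := by
    rw [div_le_iff₀ (by positivity), ← Real.rpow_natCast, ← Real.rpow_add two_pos]
    refine h2.trans ?_
    unfold Par.ThD
    apply Real.rpow_le_rpow_of_exponent_le one_le_two
    rw [p.xx_add]
    linarith
  have h5 : (2 : ℝ) ^ (-(p.xx (s + p.hs s) k / 2) - 3 * (p.hs s : ℝ)) ≤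
      (2 : ℝ) ^ (-(p.xx (s + p.hs s) k / 2) - 1) := by
    apply Real.rpow_le_rpow_of_exponent_le one_le_two
    linarith
  have h6 : (2 : ℝ) ^ (-(p.xx (s + p.hs s) k / 2) - 1) = p.ThD (s + p.hs s) k / 2 := by
    unfold Par.ThD
    rw [Real.rpow_sub_one (by norm_num)]
  linarith

/-- The light energy of a child. -/
theorem child_light (hv : ∀ a, ∑ k, v a k ^ 2 ≤ 1) (R : Raw p v s V x y) {j : ℕ}
    (hj : j < 2 ^ p.hs s) {k : Fin d} (hk : k ∉ p.act s) :
    ∑ a ∈ V.filter (fun a => R.c a = j), p.lE v s k a ≤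
      2 * ((∑ a ∈ V, p.lE v s k a) / 2 ^ p.hs s) +
        4 * (2 * p.qq s k * (p.thr s k / p.kap s k)) := by
  have hh := p.hs_ge s
  set δ := 2 * p.qq s k * (p.thr s k / p.kap s k) with hδ
  set tot := (∑ a ∈ V, p.lE v s k a) / 2 ^ p.hs s with htot
  have htot0 : 0 ≤ tot := div_nonneg (Finset.sum_nonneg fun a _ => lE_nonneg s k a) (by positivity)
  have hδ0 : 0 ≤ δ := (abs_nonneg _).trans (R.xi_lE j hj.le k hk)
  have htiny : (2 : ℝ) ^ (-(20 * (p.hs s : ℝ))) ≤ 1 / 4 := by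
    have h1 : (2 : ℝ) ^ (-(20 * (p.hs s : ℝ))) ≤ (2 : ℝ) ^ (-2 : ℝ) := by
      apply Real.rpow_le_rpow_of_exponent_le one_le_two
      linarith
    refine h1.trans (le_of_eq ?_)
    rw [Real.rpow_neg (by norm_num)]
    norm_num
  have hdev : ∀ i : ℕ, i ≤ 2 ^ p.hs s →
      |dvf V (p.hs s) R.c i (p.lE v s k)| ≤ δ + 1 / 4 * (tot + δ) := by
    intro i hi
    have h1 := R.xi_lE i hi k hk
    have h2 := R.U_lE i hi k hk
    rw [R.xi_eq] at h1
    have h3 : |∑ a ∈ R.U i, p.bet v s (R.w i) a * p.lE v s k a| ≤ 1 / 4 * (tot + δ) := by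
      refine (Finset.abs_sum_le_sum_abs _ _).trans ?_
      calc ∑ a ∈ R.U i, |p.bet v s (R.w i) a * p.lE v s k a|
          ≤ ∑ a ∈ R.U i, 1 / 4 * p.lE v s k a := by
            apply Finset.sum_le_sum
            intro a ha
            rw [abs_mul, abs_of_nonneg (lE_nonneg s k a)]
            exact mul_le_mul_of_nonneg_right ((bet_abs_le hv R hi ha).trans htiny)
              (lE_nonneg s k a)
        _ = 1 / 4 * ∑ a ∈ R.U i, p.lE v s k a := by rw [Finset.mul_sum]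
        _ ≤ _ := by linarith
    have h4 := abs_sub_abs_le_abs_sub (dvf V (p.hs s) R.c i (p.lE v s k))
      (∑ a ∈ R.U i, p.bet v s (R.w i) a * p.lE v s k a)
    linarith
  rw [sum_child V (p.hs s) R.c j (p.lE v s k)]
  have h1 := abs_le.1 (hdev j hj.le)
  have h2 := abs_le.1 (hdev (j + 1) hj)
  linarith [h1.1, h2.2]

theorem child_light_tr (hv : ∀ a, ∑ k, v a k ^ 2 ≤ 1) (R : Raw p v s V x y)
    (I : p.Inv v s V x y Lx Ly ε) {j : ℕ} (hj : j < 2 ^ p.hs s) {k : Fin d} (hk : k ∈ p.tr s) :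
    ∑ a ∈ V.filter (fun a => R.c a = j), p.lE v s k a ≤ p.ThT (s + p.hs s) k := by
  have hh := p.hs_ge s
  have hη := p.eta_ge k
  have hna : k ∉ p.act s := fun h => p.act_not_tr h hk
  refine (child_light hv R hj hna).trans ?_
  have h1 := I.le_tr k hk
  have h2 := light_delta_tr p hk
  have h3 : (∑ a ∈ V, p.lE v s k a) / 2 ^ p.hs s ≤
      (2 : ℝ) ^ (1 + 5 * p.eta k - 7 / 8 * p.xx (s + p.hs s) k - 2) +
        (2 : ℝ) ^ (-(23 * p.eta k) - 2) := by
    rw [div_le_iff₀ (by positivity), ← Real.rpow_natCast, add_mul, ← Real.rpow_add two_pos,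
      ← Real.rpow_add two_pos]
    refine h1.trans ?_
    unfold Par.ThT
    apply add_le_add
    · apply Real.rpow_le_rpow_of_exponent_le one_le_two
      rw [p.xx_add]
      linarith
    · apply Real.rpow_le_rpow_of_exponent_le one_le_two
      linarith
  have h4 : (2 : ℝ) ^ (2 - 2446 / 100 * p.eta k) ≤ (2 : ℝ) ^ (-(23 * p.eta k) - 3) := by
    apply Real.rpow_le_rpow_of_exponent_le one_le_two
    linarith
  have e1 : (2 : ℝ) ^ (1 + 5 * p.eta k - 7 / 8 * p.xx (s + p.hs s) k - 2) =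
      (2 : ℝ) ^ (1 + 5 * p.eta k - 7 / 8 * p.xx (s + p.hs s) k) / 4 := by
    rw [Real.rpow_sub two_pos]
    norm_num
  have e2 : (2 : ℝ) ^ (-(23 * p.eta k) - 2) = (2 : ℝ) ^ (-(23 * p.eta k)) / 4 := by
    rw [Real.rpow_sub two_pos]
    norm_num
  have e3 : (2 : ℝ) ^ (-(23 * p.eta k) - 3) = (2 : ℝ) ^ (-(23 * p.eta k)) / 8 := by
    rw [Real.rpow_sub two_pos]
    norm_num
  have h5 : 0 ≤ (2 : ℝ) ^ (1 + 5 * p.eta k - 7 / 8 * p.xx (s + p.hs s) k) := by positivity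
  unfold Par.ThT
  linarith

theorem child_light_dead (hv : ∀ a, ∑ k, v a k ^ 2 ≤ 1) (R : Raw p v s V x y)
    (I : p.Inv v s V x y Lx Ly ε) {j : ℕ} (hj : j < 2 ^ p.hs s) {k : Fin d} (hk : k ∈ p.dead s) :
    ∑ a ∈ V.filter (fun a => R.c a = j), p.lE v s k a ≤ p.ThD (s + p.hs s) k := by
  have hh := p.hs_ge s
  have hna : k ∉ p.act s := fun h => p.act_not_dead h hk
  refine (child_light hv R hj hna).trans ?_
  have h1 := I.le_dead k hk
  have h2 := light_delta_dead p hk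
  have h3 : (∑ a ∈ V, p.lE v s k a) / 2 ^ p.hs s ≤
      (2 : ℝ) ^ (-(p.xx (s + p.hs s) k / 2) - 3) := by
    rw [div_le_iff₀ (by positivity), ← Real.rpow_natCast, ← Real.rpow_add two_pos]
    refine h1.trans ?_
    unfold Par.ThD
    apply Real.rpow_le_rpow_of_exponent_le one_le_two
    rw [p.xx_add]
    linarith
  have h4 : (2 : ℝ) ^ (-(p.xx (s + p.hs s) k / 2) - 3 * (p.hs s : ℝ)) ≤
      (2 : ℝ) ^ (-(p.xx (s + p.hs s) k / 2) - 3) := by
    apply Real.rpow_le_rpow_of_exponent_le one_le_two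
    linarith
  have e1 : (2 : ℝ) ^ (-(p.xx (s + p.hs s) k / 2) - 3) =
      (2 : ℝ) ^ (-(p.xx (s + p.hs s) k / 2)) / 8 := by
    rw [Real.rpow_sub two_pos]
    norm_num
  have h5 : 0 ≤ (2 : ℝ) ^ (-(p.xx (s + p.hs s) k / 2)) := by positivity
  unfold Par.ThD
  linarith

theorem child_le_tr (hv : ∀ a, ∑ k, v a k ^ 2 ≤ 1) (R : Raw p v s V x y)
    (I : p.Inv v s V x y Lx Ly ε) {j : ℕ} (hj : j < 2 ^ p.hs s) {k : Fin d}
    (hk : k ∈ p.tr (s + p.hs s)) :
    ∑ a ∈ V.filter (fun a => R.c a = j), p.lE v (s + p.hs s) k a ≤ p.ThT (s + p.hs s) k := by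
  rcases p.trichotomy s k with h | h | h
  · have h1 := child_energy hv R I hj h
    have h2 : ∑ a ∈ V.filter (fun a => R.c a = j), p.lE v (s + p.hs s) k a ≤
        ∑ a ∈ V.filter (fun a => R.c a = j), v a k ^ 2 :=
      Finset.sum_le_sum fun a _ => lE_le_sq _ _ _
    refine h2.trans (h1.trans ?_)
    rw [p.mem_tr] at hk
    have h3 : -(40 * p.eta k) < p.xx (s + p.hs s) k := by
      have h4 := hk.1
      unfold Par.tau at h4
      unfold Par.xx
      linarith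
    have h5 : 2 * p.mu (s + p.hs s) k = (2 : ℝ) ^ (1 - p.xx (s + p.hs s) k) := by
      unfold Par.mu
      rw [sub_eq_add_neg, Real.rpow_add two_pos, Real.rpow_one]
    rw [h5]
    unfold Par.ThT
    have h6 : (2 : ℝ) ^ (1 - p.xx (s + p.hs s) k) ≤
        (2 : ℝ) ^ (1 + 5 * p.eta k - 7 / 8 * p.xx (s + p.hs s) k) := by
      apply Real.rpow_le_rpow_of_exponent_le one_le_two
      linarith
    have h7 : 0 ≤ (2 : ℝ) ^ (-(23 * p.eta k)) := by positivity
    linarith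
  · exact (Finset.sum_le_sum fun a _ => lE_anti s (p.hs s) k a).trans
      (child_light_tr hv R I hj h)
  · exact absurd (p.dead_mono s (p.hs s) h) (p.tr_not_dead hk)

theorem child_le_dead (hv : ∀ a, ∑ k, v a k ^ 2 ≤ 1) (R : Raw p v s V x y)
    (I : p.Inv v s V x y Lx Ly ε) {j : ℕ} (hj : j < 2 ^ p.hs s) {k : Fin d}
    (hk : k ∈ p.dead (s + p.hs s)) :
    ∑ a ∈ V.filter (fun a => R.c a = j), p.lE v (s + p.hs s) k a ≤ p.ThD (s + p.hs s) k := by
  have h0 : ∑ a ∈ V.filter (fun a => R.c a = j), p.lE v (s + p.hs s) k a ≤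
      ∑ a ∈ V.filter (fun a => R.c a = j), p.lE v s k a :=
    Finset.sum_le_sum fun a _ => lE_anti s (p.hs s) k a
  rcases p.trichotomy s k with h | h | h
  · exfalso
    by_cases h' : k ∈ p.act (s + p.hs s)
    · exact p.act_not_dead h' hk
    · exact p.tr_not_dead (p.new_tr h h').1 hk
  · refine h0.trans ((child_light_tr hv R I hj h).trans ?_)
    have h1 := p.new_dead h hk
    have hη := p.eta_ge k
    rw [p.mem_dead] at hk
    have h2 : (2 : ℝ) ^ (1 + 5 * p.eta k - 7 / 8 * p.xx (s + p.hs s) k) ≤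
        (2 : ℝ) ^ (-(p.xx (s + p.hs s) k / 2) - 1) := by
      apply Real.rpow_le_rpow_of_exponent_le one_le_two
      linarith
    have h3 : (2 : ℝ) ^ (-(23 * p.eta k)) ≤
        (2 : ℝ) ^ (-(p.xx (s + p.hs s) k / 2) - 1) := by
      apply Real.rpow_le_rpow_of_exponent_le one_le_two
      linarith
    have h6 : (2 : ℝ) ^ (-(p.xx (s + p.hs s) k / 2) - 1) = p.ThD (s + p.hs s) k / 2 := by
      unfold Par.ThD
      rw [Real.rpow_sub_one (by norm_num)]
    unfold Par.ThT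
    linarith
  · exact h0.trans (child_light_dead hv R I hj h)

end Vale.Agent.P262F
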