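import Mathlib

/-! The lower bound `c √d` for the Euclidean Steinitz constant. -/

namespace Vale.Agent.P262F

open Finset Real

/-- the extremal family: the unit vectors and `d` copies of minus their mean -/
noncomputable def low (d : ℕ) (i : Fin (2 * d)) : EuclideanSpace ℝ (Fin d) :=
  WithLp.toLp 2 (fun j => if (i : ℕ) < d then (if (i : ℕ) = (j : ℕ) then 1 else 0) else -(1 / (d : ℝ)))

theorem low_apply (d : ℕ) (i : Fin (2 * d)) (j : Fin d) :
    low d i j = if (i : ℕ) < d then (if (i : ℕ) = (j : ℕ) then 1 else 0) else -(1 / (d : ℝ)) := rfl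

theorem low_norm (d : ℕ) (i : Fin (2 * d)) : ‖low d i‖ ≤ 1 := by
  have h1 : ‖low d i‖ ^ 2 ≤ 1 := by
    rw [EuclideanSpace.norm_sq_eq]
    by_cases h : (i : ℕ) < d
    · have h2 : ∀ j : Fin d, ‖low d i j‖ ^ 2 = if j = ⟨i, h⟩ then 1 else 0 := by
        intro j
        rw [low_apply, if_pos h]
        by_cases h3 : (i : ℕ) = (j : ℕ)
        · have h4 : j = ⟨i, h⟩ := Fin.ext h3.symm
          rw [if_pos h3, if_pos h4, norm_one, one_pow]
        · have h4 : j ≠ ⟨i, h⟩ := by
            intro e
            apply h3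
            rw [e]
          rw [if_neg h3, if_neg h4, norm_zero]
          norm_num
      simp_rw [h2]
      simp
    · have h2 : ∀ j : Fin d, ‖low d i j‖ ^ 2 = (1 / (d : ℝ)) ^ 2 := by
        intro j
        rw [low_apply, if_neg h, Real.norm_eq_abs, sq_abs, neg_sq]
      simp_rw [h2]
      rw [Finset.sum_const, Finset.card_univ, Fintype.card_fin, nsmul_eq_mul]
      rcases Nat.eq_zero_or_pos d with h0 | h0
      · subst h0
        exact absurd i.2 (by omega)
      · have h3 : (1 : ℝ) ≤ d := by exact_mod_cast h0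
        have h4 : (d : ℝ) * (1 / (d : ℝ)) ^ 2 = 1 / d := by
          field_simp
        rw [h4, div_le_one (by linarith)]
        exact h3
  exact (sq_le_one_iff₀ (norm_nonneg _)).mp h1

theorem card_low (d : ℕ) : (univ.filter (fun i : Fin (2 * d) => (i : ℕ) < d)).card = d := by
  have h1 : (univ.filter (fun i : Fin (2 * d) => (i : ℕ) < d)).card = (range d).card := by
    apply Finset.card_bij (fun (i : Fin (2 * d)) _ => (i : ℕ))
    · intro i hi
      exact Finset.mem_range.mpr (Finset.mem_filter.mp hi).2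
    · intro i _ j _ h
      exact Fin.ext h
    · intro b hb
      have hb' := Finset.mem_range.mp hb
      exact ⟨⟨b, by omega⟩, by simp [hb'], rfl⟩
  rw [h1, Finset.card_range]

theorem low_sum (d : ℕ) : ∑ i, low d i = 0 := by
  ext j
  have h0 : (0 : ℝ) < d := by
    have : 0 < d := j.pos
    exact_mod_cast this
  have h1 : (∑ i, low d i) j = ∑ i, low d i j := by
    rw [WithLp.ofLp_sum, Finset.sum_apply]
  rw [h1]
  simp_rw [low_apply]
  rw [Finset.sum_ite]
  have h2 : ∑ i ∈ univ.filter (fun i : Fin (2 * d) => (i : ℕ) < d),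
      (if (i : ℕ) = (j : ℕ) then (1 : ℝ) else 0) = 1 := by
    rw [Finset.sum_eq_single (⟨j, by omega⟩ : Fin (2 * d))]
    · simp
    · intro b _ hb
      rw [if_neg]
      intro e
      exact hb (Fin.ext e)
    · intro h
      exfalso
      apply h
      simp
  have h3 : (univ.filter (fun i : Fin (2 * d) => ¬ (i : ℕ) < d)).card = d := by
    have h4 := Finset.card_filter_add_card_filter_not (s := (univ : Finset (Fin (2 * d))))
      (fun i => (i : ℕ) < d)
    rw [card_low, Finset.card_univ, Fintype.card_fin] at h4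
    omega
  rw [h2, Finset.sum_const, h3, nsmul_eq_mul]
  simp only [PiLp.zero_apply]
  field_simp
  ring

theorem lower_perm (d : ℕ) (hd : 2 ≤ d) (s : Equiv.Perm (Fin (2 * d))) :
    ∃ k : ℕ, 2 / 5 * √d ≤ ‖∑ i ∈ univ.filter (fun i : Fin (2 * d) => (i : ℕ) < k), low d (s i)‖ := by
  have hd0 : (2 : ℝ) ≤ d := by exact_mod_cast hd
  set cnt : ℕ → ℕ := fun k =>
    (univ.filter (fun i : Fin (2 * d) => (i : ℕ) < k ∧ (s i : ℕ) < d)).card with hcnt
  have hstep : ∀ k, cnt (k + 1) ≤ cnt k + 1 := by
    intro k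
    have h1 : univ.filter (fun i : Fin (2 * d) => (i : ℕ) < k + 1 ∧ (s i : ℕ) < d)
        ⊆ univ.filter (fun i : Fin (2 * d) => (i : ℕ) < k ∧ (s i : ℕ) < d)
          ∪ univ.filter (fun i : Fin (2 * d) => (i : ℕ) = k) := by
      intro i hi
      rw [Finset.mem_filter] at hi
      rw [Finset.mem_union, Finset.mem_filter, Finset.mem_filter]
      rcases Nat.lt_or_ge (i : ℕ) k with h | h
      · exact Or.inl ⟨Finset.mem_univ _, h, hi.2.2⟩
      · exact Or.inr ⟨Finset.mem_univ _, by omega⟩
    have h2 : (univ.filter (fun i : Fin (2 * d) => (i : ℕ) = k)).card ≤ 1 := by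
      rw [Finset.card_le_one]
      intro a ha b hb
      rw [Finset.mem_filter] at ha hb
      exact Fin.ext (by omega)
    have h3 := (Finset.card_le_card h1).trans (Finset.card_union_le _ _)
    rw [hcnt]
    simp only
    omega
  have h0 : cnt 0 = 0 := by
    simp [hcnt]
  have hend : cnt (2 * d) = d := by
    have h1 : univ.filter (fun i : Fin (2 * d) => (i : ℕ) < 2 * d ∧ (s i : ℕ) < d)
        = univ.filter (fun i : Fin (2 * d) => (s i : ℕ) < d) := by
      apply Finset.filter_congr
      intro i _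
      simp
    have h2 : (univ.filter (fun i : Fin (2 * d) => (s i : ℕ) < d)).card
        = (univ.filter (fun i : Fin (2 * d) => (i : ℕ) < d)).card := by
      apply Finset.card_bij (fun i _ => s i)
      · intro i hi
        simpa using hi
      · intro i _ j _ h
        exact s.injective h
      · intro b hb
        exact ⟨s.symm b, by simpa using hb, by simp⟩
    rw [hcnt]
    simp only
    rw [h1, h2, card_low]
  obtain ⟨k, hk⟩ : ∃ k, cnt k = d / 2 := by
    have hex : ∃ k, d / 2 ≤ cnt k := ⟨2 * d, by rw [hend]; omega⟩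
    classical
    set k0 := Nat.find hex with hk0
    have h1 : d / 2 ≤ cnt k0 := Nat.find_spec hex
    rcases Nat.eq_zero_or_pos k0 with h2 | h2
    · refine ⟨0, ?_⟩
      rw [h2, h0] at h1
      rw [h0]
      omega
    · refine ⟨k0, le_antisymm ?_ h1⟩
      have h3 : ¬ d / 2 ≤ cnt (k0 - 1) := Nat.find_min hex (by omega)
      have h4 := hstep (k0 - 1)
      have h5 : k0 - 1 + 1 = k0 := by omega
      rw [h5] at h4
      omega
  refine ⟨k, ?_⟩
  set P := univ.filter (fun i : Fin (2 * d) => (i : ℕ) < k) with hP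
  set T := ∑ i ∈ P, low d (s i) with hT
  set a : Fin d → ℝ := fun j => ∑ i ∈ P, if (s i : ℕ) = (j : ℕ) then (1 : ℝ) else 0 with ha
  set t : ℝ := ((P.filter (fun i => ¬ (s i : ℕ) < d)).card : ℝ) with ht
  have hTj : ∀ j, T j = a j - t / d := by
    intro j
    have h1 : T j = ∑ i ∈ P, low d (s i) j := by
      rw [hT, WithLp.ofLp_sum, Finset.sum_apply]
    rw [h1]
    simp_rw [low_apply]
    rw [Finset.sum_ite, Finset.sum_const, nsmul_eq_mul, ← ht]
    have h2 : ∑ i ∈ P.filter (fun i => (s i : ℕ) < d), (if (s i : ℕ) = (j : ℕ) then (1 : ℝ) else 0)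
        = a j := by
      rw [ha]
      simp only
      apply Finset.sum_subset (Finset.filter_subset _ _)
      intro i hi hni
      rw [if_neg]
      intro e
      apply hni
      rw [Finset.mem_filter]
      exact ⟨hi, by omega⟩
    rw [h2]
    ring
  have hasum : ∑ j, a j = ((d / 2 : ℕ) : ℝ) := by
    rw [← hk, ha]
    simp only
    rw [Finset.sum_comm, hcnt]
    simp only
    rw [Finset.card_eq_sum_ones, Nat.cast_sum, ← Finset.filter_filter,
      Finset.sum_filter (fun i : Fin (2 * d) => (s i : ℕ) < d)]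
    apply Finset.sum_congr rfl
    intro i _
    by_cases h : (s i : ℕ) < d
    · rw [if_pos h, Finset.sum_eq_single (⟨s i, h⟩ : Fin d)]
      · simp
      · intro b _ hb
        rw [if_neg]
        intro e
        exact hb (Fin.ext e.symm)
      · intro h'
        exact absurd (Finset.mem_univ _) h'
    · rw [if_neg h]
      apply Finset.sum_eq_zero
      intro j _
      rw [if_neg]
      omega
  have hasq : ∀ j, a j ^ 2 = a j := by
    intro j
    have h1 : a j = 0 ∨ a j = 1 := by
      by_cases h : ∃ i ∈ P, (s i : ℕ) = (j : ℕ)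
      · obtain ⟨i0, hi0, hi0'⟩ := h
        right
        rw [ha]
        simp only
        rw [Finset.sum_eq_single i0]
        · rw [if_pos hi0']
        · intro b _ hb
          rw [if_neg]
          intro e
          apply hb
          apply s.injective
          exact Fin.ext (by omega)
        · intro h'
          exact absurd hi0 h'
      · left
        push Not at h
        rw [ha]
        simp only
        apply Finset.sum_eq_zero
        intro i hi
        rw [if_neg (h i hi)]
    rcases h1 with h1 | h1 <;> rw [h1] <;> norm_num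
  have hnorm : ‖T‖ ^ 2 = ((d / 2 : ℕ) : ℝ) - 2 * (t / d) * ((d / 2 : ℕ) : ℝ) + d * (t / d) ^ 2 := by
    rw [EuclideanSpace.norm_sq_eq]
    have h1 : ∀ j, ‖T j‖ ^ 2 = a j - 2 * (t / d) * a j + (t / d) ^ 2 := by
      intro j
      rw [Real.norm_eq_abs, sq_abs, hTj j]
      have := hasq j
      nlinarith
    simp_rw [h1]
    rw [Finset.sum_add_distrib, Finset.sum_sub_distrib, ← Finset.mul_sum, hasum, Finset.sum_const,
      Finset.card_univ, Fintype.card_fin, nsmul_eq_mul]
  have hm1 : (d : ℝ) - 1 ≤ 2 * ((d / 2 : ℕ) : ℝ) := by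
    have h1 : d ≤ 2 * (d / 2) + 1 := by omega
    have h2 : (d : ℝ) ≤ 2 * ((d / 2 : ℕ) : ℝ) + 1 := by exact_mod_cast h1
    linarith
  have hm2 : 2 * ((d / 2 : ℕ) : ℝ) ≤ d := by
    have h1 : 2 * (d / 2) ≤ d := by omega
    exact_mod_cast h1
  set m : ℝ := ((d / 2 : ℕ) : ℝ) with hm
  have hge : (2 / 5 * √d) ^ 2 ≤ ‖T‖ ^ 2 := by
    rw [mul_pow, Real.sq_sqrt (by linarith), hnorm]
    have h1 : m - 2 * (t / d) * m + d * (t / d) ^ 2 = m * (d - m) / d + (t - m) ^ 2 / d := by
      field_simp
      ring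
    rw [h1]
    have h2 : 0 ≤ (t - m) ^ 2 / d := by positivity
    have h3 : (2 / 5) ^ 2 * (d : ℝ) ≤ m * (d - m) / d := by
      rw [le_div_iff₀ (by linarith)]
      nlinarith
    linarith
  exact (abs_le_of_sq_le_sq' hge (norm_nonneg _)).2

/-- the family in dimension one -/
noncomputable def lowOne (i : Fin 2) : EuclideanSpace ℝ (Fin 1) :=
  WithLp.toLp 2 (fun _ => if i = 0 then 1 else -1)

theorem lowOne_norm (i : Fin 2) : ‖lowOne i‖ = 1 := by
  rw [EuclideanSpace.norm_eq, Real.sqrt_eq_one]
  rw [Fin.sum_univ_one]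
  unfold lowOne
  simp only
  split_ifs <;> norm_num

theorem lower_all (d : ℕ) (hd : 1 ≤ d) : ∃ (N : ℕ) (v : Fin N → EuclideanSpace ℝ (Fin d)),
    (∀ a, ‖v a‖ ≤ 1) ∧ ∑ a, v a = 0 ∧
    ∀ s : Equiv.Perm (Fin N), ∃ k : ℕ,
      2 / 5 * √(d : ℝ) ≤ ‖∑ i ∈ univ.filter (fun i : Fin N => (i : ℕ) < k), v (s i)‖ := by
  rcases Nat.lt_or_ge 1 d with h | h
  · exact ⟨2 * d, low d, low_norm d, low_sum d, fun s => lower_perm d h s⟩
  · have h1 : d = 1 := by omega
    subst h1
    refine ⟨2, lowOne, fun a => (lowOne_norm a).le, ?_, fun s => ⟨1, ?_⟩⟩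
    · ext j
      rw [Fin.sum_univ_two]
      simp [lowOne]
    · have h2 : univ.filter (fun i : Fin 2 => (i : ℕ) < 1) = {0} := by
        ext i
        fin_cases i <;> simp
      rw [h2, Finset.sum_singleton, lowOne_norm]
      norm_num

end Vale.Agent.P262F
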