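import Vale.Agent.Lib.P262F.Round
import Vale.Agent.Lib.P262F.ClockHH
import Vale.Agent.Lib.P262.Final

/-! The sharp Steinitz theorem in Euclidean space. -/

namespace Vale.Agent.P262F

open Finset Real Vale.Agent.P262

section

variable {α : Type} {d : ℕ} {p : Par d} {v : α → Fin d → ℝ}

/-- the bound for all positions -/
noncomputable def Bd (p : Par d) : ℝ := 10 ^ 8 * (p.C1 + p.C7 + 1) * d

theorem C5_pos (p : Par d) : 0 < p.C5 := by
  have := p.hCR
  unfold Par.C5
  linarith

theorem C1_pos (p : Par d) : 0 < p.C1 := by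
  have := C5_pos p
  unfold Par.C1
  positivity

theorem C7_pos (p : Par d) : 0 < p.C7 := by
  have := p.hCR
  unfold Par.C7 Par.C6
  have h1 : (0 : ℝ) < p.CR := by linarith
  positivity

/-- far enough all coordinates are dead and every nonzero entry is heavy -/
theorem exists_end [Finite α] (p : Par d) (v : α → Fin d → ℝ) :
    ∃ S : ℕ, ∀ s ≥ S, (∀ k, k ∈ p.dead s) ∧ ∀ a k, v a k ^ 2 ≤ p.thr s k → v a k = 0 := by
  have := Fintype.ofFinite α
  obtain ⟨δ, hδ, hgap⟩ := exists_gap v
  obtain ⟨M, hM⟩ : ∃ M : ℝ, ∀ k, p.σ k + 40 * p.eta k ≤ M := by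
    obtain ⟨M, hM⟩ := (Set.finite_range (fun k => p.σ k + 40 * p.eta k)).bddAbove
    exact ⟨M, fun l => hM (Set.mem_range_self l)⟩
  obtain ⟨n, hn⟩ := exists_pow_lt_of_lt_one hδ (show (2 : ℝ) ^ (-(5 / 8) : ℝ) < 1 by
    apply Real.rpow_lt_one_of_one_lt_of_neg <;> norm_num)
  obtain ⟨m, hm⟩ := exists_nat_ge M
  refine ⟨m + n, fun s hs => ⟨fun k => ?_, fun a k hk => ?_⟩⟩
  · rw [p.mem_dead]
    have h1 := hM k
    have h2 : (m : ℝ) + n ≤ s := by exact_mod_cast hs
    have h3 : (0 : ℝ) ≤ n := Nat.cast_nonneg n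
    unfold Par.xx
    linarith
  · apply hgap
    refine lt_of_le_of_lt hk (lt_of_le_of_lt ?_ hn)
    unfold Par.thr
    rw [← Real.rpow_natCast, ← Real.rpow_mul (by norm_num)]
    apply Real.rpow_le_rpow_of_exponent_le (by norm_num)
    have h1 := hM k
    have h2 : (m : ℝ) + n ≤ s := by exact_mod_cast hs
    have h3 := p.eta_ge k
    have h4 : (n : ℝ) ≤ max (p.xx s k) (40 * p.eta k) := by
      apply le_max_of_le_left
      unfold Par.xx
      linarith
    linarith

/-- at the end every ordering is good -/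
theorem end_ok {s : ℕ} {V : Finset α} {x y Lx Ly ε : Fin d → ℝ} (hd : ∀ k, k ∈ p.dead s)
    (hz : ∀ a k, v a k ^ 2 ≤ p.thr s k → v a k = 0) (I : p.Inv v s V x y Lx Ly ε)
    (U : Finset α) (hU : U ⊆ V) : ∑ k, (x k + ∑ a ∈ U, v a k) ^ 2 ≤ Bd p := by
  have hact : p.act s = ∅ := by
    rw [Finset.eq_empty_iff_forall_notMem]
    intro k hk
    exact p.act_not_dead hk (hd k)
  have hbel : p.below s = univ := by
    rw [Finset.eq_univ_iff_forall]
    intro k
    rw [p.mem_below]
    have h1 := p.mem_dead.mp (hd k)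
    have h2 := p.eta_ge k
    unfold Par.xx at h1
    unfold Par.tau
    linarith
  have hL := I.phx s le_rfl
  rw [hbel, Finset.card_univ, Fintype.card_fin] at hL
  have hpot := I.pot
  rw [hact, Finset.compl_empty] at hpot
  have hHH := p.HH_le s
  have hC1 := C1_pos p
  have hC7 := C7_pos p
  have hd0 : (0 : ℝ) ≤ d := Nat.cast_nonneg d
  have h1 : ∑ k, ε k ^ 2 ≤ 85 * ∑ k, ε k ^ 2 / p.rr s k := by
    rw [Finset.mul_sum]
    apply Finset.sum_le_sum
    intro k _
    have h2 := p.one_le_rr s k
    have h3 := p.rr_le s k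
    rw [mul_div_assoc', le_div_iff₀ (by linarith)]
    nlinarith [sq_nonneg (ε k)]
  have h2 : ∀ k, (x k + ∑ a ∈ U, v a k) ^ 2 ≤ 2 * Lx k ^ 2 + (36 * ε k ^ 2 + 4) := by
    intro k
    have h3 := I.ddead k (hd k)
    have h4 : |∑ a ∈ U, v a k| ≤ ∑ a ∈ V, p.hS v s k a := by
      calc |∑ a ∈ U, v a k| ≤ ∑ a ∈ U, |v a k| := Finset.abs_sum_le_sum_abs _ _
        _ ≤ ∑ a ∈ U, p.hS v s k a := by
          apply Finset.sum_le_sum
          intro a _
          unfold Par.hS
          split_ifs with h5
          · rw [hz a k h5, abs_zero]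
          · exact le_rfl
        _ ≤ ∑ a ∈ V, p.hS v s k a := by
          apply Finset.sum_le_sum_of_subset_of_nonneg hU
          intro a _ _
          unfold Par.hS
          split_ifs
          · exact le_rfl
          · exact abs_nonneg _
    have h5 : p.Tt s k ≤ 1 := by
      unfold Par.Tt
      have : (0 : ℝ) < (2 : ℝ) ^ (-(p.xx s k / 10)) := by positivity
      linarith
    have h6 : |(x k - Lx k) + ∑ a ∈ U, v a k| ≤ 3 * ε k + 1 := by
      have h7 := abs_add_le (x k - Lx k) (∑ a ∈ U, v a k)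
      have h8 := abs_nonneg (∑ a ∈ V, p.lS v s k a - (Ly k - Lx k))
      linarith
    have h7 : x k + ∑ a ∈ U, v a k = Lx k + ((x k - Lx k) + ∑ a ∈ U, v a k) := by ring
    rw [h7]
    set t := (x k - Lx k) + ∑ a ∈ U, v a k with ht
    have h8 : t ^ 2 ≤ (3 * ε k + 1) ^ 2 := by
      rw [← sq_abs t]
      exact pow_le_pow_left₀ (abs_nonneg _) h6 2
    nlinarith [sq_nonneg (Lx k - t), sq_nonneg (3 * ε k - 1)]
  calc ∑ k, (x k + ∑ a ∈ U, v a k) ^ 2 ≤ ∑ k, (2 * Lx k ^ 2 + (36 * ε k ^ 2 + 4)) :=
        Finset.sum_le_sum fun k _ => h2 k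
    _ = 2 * ∑ k, Lx k ^ 2 + 36 * ∑ k, ε k ^ 2 + 4 * d := by
        rw [Finset.sum_add_distrib, Finset.sum_add_distrib, ← Finset.mul_sum, ← Finset.mul_sum]
        simp only [Finset.sum_const, Finset.card_univ, Fintype.card_fin, nsmul_eq_mul]
        ring
    _ ≤ Bd p := by
        unfold Bd
        have e1 : p.C1 * (↑d + p.HH s) ≤ p.C1 * (9001 * d) := by
          apply mul_le_mul_of_nonneg_left _ hC1.le
          linarith
        have e2 : p.C7 * p.HH s ≤ p.C7 * (9000 * d) := by
          apply mul_le_mul_of_nonneg_left hHH hC7.le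
        have e3 : 0 ≤ p.C1 * (d : ℝ) := by positivity
        have e4 : 0 ≤ p.C7 * (d : ℝ) := by positivity
        nlinarith

/-- the root satisfies the invariants -/
theorem root_inv [Fintype α] (hsum : ∀ k, ∑ a, v a k = 0)
    (hdiag : ∀ l k, ∑ a, v a l * v a k = if l = k then (2 : ℝ) ^ (p.σ l) else 0) :
    p.Inv v 0 univ 0 0 0 0 0 := by
  have hxx : ∀ k, p.xx 0 k = - p.σ k := by
    intro k
    simp [Par.xx]
  have hen : ∀ k, ∑ a, v a k ^ 2 = (2 : ℝ) ^ (p.σ k) := by
    intro k
    have := hdiag k k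
    rw [if_pos rfl] at this
    rw [← this]
    exact Finset.sum_congr rfl fun a _ => by ring
  have hnd : ∀ k, k ∉ p.dead 0 := by
    intro k hk
    rw [p.mem_dead, hxx] at hk
    have h1 := p.eta_ge k
    have h2 := p.hσ k
    linarith
  have hC1 := C1_pos p
  have hC7 := C7_pos p
  have hH := p.HH_nonneg 0
  refine
    { sum := fun k => by simp [hsum k]
      actx := fun k _ => rfl
      acty := fun k _ => rfl
      row := fun l hl g hg => ?_
      le_tr := fun k hk => ?_
      le_dead := fun k hk => absurd hk (hnd k)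
      hv_tr := fun k hk => ?_
      phx := fun g _ => ?_
      phy := fun g _ => ?_
      eps := fun k => le_rfl
      dtr := fun k _ => by simp [hsum k]
      ddead := fun k hk => absurd hk (hnd k)
      pot := ?_ }
  · have h1 : n2 (p.lev 0 g) (p.rdev v 0 univ l) = 0 := by
      have h2 : p.rdev v 0 univ l = fun _ => 0 := by
        funext k
        unfold Par.rdev Par.mu
        rw [hdiag l k, hxx, neg_neg, sub_self]
      rw [h2, n2_zero]
    rw [h1]
    have := p.mu_pos 0 l
    positivity
  · have h1 : ∑ a, p.lE v 0 k a ≤ ∑ a, v a k ^ 2 := by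
      apply Finset.sum_le_sum
      intro a _
      unfold Par.lE
      split_ifs
      · exact le_rfl
      · exact sq_nonneg _
    have h2 := p.mem_tr.mp hk
    unfold Par.tau at h2
    refine h1.trans ?_
    rw [hen k]
    unfold Par.ThT
    rw [hxx]
    have h3 : (2 : ℝ) ^ (p.σ k) ≤ (2 : ℝ) ^ (1 + 5 * p.eta k - 7 / 8 * -p.σ k) := by
      apply Real.rpow_le_rpow_of_exponent_le (by norm_num)
      have h4 : p.σ k - 40 * p.eta k < ((0 : ℕ) : ℝ) := h2.1
      push_cast at h4
      linarith
    have h4 : (0 : ℝ) < (2 : ℝ) ^ (-(23 * p.eta k)) := by positivity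
    linarith
  · have h2 := p.mem_tr.mp hk
    unfold Par.tau at h2
    have hthr : p.thr 0 k = (2 : ℝ) ^ (-(25 * p.eta k)) := by
      unfold Par.thr
      rw [max_eq_right h2.2.le]
      congr 1
      ring
    have hq : √(p.thr 0 k) = (2 : ℝ) ^ (-(25 / 2 * p.eta k)) := by
      rw [hthr, Real.sqrt_eq_rpow, ← Real.rpow_mul (by norm_num)]
      congr 1
      ring
    have hpos : 0 < √(p.thr 0 k) := by
      rw [hq]
      positivity
    have h1 : ∑ a, p.hS v 0 k a ≤ (∑ a, v a k ^ 2) / √(p.thr 0 k) := by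
      rw [Finset.sum_div]
      apply Finset.sum_le_sum
      intro a _
      unfold Par.hS
      split_ifs with h3
      · positivity
      · rw [le_div_iff₀ hpos]
        push Not at h3
        have h4 : √(p.thr 0 k) ≤ |v a k| := by
          rw [← Real.sqrt_sq_eq_abs]
          exact Real.sqrt_le_sqrt h3.le
        calc |v a k| * √(p.thr 0 k) ≤ |v a k| * |v a k| :=
              mul_le_mul_of_nonneg_left h4 (abs_nonneg _)
          _ = v a k ^ 2 := by rw [← sq, sq_abs]
    refine h1.trans ?_
    rw [hen k, hq, ← Real.rpow_sub (by norm_num)]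
    unfold Par.PP
    rw [hxx]
    simp only [Pi.zero_apply, add_zero]
    apply Real.rpow_le_rpow_of_exponent_le (by norm_num)
    have h4 : p.σ k - 40 * p.eta k < ((0 : ℕ) : ℝ) := h2.1
    push_cast at h4
    linarith
  · simp only [Pi.zero_apply]
    have : (0 : ℝ) ≤ p.C1 * ((p.below g).card + p.HH 0) := by positivity
    simpa using this
  · simp only [Pi.zero_apply]
    have : (0 : ℝ) ≤ p.C1 * ((p.below g).card + p.HH 0) := by positivity
    simpa using this
  · simp only [Pi.zero_apply]
    have : (0 : ℝ) ≤ p.C7 * p.HH 0 := by positivity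
    simpa using this

/-- every node can be traversed -/
theorem node_adm [Fintype α] [DecidableEq α] (hSP : SignProp p.CR)
    (hv : ∀ a, ∑ k, v a k ^ 2 ≤ 1) {S : Set (Fin d → ℝ)}
    (hS : ∀ x : Fin d → ℝ, ∑ k, x k ^ 2 ≤ Bd p → x ∈ S) {E : ℕ}
    (hE : ∀ s ≥ E, (∀ k, k ∈ p.dead s) ∧ ∀ a k, v a k ^ 2 ≤ p.thr s k → v a k = 0) :
    ∀ n s : ℕ, E ≤ s + n → ∀ (V : Finset α) (x y Lx Ly ε : Fin d → ℝ),
      p.Inv v s V x y Lx Ly ε → Adm v S V x := by
  intro n
  induction n with
  | zero =>
    intro s hs V x y Lx Ly ε I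
    obtain ⟨h1, h2⟩ := hE s hs
    apply adm_small
    intro U hU
    apply hS
    have h3 := end_ok h1 h2 I U hU
    refine le_trans (le_of_eq ?_) h3
    apply Finset.sum_congr rfl
    intro k _
    rw [Pi.add_apply, Finset.sum_apply]
  | succ n ih =>
    intro s hs V x y Lx Ly ε I
    obtain ⟨c, z, L, ε', hc, hz0, hinv⟩ := round_step hSP hv I
    have hhs : 1 ≤ p.hs s := by
      have h1 := p.h0_le_hs s
      have h2 := p.hh0
      omega
    have hK : 0 < 2 ^ p.hs s := by positivity
    have hch : ∀ j < 2 ^ p.hs s, Adm v S (V.filter (fun a => c a = j)) (z j) := by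
      intro j hj
      exact ih (s + p.hs s) (by omega) _ _ _ _ _ _ (hinv j hj)
    have hzj : ∀ j ≤ 2 ^ p.hs s, z j = x + ∑ a ∈ V.filter (fun a => c a < j), v a := by
      intro j
      induction j with
      | zero =>
        intro _
        simp [hz0]
      | succ j ihj =>
        intro hj
        have h1 := ihj (by omega)
        have h2 := (hinv j (by omega)).sum
        funext k
        rw [h2 k, h1, Pi.add_apply, Pi.add_apply, Finset.sum_apply, Finset.sum_apply, add_assoc]
        congr 1
        rw [← Finset.sum_union]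
        · congr 1
          rw [← Finset.filter_or]
          apply Finset.filter_congr
          intro a _
          omega
        · rw [Finset.disjoint_filter]
          intro a _ h3 h4
          omega
    have key : ∀ j ≤ 2 ^ p.hs s, Adm v S (V.filter (fun a => c a < j)) x := by
      intro j
      induction j with
      | zero =>
        intro _
        obtain ⟨l, hl1, hl2, hl3⟩ := hch 0 hK
        refine ⟨[], List.nodup_nil, ?_, ?_⟩
        · simp
        · intro k
          have h1 := hl3 0
          rw [hz0] at h1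
          simpa using h1
      | succ j ihj =>
        intro hj
        have h1 := ihj (by omega)
        have h2 := hch j (by omega)
        rw [hzj j (by omega)] at h2
        have h3 : V.filter (fun a => c a < j + 1)
            = V.filter (fun a => c a < j) ∪ V.filter (fun a => c a = j) := by
          rw [← Finset.filter_or]
          apply Finset.filter_congr
          intro a _
          omega
        rw [h3]
        apply adm_union _ h1 h2
        rw [Finset.disjoint_filter]
        intro a _ h3 h4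
        omega
    have h1 := key (2 ^ p.hs s) le_rfl
    have h2 : V.filter (fun a => c a < 2 ^ p.hs s) = V := by
      rw [Finset.filter_eq_self]
      exact hc
    rwa [h2] at h1

/-- traversal of a family with diagonal energy matrix -/
theorem diag_adm [Fintype α] [DecidableEq α] (hSP : SignProp p.CR)
    (hv : ∀ a, ∑ k, v a k ^ 2 ≤ 1) (hsum : ∀ k, ∑ a, v a k = 0)
    (hdiag : ∀ l k, ∑ a, v a l * v a k = if l = k then (2 : ℝ) ^ (p.σ l) else 0) :
    Adm v {x | ∑ k, x k ^ 2 ≤ Bd p} univ 0 := by
  obtain ⟨E, hE⟩ := exists_end p v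
  exact node_adm hSP hv (S := {x | ∑ k, x k ^ 2 ≤ Bd p}) (fun x hx => hx) hE E 0 (by omega)
    univ 0 0 0 0 0 (root_inv hsum hdiag)

end

end Vale.Agent.P262F
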