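import Mathlib

/-! Euclidean norms over a finite set of coordinates. -/

namespace Vale.Agent.P262F

open Finset Real

variable {κ : Type*}

/-- Euclidean norm of `f` over the coordinates in `J`. -/
noncomputable def n2 (J : Finset κ) (f : κ → ℝ) : ℝ := √(∑ k ∈ J, f k ^ 2)

theorem n2_nonneg (J : Finset κ) (f : κ → ℝ) : 0 ≤ n2 J f := Real.sqrt_nonneg _

theorem n2_sq (J : Finset κ) (f : κ → ℝ) : n2 J f ^ 2 = ∑ k ∈ J, f k ^ 2 :=
  Real.sq_sqrt (Finset.sum_nonneg fun _ _ => sq_nonneg _)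

theorem n2_le_iff {J : Finset κ} {f : κ → ℝ} {B : ℝ} (hB : 0 ≤ B) :
    n2 J f ≤ B ↔ ∑ k ∈ J, f k ^ 2 ≤ B ^ 2 := by
  unfold n2
  rw [Real.sqrt_le_left hB]

theorem n2_le_sqrt {J : Finset κ} {f : κ → ℝ} {B : ℝ} (h : ∑ k ∈ J, f k ^ 2 ≤ B) :
    n2 J f ≤ √B := Real.sqrt_le_sqrt h

theorem n2_mono {J J' : Finset κ} (h : J ⊆ J') (f : κ → ℝ) : n2 J f ≤ n2 J' f := by
  apply Real.sqrt_le_sqrt
  exact Finset.sum_le_sum_of_subset_of_nonneg h fun _ _ _ => sq_nonneg _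

theorem n2_le_of_abs {J : Finset κ} {f g : κ → ℝ} (h : ∀ k ∈ J, |f k| ≤ g k) :
    n2 J f ≤ n2 J g := by
  apply Real.sqrt_le_sqrt
  apply Finset.sum_le_sum
  intro k hk
  have h1 := h k hk
  rw [← sq_abs (f k)]
  exact pow_le_pow_left₀ (abs_nonneg _) h1 2

theorem n2_congr {J : Finset κ} {f g : κ → ℝ} (h : ∀ k ∈ J, f k = g k) :
    n2 J f = n2 J g := by
  unfold n2
  congr 1
  exact Finset.sum_congr rfl fun k hk => by rw [h k hk]

theorem n2_abs (J : Finset κ) (f : κ → ℝ) : n2 J (fun k => |f k|) = n2 J f := by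
  unfold n2
  congr 1
  exact Finset.sum_congr rfl fun k _ => sq_abs _

theorem n2_add_le (J : Finset κ) (f g : κ → ℝ) :
    n2 J (fun k => f k + g k) ≤ n2 J f + n2 J g := by
  have h0 : 0 ≤ n2 J f + n2 J g := add_nonneg (n2_nonneg _ _) (n2_nonneg _ _)
  rw [n2_le_iff h0]
  have hcs : ∑ k ∈ J, f k * g k ≤ n2 J f * n2 J g := by
    have := Finset.sum_mul_sq_le_sq_mul_sq J f g
    rw [← n2_sq, ← n2_sq, ← mul_pow] at this
    exact le_of_sq_le_sq this (mul_nonneg (n2_nonneg _ _) (n2_nonneg _ _))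
  have h1 : ∑ k ∈ J, (f k + g k) ^ 2
      = ∑ k ∈ J, f k ^ 2 + 2 * ∑ k ∈ J, f k * g k + ∑ k ∈ J, g k ^ 2 := by
    rw [Finset.mul_sum, ← Finset.sum_add_distrib, ← Finset.sum_add_distrib]
    exact Finset.sum_congr rfl fun k _ => by ring
  rw [h1, ← n2_sq, ← n2_sq]
  nlinarith
where
  le_of_sq_le_sq {a b : ℝ} (h : a ^ 2 ≤ b ^ 2) (hb : 0 ≤ b) : a ≤ b := by
    exact abs_le_of_sq_le_sq' h hb |>.2

theorem n2_smul (J : Finset κ) (c : ℝ) (f : κ → ℝ) :
    n2 J (fun k => c * f k) = |c| * n2 J f := by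
  unfold n2
  rw [← Real.sqrt_sq_eq_abs, ← Real.sqrt_mul (sq_nonneg c)]
  congr 1
  rw [Finset.mul_sum]
  exact Finset.sum_congr rfl fun k _ => by ring

theorem n2_neg (J : Finset κ) (f : κ → ℝ) : n2 J (fun k => - f k) = n2 J f := by
  unfold n2
  congr 1
  exact Finset.sum_congr rfl fun k _ => by ring

theorem n2_sub_le (J : Finset κ) (f g : κ → ℝ) :
    n2 J (fun k => f k - g k) ≤ n2 J f + n2 J g := by
  have h := n2_add_le J f (fun k => - g k)
  rw [n2_neg] at h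
  simpa [sub_eq_add_neg] using h

theorem n2_zero (J : Finset κ) : n2 J (fun _ => (0 : ℝ)) = 0 := by
  unfold n2
  simp

theorem n2_sum_le {γ : Type*} (J : Finset κ) (s : Finset γ) (f : γ → κ → ℝ) :
    n2 J (fun k => ∑ a ∈ s, f a k) ≤ ∑ a ∈ s, n2 J (f a) := by
  classical
  induction s using Finset.induction_on with
  | empty => simp [n2_zero]
  | insert a s ha ih =>
    have h1 : (fun k => ∑ b ∈ insert a s, f b k) = fun k => f a k + ∑ b ∈ s, f b k := by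
      funext k
      rw [Finset.sum_insert ha]
    rw [h1, Finset.sum_insert ha]
    exact (n2_add_le J _ _).trans (by linarith)

theorem abs_le_n2 {J : Finset κ} {k : κ} (hk : k ∈ J) (f : κ → ℝ) : |f k| ≤ n2 J f := by
  unfold n2
  rw [← Real.sqrt_sq_eq_abs]
  apply Real.sqrt_le_sqrt
  exact Finset.single_le_sum (f := fun k => f k ^ 2) (fun _ _ => sq_nonneg _) hk

/-- Cauchy-Schwarz over a finite set. -/
theorem abs_sum_mul_le (J : Finset κ) (f g : κ → ℝ) :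
    |∑ k ∈ J, f k * g k| ≤ n2 J f * n2 J g := by
  have := Finset.sum_mul_sq_le_sq_mul_sq J f g
  rw [← n2_sq, ← n2_sq, ← mul_pow] at this
  exact abs_le_of_sq_le_sq this (mul_nonneg (n2_nonneg _ _) (n2_nonneg _ _))

end Vale.Agent.P262F
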