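import Vale.Agent.Lib.P262F.PL1

open MeasureTheory ProbabilityTheory ENNReal Set

namespace Vale.Agent.P262F

/-- Standard Gaussian measure on `Fin n → ℝ`. -/
noncomputable abbrev gaussPi (n : ℕ) : Measure (Fin n → ℝ) := Measure.pi fun _ => gaussianReal 0 1

/-- the Gaussian density is log-concave -/
theorem gaussianPDF_pl {l : ℝ} (hl0 : 0 < l) (hl1 : l < 1) (x y : ℝ) :
    gaussianPDF 0 1 x ^ (1 - l) * gaussianPDF 0 1 y ^ l ≤
      gaussianPDF 0 1 ((1 - l) * x + l * y) := by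
  have hc : (0 : ℝ) < (√(2 * Real.pi * ((1 : NNReal) : ℝ)))⁻¹ := by
    have := Real.pi_pos
    positivity
  have hp : ∀ x, 0 < gaussianPDFReal 0 1 x := fun x => gaussianPDFReal_pos 0 1 x one_ne_zero
  have he : ∀ x, gaussianPDFReal 0 1 x =
      Real.exp (Real.log (√(2 * Real.pi * ((1 : NNReal) : ℝ)))⁻¹ - x ^ 2 / 2) := by
    intro x
    rw [sub_eq_add_neg, Real.exp_add, Real.exp_log hc]
    unfold gaussianPDFReal
    have e2 : -(x - 0) ^ 2 / (2 * ((1 : NNReal) : ℝ)) = -(x ^ 2 / 2) := by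
      rw [NNReal.coe_one]
      ring
    rw [e2]
  unfold gaussianPDF
  rw [ENNReal.ofReal_rpow_of_pos (hp x), ENNReal.ofReal_rpow_of_pos (hp y),
    ← ENNReal.ofReal_mul (Real.rpow_nonneg (hp x).le _)]
  apply ENNReal.ofReal_le_ofReal
  rw [he, he, he, ← Real.exp_mul, ← Real.exp_mul, ← Real.exp_add]
  apply Real.exp_le_exp.2
  have h1 : ((1 - l) * x + l * y) ^ 2 ≤ (1 - l) * x ^ 2 + l * y ^ 2 := by
    have h2 : (1 - l) * x ^ 2 + l * y ^ 2 - ((1 - l) * x + l * y) ^ 2 =
        l * (1 - l) * (x - y) ^ 2 := by ring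
    have h3 : 0 ≤ l * (1 - l) * (x - y) ^ 2 := by
      have : 0 < 1 - l := by linarith
      positivity
    linarith
  nlinarith

/-- Prekopa-Leindler inequality for the standard Gaussian measure on the line. -/
theorem pl_gauss_one {f g h : ℝ → ℝ≥0∞} (hf : Measurable f) (hg : Measurable g)
    (hh : Measurable h) {l : ℝ} (hl0 : 0 < l) (hl1 : l < 1)
    (H : ∀ x y, f x ^ (1 - l) * g y ^ l ≤ h ((1 - l) * x + l * y)) :
    (∫⁻ x, f x ∂(gaussianReal 0 1)) ^ (1 - l) * (∫⁻ x, g x ∂(gaussianReal 0 1)) ^ l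
      ≤ ∫⁻ x, h x ∂(gaussianReal 0 1) := by
  have hm : Measurable (gaussianPDF 0 1) := measurable_gaussianPDF 0 1
  rw [gaussianReal_of_var_ne_zero 0 one_ne_zero,
    lintegral_withDensity_eq_lintegral_mul _ hm hf, lintegral_withDensity_eq_lintegral_mul _ hm hg,
    lintegral_withDensity_eq_lintegral_mul _ hm hh]
  refine pl_one (hm.mul hf) (hm.mul hg) (hm.mul hh) hl0 hl1 fun x y => ?_
  simp only [Pi.mul_apply]
  rw [ENNReal.mul_rpow_of_nonneg _ _ (by linarith : 0 ≤ 1 - l),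
    ENNReal.mul_rpow_of_nonneg _ _ hl0.le]
  calc gaussianPDF 0 1 x ^ (1 - l) * f x ^ (1 - l) * (gaussianPDF 0 1 y ^ l * g y ^ l)
      = (gaussianPDF 0 1 x ^ (1 - l) * gaussianPDF 0 1 y ^ l) * (f x ^ (1 - l) * g y ^ l) := by
        ring
    _ ≤ gaussianPDF 0 1 ((1 - l) * x + l * y) * h ((1 - l) * x + l * y) :=
        mul_le_mul' (gaussianPDF_pl hl0 hl1 x y) (H x y)

/-- the cons map is measurable -/
theorem measurable_consPair (n : ℕ) :
    Measurable (fun z : ℝ × (Fin n → ℝ) => (Fin.cons z.1 z.2 : Fin (n + 1) → ℝ)) := by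
  refine measurable_pi_lambda _ fun i => ?_
  refine Fin.cases ?_ (fun i => ?_) i
  · simp only [Fin.cons_zero]
    exact measurable_fst
  · simp only [Fin.cons_succ]
    exact (measurable_pi_apply i).comp measurable_snd

theorem symm_eq_cons (n : ℕ) (z : ℝ × (Fin n → ℝ)) :
    (MeasurableEquiv.piFinSuccAbove (fun _ : Fin (n + 1) => ℝ) 0).symm z =
      (Fin.cons z.1 z.2 : Fin (n + 1) → ℝ) := by
  funext i
  refine Fin.cases ?_ (fun i => ?_) i
  · rfl
  · rfl

theorem lintegral_gaussPi_succ (n : ℕ) {f : (Fin (n + 1) → ℝ) → ℝ≥0∞} (hf : Measurable f) :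
    ∫⁻ x, f x ∂(gaussPi (n + 1)) =
      ∫⁻ a, ∫⁻ b, f (Fin.cons a b) ∂(gaussPi n) ∂(gaussianReal 0 1) := by
  have hmp := (measurePreserving_piFinSuccAbove (n := n)
      (fun _ : Fin (n + 1) => gaussianReal 0 1) 0).symm
  have h1 := hmp.lintegral_comp hf
  rw [← h1]
  have h2 : Measurable (fun z : ℝ × (Fin n → ℝ) => f (Fin.cons z.1 z.2)) :=
    hf.comp (measurable_consPair n)
  simp only [symm_eq_cons]
  exact lintegral_prod (μ := gaussianReal 0 1) (ν := gaussPi n)
    (fun z : ℝ × (Fin n → ℝ) => f (Fin.cons z.1 z.2)) h2.aemeasurable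

/-- Prekopa-Leindler inequality for the standard Gaussian measure in dimension `n`. -/
theorem pl_gauss (n : ℕ) {f g h : (Fin n → ℝ) → ℝ≥0∞} (hf : Measurable f) (hg : Measurable g)
    (hh : Measurable h) {l : ℝ} (hl0 : 0 < l) (hl1 : l < 1)
    (H : ∀ x y, f x ^ (1 - l) * g y ^ l ≤ h ((1 - l) • x + l • y)) :
    (∫⁻ x, f x ∂(gaussPi n)) ^ (1 - l) * (∫⁻ x, g x ∂(gaussPi n)) ^ l
      ≤ ∫⁻ x, h x ∂(gaussPi n) := by
  induction n with
  | zero =>
    have e : gaussPi 0 = Measure.dirac 0 := by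
      unfold gaussPi
      rw [Measure.pi_of_empty]
      congr 1
      exact Subsingleton.elim _ _
    rw [e, lintegral_dirac' _ hf, lintegral_dirac' _ hg, lintegral_dirac' _ hh]
    refine (H 0 0).trans (le_of_eq ?_)
    congr 1
    exact Subsingleton.elim _ _
  | succ n ih =>
    rw [lintegral_gaussPi_succ n hf, lintegral_gaussPi_succ n hg, lintegral_gaussPi_succ n hh]
    have hfm : Measurable fun a => ∫⁻ b, f (Fin.cons a b) ∂(gaussPi n) :=
      (hf.comp (measurable_consPair n)).lintegral_prod_right'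
    have hgm : Measurable fun a => ∫⁻ b, g (Fin.cons a b) ∂(gaussPi n) :=
      (hg.comp (measurable_consPair n)).lintegral_prod_right'
    have hhm : Measurable fun a => ∫⁻ b, h (Fin.cons a b) ∂(gaussPi n) :=
      (hh.comp (measurable_consPair n)).lintegral_prod_right'
    refine pl_gauss_one hfm hgm hhm hl0 hl1 fun a a' => ?_
    refine ih ((hf.comp (measurable_consPair n)).comp measurable_prodMk_left)
      ((hg.comp (measurable_consPair n)).comp measurable_prodMk_left)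
      ((hh.comp (measurable_consPair n)).comp measurable_prodMk_left) fun x y => ?_
    refine (H _ _).trans (le_of_eq ?_)
    have e : (1 - l) • (Fin.cons a x : Fin (n + 1) → ℝ) + l • (Fin.cons a' y : Fin (n + 1) → ℝ) =
        Fin.cons ((1 - l) * a + l * a') ((1 - l) • x + l • y) := by
      funext i
      refine Fin.cases ?_ (fun i => ?_) i
      · rfl
      · rfl
    change h ((1 - l) • (Fin.cons a x : Fin (n + 1) → ℝ) +
      l • (Fin.cons a' y : Fin (n + 1) → ℝ)) = _
    rw [e]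

end Vale.Agent.P262F
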