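import Vale.Agent.Lib.P262F.Child
import Vale.Agent.Lib.P262F.ClockHH
import Vale.Agent.Lib.P262F.Heal

/-! The position budget of the boundaries. -/

namespace Vale.Agent.P262F

open Finset Real

variable {α : Type} {d : ℕ} {p : Par d} {v : α → Fin d → ℝ} {s : ℕ} {V : Finset α}
  {x y Lx Ly ε : Fin d → ℝ}

theorem phi_C5_nonneg (p : Par d) : 0 ≤ p.C5 := by
  have h := p.hCR
  unfold Par.C5
  linarith

theorem phi_C5_le_C1 (p : Par d) : p.C5 ≤ p.C1 := by
  have h := phi_C5_nonneg p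
  have h2 : (1 : ℝ) ≤ (p.h0 : ℝ) + 3 := by
    have : (0 : ℝ) ≤ p.h0 := Nat.cast_nonneg _
    linarith
  unfold Par.C1
  nlinarith

theorem phi_HH_mono (p : Par d) (s : ℕ) : p.HH s ≤ p.HH (s + p.hs s) := by
  have h1 := p.HH_step s
  have h2 := Wt_nonneg p.σ (s : ℝ)
  have h3 : (0 : ℝ) ≤ ((p.tr s).card : ℝ) := Nat.cast_nonneg _
  linarith

/-- the end points -/
theorem phi_end {L : Fin d → ℝ} {g : ℝ}
    (h : ∑ k ∈ p.below g, L k ^ 2 ≤ p.C1 * ((p.below g).card + p.HH s)) :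
    ∑ k ∈ p.below g, L k ^ 2 ≤ p.C1 * ((p.below g).card + p.HH (s + p.hs s)) := by
  refine h.trans ?_
  have h1 := phi_HH_mono p s
  have h2 : 0 ≤ p.C1 := (phi_C5_nonneg p).trans (phi_C5_le_C1 p)
  gcongr

/-- the set of active coordinates freezing before time `g` -/
theorem phi_filter_eq (p : Par d) (s : ℕ) (g : ℝ) :
    univ.filter (fun k => (s : ℝ) ≤ p.tau k ∧ p.tau k < g) =
      (p.act s).filter (fun k => p.tau k < g) := by
  ext k
  simp [Par.act]

theorem phi_filter_eq' (p : Par d) (s : ℕ) (k : Fin d) :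
    univ.filter (fun l => (s : ℝ) ≤ p.tau l ∧ p.tau l ≤ p.tau k) =
      (p.act s).filter (fun l => p.tau l ≤ p.tau k) := by
  ext l
  simp [Par.act]

theorem phi_sub_lev (p : Par d) (s : ℕ) (g : ℝ) :
    (p.act s).filter (fun k => p.tau k < g) ⊆ p.lev s g := by
  intro k hk
  rw [Finset.mem_filter] at hk
  rw [p.mem_lev]
  refine ⟨?_, hk.2⟩
  have h1 := p.act_xx hk.1
  have h2 := p.eta_ge k
  have h3 := p.hs_ge s
  linarith

/-- `h ≤ 2 ^ h` for real exponents -/
theorem phi_le_rpow (n : ℕ) : (n : ℝ) ≤ (2 : ℝ) ^ (n : ℝ) := by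
  rw [Real.rpow_natCast]
  exact_mod_cast (Nat.lt_two_pow_self).le

/-- the clipping level is large -/
theorem phi_h5 {k : Fin d} (hk : k ∈ p.act s) :
    16 * p.C5 * (((((p.act s).filter (fun l => p.tau l ≤ p.tau k)).card : ℝ)) +
      ((p.tr s).card : ℝ) + (p.hs s : ℝ)) ≤ ((p.mu (s + p.hs s) k) ^ (3 / 8 : ℝ)) ^ 2 := by
  set h : ℝ := (p.hs s : ℝ) with hh
  set y : ℝ := -(p.xx s k) with hy
  have hy39 : 39 * h ≤ y := p.act_xx hk
  have hh2 : (2000 : ℝ) ≤ h := p.hs_ge s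
  have hCR : p.CR ≤ (2 : ℝ) ^ (h / 100) := by
    refine p.hCRh.trans (Real.rpow_le_rpow_of_exponent_le one_le_two ?_)
    have : (p.h0 : ℝ) ≤ h := by
      rw [hh]
      exact_mod_cast p.h0_le_hs s
    linarith
  have e1 : ((((p.act s).filter (fun l => p.tau l ≤ p.tau k)).card : ℝ)) ≤
      (2 : ℝ) ^ (3 / 100 * y) := p.card_below_act hk
  have e2 : ((p.tr s).card : ℝ) ≤ (2 : ℝ) ^ (3 / 100 * y) := by
    refine (p.card_tr_le s).trans (Real.rpow_le_rpow_of_exponent_le one_le_two ?_)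
    change 103 / 100 * h ≤ 3 / 100 * y
    linarith
  have e3 : h ≤ (2 : ℝ) ^ (3 / 100 * y) := by
    refine (phi_le_rpow _).trans (Real.rpow_le_rpow_of_exponent_le one_le_two ?_)
    change h ≤ 3 / 100 * y
    linarith
  have e4 : ((p.mu (s + p.hs s) k) ^ (3 / 8 : ℝ)) ^ 2 = (2 : ℝ) ^ (3 / 4 * (y - h)) := by
    rw [Par.mu, p.xx_add, ← Real.rpow_mul (by norm_num), ← Real.rpow_natCast,
      ← Real.rpow_mul (by norm_num)]
    congr 1
    push_cast
    rw [hy, hh]
    ring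
  rw [e4]
  have hC5 : 16 * p.C5 ≤ (2 : ℝ) ^ (9 : ℝ) * (2 : ℝ) ^ (h / 100) := by
    have e5 : (2 : ℝ) ^ (9 : ℝ) = 512 := by
      have : (9 : ℝ) = ((9 : ℕ) : ℝ) := by norm_num
      rw [this, Real.rpow_natCast]
      norm_num
    rw [e5]
    have e6 : 0 < (2 : ℝ) ^ (h / 100) := by positivity
    unfold Par.C5
    linarith
  have hC50 : 0 ≤ p.C5 := phi_C5_nonneg p
  calc 16 * p.C5 * (((((p.act s).filter (fun l => p.tau l ≤ p.tau k)).card : ℝ)) +
      ((p.tr s).card : ℝ) + h)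
      ≤ ((2 : ℝ) ^ (9 : ℝ) * (2 : ℝ) ^ (h / 100)) * (3 * (2 : ℝ) ^ (3 / 100 * y)) := by
        refine mul_le_mul hC5 (by linarith) ?_ (by positivity)
        have : 0 ≤ h := by linarith
        positivity
    _ ≤ ((2 : ℝ) ^ (9 : ℝ) * (2 : ℝ) ^ (h / 100)) * ((2 : ℝ) ^ (2 : ℝ) *
        (2 : ℝ) ^ (3 / 100 * y)) := by
        gcongr
        have : (2 : ℝ) ^ (2 : ℝ) = 4 := by
          have h2 : (2 : ℝ) = ((2 : ℕ) : ℝ) := by norm_num
          nth_rewrite 2 [h2]
          rw [Real.rpow_natCast]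
          norm_num
        rw [this]
        norm_num
    _ = (2 : ℝ) ^ (9 + h / 100 + (2 + 3 / 100 * y)) := by
        rw [Real.rpow_add two_pos, Real.rpow_add two_pos, Real.rpow_add two_pos]
    _ ≤ (2 : ℝ) ^ (3 / 4 * (y - h)) := by
        apply Real.rpow_le_rpow_of_exponent_le one_le_two
        linarith

/-- the error of the healed split over the levels -/
theorem phi_h4 (R : Raw p v s V x y) (I : p.Inv v s V x y Lx Ly ε) {j : ℕ} (h0 : 0 < j)
    (h1 : j < 2 ^ p.hs s) {g : ℝ} (hg : (s : ℝ) ≤ g) :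
    ∑ k ∈ (p.act s).filter (fun k => p.tau k < g),
      (|(R.xi j (fun a => v a k) - R.e j k) + (∑ a ∈ R.U j, p.bet v s (R.w j) a * v a k
        - if k ∈ p.act s then R.w j k * p.mu (s + p.hs s) k else 0)| + |R.e j k|) ^ 2 ≤
      p.C5 * ((((p.act s).filter (fun k => p.tau k < g)).card : ℝ) + ((p.tr s).card : ℝ) +
        (p.hs s : ℝ)) := by
  set A := (p.act s).filter (fun k => p.tau k < g) with hA
  set D : Fin d → ℝ := fun k => ∑ a ∈ R.U j, p.bet v s (R.w j) a * v a k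
        - if k ∈ p.act s then R.w j k * p.mu (s + p.hs s) k else 0 with hD
  have hsub : A ⊆ p.lev s g := phi_sub_lev p s g
  set L : ℝ := ((p.lev s g).card : ℝ) + 3 * (p.hs s : ℝ) with hL
  have hh2 : (2000 : ℝ) ≤ p.hs s := p.hs_ge s
  have hCR := p.hCR
  have hlev0 : (0 : ℝ) ≤ ((p.lev s g).card : ℝ) := Nat.cast_nonneg _
  have hL0 : 0 ≤ L := by rw [hL]; linarith
  have a1 : n2 (p.lev s g) (fun k => R.xi j (fun a => v a k) - R.e j k) ≤ √(p.CR * L) :=
    n2_le_sqrt (R.ediff j h1.le g hg)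
  have a2 : n2 (p.lev s g) (fun k => R.e j k) ≤ √(p.CR * L) :=
    n2_le_sqrt (R.e_le j h1.le g hg)
  have a3 : n2 (p.lev s g) D ≤ √(p.CR * L) := by
    refine (drift_le R I h0 h1 hg).trans ?_
    have b1 : (2 : ℝ) ^ (-(2 * (p.hs s : ℝ))) ≤ 1 :=
      Real.rpow_le_one_of_one_le_of_nonpos one_le_two (by linarith)
    have b2 : √(1 + ((p.lev s g).card : ℝ)) ≤ √(p.CR * L) := by
      apply Real.sqrt_le_sqrt
      rw [hL]
      nlinarith
    calc (2 : ℝ) ^ (-(2 * (p.hs s : ℝ))) * √(1 + ((p.lev s g).card : ℝ))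
        ≤ 1 * √(p.CR * L) := mul_le_mul b1 b2 (Real.sqrt_nonneg _) zero_le_one
      _ = √(p.CR * L) := one_mul _
  have b0 : n2 A (fun k => |(R.xi j (fun a => v a k) - R.e j k) + D k| + |R.e j k|) ≤
      3 * √(p.CR * L) := by
    have c1 := n2_add_le A (fun k => |(R.xi j (fun a => v a k) - R.e j k) + D k|)
      (fun k => |R.e j k|)
    have c2 : n2 A (fun k => |(R.xi j (fun a => v a k) - R.e j k) + D k|) ≤
        √(p.CR * L) + √(p.CR * L) := by
      rw [n2_abs A (fun k => (R.xi j (fun a => v a k) - R.e j k) + D k)]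
      refine (n2_add_le A (fun k => R.xi j (fun a => v a k) - R.e j k) D).trans ?_
      exact add_le_add ((n2_mono hsub _).trans a1) ((n2_mono hsub _).trans a3)
    have c3 : n2 A (fun k => |R.e j k|) ≤ √(p.CR * L) := by
      rw [n2_abs A (fun k => R.e j k)]
      exact (n2_mono hsub _).trans a2
    linarith
  rw [n2_le_iff (by positivity)] at b0
  refine b0.trans ?_
  rw [mul_pow, Real.sq_sqrt (by positivity), hL, p.card_lev_le s hg]
  have hn : p.nact s g = (A.card : ℝ) := rfl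
  rw [hn]
  unfold Par.C5
  have hA0 : (0 : ℝ) ≤ (A.card : ℝ) := Nat.cast_nonneg _
  have hT0 : (0 : ℝ) ≤ ((p.tr s).card : ℝ) := Nat.cast_nonneg _
  nlinarith [mul_nonneg (by linarith : (0 : ℝ) ≤ p.CR) hA0,
    mul_nonneg (by linarith : (0 : ℝ) ≤ p.CR) hT0]

theorem child_phi (hv : ∀ a, ∑ k, v a k ^ 2 ≤ 1) (R : Raw p v s V x y)
    (I : p.Inv v s V x y Lx Ly ε) {j : ℕ} (hj : j ≤ 2 ^ p.hs s) {g : ℝ}
    (hg : ((s + p.hs s : ℕ) : ℝ) ≤ g) :
    ∑ k ∈ p.below g, LL R Lx Ly j k ^ 2 ≤ p.C1 * ((p.below g).card + p.HH (s + p.hs s)) := by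
  have hsg : (s : ℝ) ≤ g := by
    refine le_trans ?_ hg
    push_cast
    linarith [p.hs_ge s]
  have hK : (0 : ℝ) < (2 : ℝ) ^ p.hs s := by positivity
  rcases Nat.eq_zero_or_pos j with h0 | h0
  · -- left end
    have hLL : ∀ k, LL R Lx Ly j k = Lx k := by
      intro k
      unfold LL
      split_ifs with hk
      · rw [h0, zz_zero, I.actx k hk]
      · rw [h0]; simp
    simp only [hLL]
    exact phi_end (I.phx g hsg)
  rcases hj.eq_or_lt with h1 | h1
  · -- right end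
    have hLL : ∀ k, LL R Lx Ly j k = Ly k := by
      intro k
      unfold LL
      split_ifs with hk
      · rw [h1, zz_top R I.sum, I.acty k hk]
      · rw [h1]
        push_cast
        rw [div_self hK.ne']
        ring
    simp only [hLL]
    exact phi_end (I.phy g hsg)
  -- interior boundaries
  set t : ℝ := (j : ℝ) / 2 ^ p.hs s with ht
  have ht0 : 0 ≤ t := by positivity
  have ht1 : t ≤ 1 := by
    rw [ht, div_le_one hK]
    exact_mod_cast h1.le
  set D : Fin d → ℝ := fun k => ∑ a ∈ R.U j, p.bet v s (R.w j) a * v a k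
        - if k ∈ p.act s then R.w j k * p.mu (s + p.hs s) k else 0 with hD
  have hstep := p.HH_step s
  have hW := Wt_nonneg p.σ (s : ℝ)
  have hT0 : (0 : ℝ) ≤ ((p.tr s).card : ℝ) := Nat.cast_nonneg _
  have hmu : ∀ k, 0 < p.mu (s + p.hs s) k := fun k => p.mu_pos _ k
  have key := heal_step (κ := Fin d) p.tau hsg
    (fun k => (1 - t) * Lx k + t * Ly k) (LL R Lx Ly j)
    (fun k => (p.mu (s + p.hs s) k) ^ (3 / 8 : ℝ))
    (fun k => (1 - t) * x k + t * y k + R.e j k)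
    (fun k => |(R.xi j (fun a => v a k) - R.e j k) + D k|) (fun k => |R.e j k|)
    (C1 := p.C1) (C5 := p.C5) (H := p.HH s) (H' := p.HH (s + p.hs s))
    (T := ((p.tr s).card : ℝ)) (h := (p.hs s : ℝ)) (phi_C5_nonneg p) (phi_C5_le_C1 p) hT0
    (Nat.cast_nonneg _) (phi_HH_mono p s) ?_ (fun k => abs_nonneg _) (fun k => abs_nonneg _)
    (fun k => Real.rpow_nonneg (hmu k).le _) ?_ ?_ ?_ ?_ ?_ ?_
  · exact key
  · -- h1
    intro g' hg'
    have c1 := I.phx g' hg'
    have c2 := I.phy g' hg'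
    unfold Par.below at c1 c2
    have c3 : ∀ k, ((1 - t) * Lx k + t * Ly k) ^ 2 ≤ (1 - t) * Lx k ^ 2 + t * Ly k ^ 2 := by
      intro k
      nlinarith [mul_nonneg (mul_nonneg ht0 (by linarith : 0 ≤ 1 - t)) (sq_nonneg (Lx k - Ly k))]
    calc ∑ k ∈ univ.filter (fun k => p.tau k < g'), ((1 - t) * Lx k + t * Ly k) ^ 2
        ≤ ∑ k ∈ univ.filter (fun k => p.tau k < g'), ((1 - t) * Lx k ^ 2 + t * Ly k ^ 2) :=
          Finset.sum_le_sum fun k _ => c3 k
      _ = (1 - t) * ∑ k ∈ univ.filter (fun k => p.tau k < g'), Lx k ^ 2 +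
          t * ∑ k ∈ univ.filter (fun k => p.tau k < g'), Ly k ^ 2 := by
          rw [Finset.sum_add_distrib, Finset.mul_sum, Finset.mul_sum]
      _ ≤ (1 - t) * (p.C1 * (((univ.filter (fun k => p.tau k < g')).card : ℝ) + p.HH s)) +
          t * (p.C1 * (((univ.filter (fun k => p.tau k < g')).card : ℝ) + p.HH s)) :=
          add_le_add (mul_le_mul_of_nonneg_left c1 (by linarith))
            (mul_le_mul_of_nonneg_left c2 ht0)
      _ = p.C1 * (((univ.filter (fun k => p.tau k < g')).card : ℝ) + p.HH s) := by ring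
  · -- h2
    intro k hk
    have hact : k ∈ p.act s := p.mem_act.2 hk
    have c1 : LL R Lx Ly j k = zz R j k := by
      unfold LL
      rw [if_pos hact]
    have c2 := R.xi_eq j (fun a => v a k)
    have c3 := R.heal j h0 h1 k hact
    have c4 : R.w j k * p.mu (s + p.hs s) k = -Par.clip ((1 - t) * x k + t * y k + R.e j k)
        ((p.mu (s + p.hs s) k) ^ (3 / 8 : ℝ)) := by
      rw [c3, div_mul_cancel₀ _ (hmu k).ne']
    have c5 : D k = ∑ a ∈ R.U j, p.bet v s (R.w j) a * v a k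
        - R.w j k * p.mu (s + p.hs s) k := by
      rw [hD]
      simp only [if_pos hact]
    refine le_of_eq ?_
    congr 1
    rw [c1, zz_eq R I.sum, c5, c4, c2]
    ring
  · -- h3
    intro k hk
    have hact : k ∈ p.act s := p.mem_act.2 hk
    refine le_of_eq ?_
    congr 1
    rw [I.actx k hact, I.acty k hact]
    ring
  · -- h4
    intro g' hg'
    rw [phi_filter_eq]
    exact phi_h4 R I h0 h1 hg'
  · -- h5
    intro k hk
    rw [phi_filter_eq']
    exact phi_h5 (p.mem_act.2 hk)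
  · -- h6
    intro k hk
    have hact : k ∉ p.act s := by
      rw [p.mem_act]
      exact not_le.2 hk
    change LL R Lx Ly j k = _
    unfold LL
    rw [if_neg hact]
  · -- h7
    intro n hn
    have c1 := p.hs_le s
    have c2 := phi_C5_nonneg p
    have c3 : (0 : ℝ) ≤ p.h0 := Nat.cast_nonneg _
    have c4 : n + ((p.tr s).card : ℝ) + (p.hs s : ℝ) ≤
        ((p.h0 : ℝ) + 3) * (n + (p.HH (s + p.hs s) - p.HH s)) := by
      have c5 : ((p.tr s).card : ℝ) + Wt p.σ s ≤ p.HH (s + p.hs s) - p.HH s := by linarith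
      have c6 : ((p.h0 : ℝ) + 3) * (n + (((p.tr s).card : ℝ) + Wt p.σ s)) ≤
          ((p.h0 : ℝ) + 3) * (n + (p.HH (s + p.hs s) - p.HH s)) := by gcongr
      refine le_trans ?_ c6
      nlinarith [mul_nonneg c3 hT0, mul_nonneg c3 hW, mul_nonneg c3 (by linarith : 0 ≤ n - 1)]
    unfold Par.C1
    rw [mul_assoc]
    exact mul_le_mul_of_nonneg_left c4 c2

end Vale.Agent.P262F
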