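import Vale.Agent.Lib.P262F.Child
import Vale.Agent.Lib.P262F.ClockHH

/-! The potential of the errors. -/

namespace Vale.Agent.P262F

open Finset Real

variable {α : Type} {d : ℕ} {p : Par d} {v : α → Fin d → ℝ} {s : ℕ} {V : Finset α}
  {x y Lx Ly ε : Fin d → ℝ}

theorem pot_lev_self (p : Par d) (s : ℕ) : p.lev s (s : ℝ) = p.tr s := by
  ext k
  rw [p.mem_lev, p.mem_tr, and_comm]

theorem pot_n2_e (R : Raw p v s V x y) {j : ℕ} (hj : j ≤ 2 ^ p.hs s) :
    n2 (p.tr s) (R.e j) ≤ √(p.CR * ((p.tr s).card + 3 * p.hs s)) := by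
  have h := R.e_le j hj (s : ℝ) le_rfl
  rw [pot_lev_self] at h
  exact n2_le_sqrt h

theorem pot_n2_xi (R : Raw p v s V x y) {j : ℕ} (hj : j ≤ 2 ^ p.hs s) :
    n2 (p.tr s) (fun k => R.xi j (fun a => v a k))
      ≤ 2 * √(p.CR * ((p.tr s).card + 3 * p.hs s)) := by
  have h := R.ediff j hj (s : ℝ) le_rfl
  rw [pot_lev_self] at h
  have h1 := n2_le_sqrt h
  have h2 := pot_n2_e R hj
  have h3 := n2_add_le (p.tr s) (fun k => R.xi j (fun a => v a k) - R.e j k) (R.e j)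
  have h4 : (fun k => R.xi j (fun a => v a k) - R.e j k + R.e j k)
      = fun k => R.xi j (fun a => v a k) := by
    funext k; ring
  rw [h4] at h3
  linarith

theorem pot_n2_dvf (R : Raw p v s V x y) (I : p.Inv v s V x y Lx Ly ε) {j : ℕ}
    (hj : j ≤ 2 ^ p.hs s) :
    n2 (p.tr s) (fun k => dvf V (p.hs s) R.c j (fun a => v a k))
      ≤ 3 * √(p.CR * ((p.tr s).card + 3 * p.hs s)) := by
  have h1 := pot_n2_xi R hj
  have h2 := drift_tr_le R I hj
  have h3 := n2_add_le (p.tr s) (fun k => R.xi j (fun a => v a k))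
    (fun k => ∑ a ∈ R.U j, p.bet v s (R.w j) a * v a k)
  have h4 : (fun k => R.xi j (fun a => v a k) + ∑ a ∈ R.U j, p.bet v s (R.w j) a * v a k)
      = fun k => dvf V (p.hs s) R.c j (fun a => v a k) := by
    funext k
    rw [R.xi_eq]
    ring
  rw [h4] at h3
  have h5 : (2 : ℝ) ^ (-(2 * (p.hs s : ℝ))) * √(1 + (p.tr s).card)
      ≤ √(p.CR * ((p.tr s).card + 3 * p.hs s)) := by
    have hh := p.hs_ge s
    have a1 : (2 : ℝ) ^ (-(2 * (p.hs s : ℝ))) ≤ 1 := by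
      apply Real.rpow_le_one_of_one_le_of_nonpos (by norm_num)
      linarith
    have a2 : √(1 + ((p.tr s).card : ℝ)) ≤ √(p.CR * ((p.tr s).card + 3 * p.hs s)) := by
      apply Real.sqrt_le_sqrt
      have hc := p.hCR
      have hn : (0 : ℝ) ≤ (p.tr s).card := Nat.cast_nonneg _
      nlinarith
    calc (2 : ℝ) ^ (-(2 * (p.hs s : ℝ))) * √(1 + (p.tr s).card)
        ≤ 1 * √(1 + (p.tr s).card) := mul_le_mul_of_nonneg_right a1 (Real.sqrt_nonneg _)
      _ = √(1 + (p.tr s).card) := one_mul _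
      _ ≤ _ := a2
  linarith

theorem pot_n2_hS (R : Raw p v s V x y) {j : ℕ} (hj : j ≤ 2 ^ p.hs s) :
    n2 (p.tr s) (fun k => R.xi j (p.hS v s k))
      ≤ 2 * √(p.CR * ((p.tr s).card + 3 * p.hs s)) := by
  have h1 := n2_le_sqrt (R.xi_hS j hj)
  have h2 : √(4 * p.CR * ((p.tr s).card + 3 * p.hs s))
      = 2 * √(p.CR * ((p.tr s).card + 3 * p.hs s)) := by
    rw [mul_assoc, Real.sqrt_mul (by norm_num : (0 : ℝ) ≤ 4)]
    have : √(4 : ℝ) = 2 := by
      rw [show (4 : ℝ) = 2 ^ 2 by norm_num]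
      exact Real.sqrt_sq (by norm_num)
    rw [this]
  rw [h2] at h1
  exact h1

theorem pot_n2_zt (R : Raw p v s V x y) {j : ℕ} (hj : j ≤ 2 ^ p.hs s) :
    n2 (p.tr s) (R.zt j) ≤ 2 * √(p.CR * ((p.tr s).card + 3 * p.hs s)) := by
  have h1 := n2_le_sqrt (R.zt_le j hj)
  have h2 : √(4 * p.CR * ((p.tr s).card + 3 * p.hs s))
      = 2 * √(p.CR * ((p.tr s).card + 3 * p.hs s)) := by
    rw [mul_assoc, Real.sqrt_mul (by norm_num : (0 : ℝ) ≤ 4)]
    have : √(4 : ℝ) = 2 := by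
      rw [show (4 : ℝ) = 2 ^ 2 by norm_num]
      exact Real.sqrt_sq (by norm_num)
    rw [this]
  rw [h2] at h1
  exact h1

theorem fresh_le (hv : ∀ a, ∑ k, v a k ^ 2 ≤ 1) (R : Raw p v s V x y)
    (I : p.Inv v s V x y Lx Ly ε) {j : ℕ} (hj : j < 2 ^ p.hs s) :
    ∑ k ∈ p.tr s, (pErr R j k + hErr R j k) ^ 2 ≤ p.C6 * ((p.tr s).card + p.hs s) := by
  have hj0 : j ≤ 2 ^ p.hs s := hj.le
  have hj1 : j + 1 ≤ 2 ^ p.hs s := hj
  set J := p.tr s with hJ
  set Q := p.CR * ((J.card : ℝ) + 3 * p.hs s) with hQ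
  have hQ0 : 0 ≤ Q := by
    have hc := p.hCR
    have : (0 : ℝ) ≤ p.CR := by linarith
    positivity
  set f1 : Fin d → ℝ := fun k => dvf V (p.hs s) R.c j (fun a => v a k) with hf1
  set f2 : Fin d → ℝ := fun k => dvf V (p.hs s) R.c (j + 1) (fun a => v a k) with hf2
  set f3 : Fin d → ℝ := fun k => R.xi j (p.hS v s k) with hf3
  set f4 : Fin d → ℝ := fun k => R.xi (j + 1) (p.hS v s k) with hf4
  have b1 : n2 J f1 ≤ 3 * √Q := pot_n2_dvf R I hj0
  have b2 : n2 J f2 ≤ 3 * √Q := pot_n2_dvf R I hj1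
  have b3 : n2 J f3 ≤ 2 * √Q := pot_n2_hS R hj0
  have b4 : n2 J f4 ≤ 2 * √Q := pot_n2_hS R hj1
  have b5 : n2 J (R.zt j) ≤ 2 * √Q := pot_n2_zt R hj0
  have b6 : n2 J (R.zt (j + 1)) ≤ 2 * √Q := pot_n2_zt R hj1
  have e1 : (fun k => pErr R j k + hErr R j k) = fun k =>
      (2 * |f1 k| + |f2 k|) + (((|f3 k| + |f4 k|) + R.zt j k) + R.zt (j + 1) k) := by
    funext k
    rfl
  have t1 := n2_add_le J (fun k => 2 * |f1 k| + |f2 k|)
    (fun k => ((|f3 k| + |f4 k|) + R.zt j k) + R.zt (j + 1) k)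
  have t2 := n2_add_le J (fun k => 2 * |f1 k|) (fun k => |f2 k|)
  have t3 := n2_add_le J (fun k => (|f3 k| + |f4 k|) + R.zt j k) (R.zt (j + 1))
  have t4 := n2_add_le J (fun k => |f3 k| + |f4 k|) (R.zt j)
  have t5 := n2_add_le J (fun k => |f3 k|) (fun k => |f4 k|)
  have t6 := n2_smul J 2 (fun k => |f1 k|)
  rw [n2_abs] at t2 t6
  rw [n2_abs, n2_abs] at t5
  have t7 : |(2 : ℝ)| = 2 := abs_of_pos (by norm_num)
  rw [t7] at t6
  have key : n2 J (fun k => pErr R j k + hErr R j k) ≤ 17 * √Q := by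
    rw [e1]
    linarith
  have hsq := (n2_le_iff (by positivity)).1 key
  have h17 : (17 * √Q) ^ 2 = 289 * Q := by
    rw [mul_pow, Real.sq_sqrt hQ0]
    norm_num
  rw [h17] at hsq
  refine hsq.trans ?_
  rw [hQ, Par.C6]
  have hc := p.hCR
  have hn : (0 : ℝ) ≤ J.card := Nat.cast_nonneg _
  have hh := p.hs_ge s
  have hc0 : (0 : ℝ) ≤ p.CR := by linarith
  have h1 : 289 * ((J.card : ℝ) + 3 * p.hs s) ≤ 1000 * ((J.card : ℝ) + p.hs s) := by linarith
  calc 289 * (p.CR * ((J.card : ℝ) + 3 * p.hs s)) = p.CR * (289 * ((J.card : ℝ) + 3 * p.hs s)) := by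
        ring
    _ ≤ p.CR * (1000 * ((J.card : ℝ) + p.hs s)) := mul_le_mul_of_nonneg_left h1 hc0
    _ = 1000 * p.CR * ((J.card : ℝ) + p.hs s) := by ring

/-- the scalar inequality of the potential -/
theorem pot_titu {e f r r' : ℝ} (hr : 1 ≤ r) (h : r + 9 / 10 ≤ r') :
    (e + f) ^ 2 / r' ≤ e ^ 2 / r + 10 / 9 * f ^ 2 := by
  have hr0 : 0 < r := by linarith
  have h1 : 0 < r' := by linarith
  have h2 : (e + f) ^ 2 / r' ≤ (e + f) ^ 2 / (r + 9 / 10) :=
    div_le_div_of_nonneg_left (sq_nonneg _) (by linarith) h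
  refine h2.trans ?_
  rw [div_le_iff₀ (by linarith)]
  have h3 : (e ^ 2 / r + 10 / 9 * f ^ 2) * (r + 9 / 10)
      = e ^ 2 + 9 / 10 * (e ^ 2 / r) + 10 / 9 * r * f ^ 2 + f ^ 2 := by
    field_simp
    ring
  rw [h3]
  have h4 : 0 ≤ (3 * e / √(10 * r) - √(10 * r) / 3 * f) ^ 2 := sq_nonneg _
  have h5 : √(10 * r) ^ 2 = 10 * r := Real.sq_sqrt (by linarith)
  have h6 : √(10 * r) ≠ 0 := by
    have : 0 < √(10 * r) := Real.sqrt_pos.2 (by linarith)
    exact this.ne'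
  have h7 : (3 * e / √(10 * r) - √(10 * r) / 3 * f) ^ 2
      = 9 * e ^ 2 / √(10 * r) ^ 2 - 2 * e * f + √(10 * r) ^ 2 / 9 * f ^ 2 := by
    field_simp
    ring
  rw [h7, h5] at h4
  have h8 : 9 * e ^ 2 / (10 * r) = 9 / 10 * (e ^ 2 / r) := by
    field_simp
  rw [h8] at h4
  linarith

theorem child_pot (hv : ∀ a, ∑ k, v a k ^ 2 ≤ 1) (R : Raw p v s V x y)
    (I : p.Inv v s V x y Lx Ly ε) {j : ℕ} (hj : j < 2 ^ p.hs s) :
    ∑ k ∈ (p.act (s + p.hs s))ᶜ, ee R ε j k ^ 2 / p.rr (s + p.hs s) k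
      ≤ p.C7 * p.HH (s + p.hs s) := by
  classical
  have hsub : (p.act s)ᶜ ⊆ (p.act (s + p.hs s))ᶜ :=
    Finset.compl_subset_compl.2 (p.act_anti s (p.hs s))
  have e1 : ∑ k ∈ (p.act (s + p.hs s))ᶜ, ee R ε j k ^ 2 / p.rr (s + p.hs s) k
      = ∑ k ∈ (p.act s)ᶜ, ee R ε j k ^ 2 / p.rr (s + p.hs s) k := by
    symm
    apply Finset.sum_subset hsub
    intro k _ hk
    have hk' : k ∈ p.act s := by
      by_contra h
      exact hk (Finset.mem_compl.2 h)
    unfold ee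
    rw [if_pos hk']
    simp
  rw [e1]
  set F : Fin d → ℝ := fun k => if k ∈ p.tr s then (pErr R j k + hErr R j k) ^ 2 else 0 with hF
  have step : ∀ k ∈ (p.act s)ᶜ, ee R ε j k ^ 2 / p.rr (s + p.hs s) k
      ≤ ε k ^ 2 / p.rr s k + 10 / 9 * F k := by
    intro k hk
    have hka : k ∉ p.act s := Finset.mem_compl.1 hk
    unfold ee
    rw [if_neg hka]
    by_cases ht : k ∈ p.tr s
    · rw [if_pos ht, hF]
      simp only [if_pos ht]
      exact pot_titu (p.one_le_rr s k) (p.rr_step ht)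
    · rw [if_neg ht, hF]
      simp only [if_neg ht, mul_zero, add_zero]
      have h1 := p.one_le_rr s k
      exact div_le_div_of_nonneg_left (sq_nonneg _) (by linarith) (p.rr_mono s (p.hs s) k)
  refine (Finset.sum_le_sum step).trans ?_
  rw [Finset.sum_add_distrib, ← Finset.mul_sum]
  have hpot := I.pot
  have hFs : ∑ k ∈ (p.act s)ᶜ, F k = ∑ k ∈ p.tr s, (pErr R j k + hErr R j k) ^ 2 := by
    rw [hF, ← Finset.sum_filter]
    apply Finset.sum_congr _ (fun _ _ => rfl)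
    ext k
    rw [Finset.mem_filter, Finset.mem_compl]
    exact ⟨fun h => h.2, fun h => ⟨fun h' => p.act_not_tr h' h, h⟩⟩
  rw [hFs]
  have hfr := fresh_le hv R I hj
  have hstep := p.HH_step s
  have hW := Wt_nonneg p.σ s
  have hc := p.hCR
  have hc0 : (0 : ℝ) ≤ p.CR := by linarith
  have hC6 : 0 ≤ p.C6 := by unfold Par.C6; positivity
  have hC7 : 0 ≤ p.C7 := by unfold Par.C7; positivity
  rcases (p.tr s).eq_empty_or_nonempty with he | hne
  · rw [he, Finset.sum_empty]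
    have hn : (0 : ℝ) ≤ (p.tr s).card := Nat.cast_nonneg _
    have h1 : p.HH s ≤ p.HH (s + p.hs s) := by linarith
    have h2 := mul_le_mul_of_nonneg_left h1 hC7
    linarith
  · have hn : (1 : ℝ) ≤ (p.tr s).card := by
      exact_mod_cast Finset.card_pos.2 hne
    have hh := p.hs_le s
    have h0 : (0 : ℝ) ≤ p.h0 := Nat.cast_nonneg _
    have h1 : ((p.tr s).card : ℝ) + p.hs s ≤ (p.h0 + 2) * ((p.tr s).card + Wt p.σ s) := by
      nlinarith
    have h2 : 10 / 9 * ∑ k ∈ p.tr s, (pErr R j k + hErr R j k) ^ 2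
        ≤ p.C7 * ((p.tr s).card + Wt p.σ s) := by
      calc 10 / 9 * ∑ k ∈ p.tr s, (pErr R j k + hErr R j k) ^ 2
          ≤ 10 / 9 * (p.C6 * ((p.tr s).card + p.hs s)) :=
            mul_le_mul_of_nonneg_left hfr (by norm_num)
        _ ≤ 2 * (p.C6 * ((p.tr s).card + p.hs s)) := by
            apply mul_le_mul_of_nonneg_right (by norm_num)
            positivity
        _ ≤ 2 * (p.C6 * ((p.h0 + 2) * ((p.tr s).card + Wt p.σ s))) := by
            apply mul_le_mul_of_nonneg_left _ (by norm_num)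
            exact mul_le_mul_of_nonneg_left h1 hC6
        _ = p.C7 * ((p.tr s).card + Wt p.σ s) := by unfold Par.C7; ring
    have h3 := mul_le_mul_of_nonneg_left hstep hC7
    rw [mul_add] at h3
    linarith

end Vale.Agent.P262F
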