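import Vale.Agent.Lib.P262F.BP

open MeasureTheory ProbabilityTheory Set

namespace Vale.Agent.P262F

theorem integrable_exp_sq_quarter :
    Integrable (fun x : ℝ => Real.exp (1 / 4 * x ^ 2)) (gaussianReal 0 1) := by
  rw [gaussianReal_of_var_ne_zero 0 one_ne_zero, integrable_withDensity_iff
    (measurable_gaussianPDF 0 1) (Filter.Eventually.of_forall fun x => gaussianPDF_lt_top)]
  have h1 : Integrable (fun x : ℝ => (Real.sqrt (2 * Real.pi))⁻¹ * Real.exp (-(1 / 4) * x ^ 2)) :=
    (integrable_exp_neg_mul_sq (by norm_num)).const_mul _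
  refine h1.congr (Filter.Eventually.of_forall fun x => ?_)
  simp only [toReal_gaussianPDF, gaussianPDFReal, NNReal.coe_one, mul_one, sub_zero]
  rw [mul_left_comm, ← Real.exp_add]
  congr 2
  ring

theorem integral_exp_sq_quarter :
    ∫ x, Real.exp (1 / 4 * x ^ 2) ∂(gaussianReal 0 1) = Real.sqrt 2 := by
  rw [integral_gaussianReal_eq_integral_smul one_ne_zero]
  have h1 : ∀ x : ℝ, gaussianPDFReal 0 1 x • Real.exp (1 / 4 * x ^ 2) =
      (Real.sqrt (2 * Real.pi))⁻¹ * Real.exp (-(1 / 4) * x ^ 2) := by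
    intro x
    simp only [gaussianPDFReal, NNReal.coe_one, mul_one, sub_zero, smul_eq_mul]
    rw [mul_assoc, ← Real.exp_add]
    congr 2
    ring
  simp_rw [h1]
  rw [integral_const_mul, integral_gaussian]
  have h2 : Real.pi / (1 / 4) = (2 * Real.pi) * 2 := by ring
  have h3 : (0 : ℝ) < Real.sqrt (2 * Real.pi) := Real.sqrt_pos.2 (by positivity)
  rw [h2, Real.sqrt_mul (show (0 : ℝ) ≤ 2 * Real.pi by positivity) 2, ← mul_assoc,
    inv_mul_cancel₀ h3.ne', one_mul]

/-- Chi-square tail for the standard Gaussian measure. -/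
theorem chi_tail {ι : Type} [Fintype ι] (J : Finset ι) {r : ℝ} (hr : 0 ≤ r) :
    (stdGaussian (EuclideanSpace ℝ ι)).real {x | 6 * ((J.card : ℝ) + r) < ∑ j ∈ J, x j ^ 2}
      ≤ Real.exp (-((J.card : ℝ) + r)) := by
  classical
  set R : ℝ := (J.card : ℝ) + r with hR
  have hmeas : MeasurableSet {x : EuclideanSpace ℝ ι | 6 * R < ∑ j ∈ J, x j ^ 2} := by
    apply measurableSet_lt measurable_const
    fun_prop
  rw [← map_pi_eq_stdGaussian, map_measureReal_apply (by fun_prop) hmeas]
  set μ : Measure (ι → ℝ) := Measure.pi fun _ => gaussianReal 0 1 with hμ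
  let g : ι → ℝ → ℝ := fun i t => if i ∈ J then Real.exp (1 / 4 * t ^ 2) else 1
  have hg : ∀ x : ι → ℝ, ∏ i, g i (x i) = Real.exp (1 / 4 * ∑ j ∈ J, x j ^ 2) := by
    intro x
    simp only [g]
    rw [Finset.prod_ite_mem, Finset.univ_inter, ← Real.exp_sum, Finset.mul_sum]
  have hint1 : ∀ i, Integrable (g i) (gaussianReal 0 1) := by
    intro i
    simp only [g]
    split_ifs
    · exact integrable_exp_sq_quarter
    · exact integrable_const _
  have hint : Integrable (fun x : ι → ℝ => ∏ i, g i (x i)) μ := Integrable.fintype_prod hint1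
  have hval : ∫ x, ∏ i, g i (x i) ∂μ = Real.sqrt 2 ^ J.card := by
    rw [hμ, integral_fintype_prod_eq_prod]
    have h1 : ∀ i, ∫ t, g i t ∂(gaussianReal 0 1) = if i ∈ J then Real.sqrt 2 else 1 := by
      intro i
      simp only [g]
      split_ifs
      · exact integral_exp_sq_quarter
      · simp
    simp_rw [h1]
    rw [Finset.prod_ite_mem, Finset.univ_inter, Finset.prod_const]
  have hmarkov := mul_meas_ge_le_integral_of_nonneg (μ := μ)
    (f := fun x : ι → ℝ => ∏ i, g i (x i))
    (Filter.Eventually.of_forall fun x => by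
      change (0 : ℝ) ≤ ∏ i, g i (x i)
      rw [hg]; exact (Real.exp_pos _).le) hint (Real.exp (3 / 2 * R))
  rw [hval] at hmarkov
  have hsub : μ.real ((WithLp.toLp 2 : (ι → ℝ) → EuclideanSpace ℝ ι) ⁻¹'
      {x : EuclideanSpace ℝ ι | 6 * R < ∑ j ∈ J, x j ^ 2}) ≤
      μ.real {x | Real.exp (3 / 2 * R) ≤ ∏ i, g i (x i)} := by
    apply measureReal_mono
    · intro x hx
      simp only [mem_preimage, mem_ofPred_eq] at hx ⊢
      rw [hg]
      apply Real.exp_le_exp.2
      linarith
    · exact measure_ne_top _ _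
  refine hsub.trans ?_
  have hE := Real.exp_pos (3 / 2 * R)
  have h3 : μ.real {x | Real.exp (3 / 2 * R) ≤ ∏ i, g i (x i)} ≤
      Real.sqrt 2 ^ J.card / Real.exp (3 / 2 * R) := by
    rw [le_div_iff₀ hE, mul_comm]
    exact hmarkov
  refine h3.trans ?_
  rw [div_le_iff₀ hE, ← Real.exp_add]
  have h4 : Real.sqrt 2 ≤ Real.exp (1 / 2) := by
    rw [Real.sqrt_le_left (Real.exp_pos _).le, ← Real.exp_nat_mul]
    have := Real.add_one_le_exp (1 : ℝ)
    norm_num
    linarith
  calc Real.sqrt 2 ^ J.card ≤ Real.exp (1 / 2) ^ J.card :=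
        pow_le_pow_left₀ (Real.sqrt_nonneg _) h4 _
    _ = Real.exp (J.card * (1 / 2)) := by rw [← Real.exp_nat_mul]
    _ ≤ Real.exp (-R + 3 / 2 * R) := by
        apply Real.exp_le_exp.2
        rw [hR]
        linarith

/-- Prefix signing with control of many coordinate blocks at the times in `T`. -/
theorem prefix_round : ∃ C : ℝ, 1 ≤ C ∧ ∀ {ι I : Type} [Fintype ι] [DecidableEq ι] [Fintype I]
    (N : ℕ) (u : Fin N → ι → ℝ), (∀ a, ∑ j, u a j ^ 2 ≤ 1) →
    ∀ (J : I → Finset ι) (r : I → ℝ), (∀ i, 0 ≤ r i) →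
    ∀ (T : Finset ℕ), (T.card : ℝ) * ∑ i, Real.exp (-(((J i).card : ℝ) + r i)) ≤ 1 / 2 →
    ∃ ε : Fin N → ℝ, (∀ a, ε a = 1 ∨ ε a = -1) ∧
      ∀ m ∈ T, ∀ i, ∑ j ∈ J i, (∑ a ∈ Finset.univ.filter (fun a : Fin N => (a : ℕ) < m), ε a * u a j) ^ 2
        ≤ C * (((J i).card : ℝ) + r i) := by
  classical
  refine ⟨2400, by norm_num, ?_⟩
  intro ι I _ _ _ N u hu J r hr T hT
  let u' : Fin N → EuclideanSpace ℝ ι := fun a => WithLp.toLp 2 (fun j => u a j / 20)
  have hu'j : ∀ a j, u' a j = u a j / 20 := fun a j => rfl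
  have hu' : ∀ a, ‖u' a‖ ≤ 1 / 20 := by
    intro a
    rw [EuclideanSpace.norm_eq, Real.sqrt_le_left (by norm_num)]
    have h1 : ∑ j, ‖u' a j‖ ^ 2 = (1 / 400) * ∑ j, u a j ^ 2 := by
      rw [Finset.mul_sum]
      refine Finset.sum_congr rfl fun j _ => ?_
      rw [hu'j, Real.norm_eq_abs, sq_abs]
      ring
    rw [h1]
    have := hu a
    linarith
  set c : I → ℝ := fun i => 6 * (((J i).card : ℝ) + r i) with hc
  let A : Set (EuclideanSpace ℝ ι) := {x | ∀ i, ∑ j ∈ J i, x j ^ 2 ≤ c i}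
  have hAc : Convex ℝ A := by
    intro x hx y hy a b ha hb hab i
    have h1 : ∀ j ∈ J i, (a • x + b • y) j ^ 2 ≤ a * x j ^ 2 + b * y j ^ 2 := by
      intro j _
      have e : (a • x + b • y) j = a * x j + b * y j := rfl
      rw [e]
      have hb' : b = 1 - a := by linarith
      subst hb'
      nlinarith [mul_nonneg (mul_nonneg ha hb) (sq_nonneg (x j - y j))]
    calc ∑ j ∈ J i, (a • x + b • y) j ^ 2 ≤ ∑ j ∈ J i, (a * x j ^ 2 + b * y j ^ 2) :=
          Finset.sum_le_sum h1
      _ = a * ∑ j ∈ J i, x j ^ 2 + b * ∑ j ∈ J i, y j ^ 2 := by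
          rw [Finset.sum_add_distrib, Finset.mul_sum, Finset.mul_sum]
      _ ≤ a * c i + b * c i :=
          add_le_add (mul_le_mul_of_nonneg_left (hx i) ha) (mul_le_mul_of_nonneg_left (hy i) hb)
      _ = c i := by rw [← add_mul, hab, one_mul]
  have hAcl : IsClosed A := by
    have : A = ⋂ i, {x : EuclideanSpace ℝ ι | ∑ j ∈ J i, x j ^ 2 ≤ c i} := by
      ext x; simp [A]
    rw [this]
    refine isClosed_iInter fun i => ?_
    apply isClosed_le _ continuous_const
    fun_prop
  have hAs : ∀ x ∈ A, -x ∈ A := by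
    intro x hx i
    have := hx i
    have e : ∀ j, (-x) j = - x j := fun j => rfl
    simp only [e, neg_sq]
    exact this
  have hAmeas : MeasurableSet A := hAcl.measurableSet
  have hAγ : 1 - (stdGaussian (EuclideanSpace ℝ ι)).real A ≤
      ∑ i, Real.exp (-(((J i).card : ℝ) + r i)) := by
    rw [← probReal_compl_eq_one_sub hAmeas]
    have hsub : Aᶜ ⊆ ⋃ i ∈ (Finset.univ : Finset I),
        {x : EuclideanSpace ℝ ι | 6 * (((J i).card : ℝ) + r i) < ∑ j ∈ J i, x j ^ 2} := by
      intro x hx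
      simp only [A, mem_compl_iff, mem_ofPred_eq, not_forall, not_le] at hx
      obtain ⟨i, hi⟩ := hx
      simp only [Finset.mem_univ, iUnion_true, mem_iUnion, mem_ofPred_eq]
      exact ⟨i, hi⟩
    calc (stdGaussian (EuclideanSpace ℝ ι)).real Aᶜ
        ≤ (stdGaussian (EuclideanSpace ℝ ι)).real (⋃ i ∈ (Finset.univ : Finset I),
          {x : EuclideanSpace ℝ ι | 6 * (((J i).card : ℝ) + r i) < ∑ j ∈ J i, x j ^ 2}) :=
          measureReal_mono hsub (measure_ne_top _ _)
      _ ≤ ∑ i, (stdGaussian (EuclideanSpace ℝ ι)).real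
          {x : EuclideanSpace ℝ ι | 6 * (((J i).card : ℝ) + r i) < ∑ j ∈ J i, x j ^ 2} :=
          measureReal_biUnion_finset_le _ _
      _ ≤ _ := Finset.sum_le_sum fun i _ => chi_tail (J i) (hr i)
  set T' : Finset ℕ := T.image (fun t => min t N) with hT'
  let K : ℕ → Set (EuclideanSpace ℝ ι) := fun m => if m ∈ T' then A else univ
  have hsum0 : 0 ≤ ∑ i, Real.exp (-(((J i).card : ℝ) + r i)) :=
    Finset.sum_nonneg fun i _ => (Real.exp_pos _).le
  obtain ⟨ε, hε, hmem⟩ := prefix_bodies u' hu' K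
    (fun m => by
      simp only [K]; split_ifs
      · exact hAc
      · exact convex_univ)
    (fun m => by
      simp only [K]; split_ifs
      · exact hAcl
      · exact isClosed_univ)
    (fun m => by
      simp only [K]; split_ifs
      · exact hAs
      · exact fun _ _ => mem_univ _)
    (by
      have h1 : ∀ m ∈ Finset.range (N + 1), 1 - (stdGaussian (EuclideanSpace ℝ ι)).real (K m) ≤
          if m ∈ T' then ∑ i, Real.exp (-(((J i).card : ℝ) + r i)) else 0 := by
        intro m _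
        simp only [K]
        split_ifs
        · exact hAγ
        · rw [probReal_univ]; norm_num
      refine (Finset.sum_le_sum h1).trans ?_
      rw [← Finset.sum_filter, Finset.sum_const, nsmul_eq_mul]
      have h2 : ((Finset.range (N + 1)).filter (fun m => m ∈ T')).card ≤ T.card :=
        (Finset.card_le_card (fun m hm => (Finset.mem_filter.1 hm).2)).trans
          Finset.card_image_le
      refine le_trans ?_ hT
      apply mul_le_mul_of_nonneg_right _ hsum0
      exact_mod_cast h2)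
  refine ⟨ε, hε, fun m hm i => ?_⟩
  have hm' : min m N ∈ T' := by
    rw [hT', Finset.mem_image]
    exact ⟨m, hm, rfl⟩
  have h1 := hmem (min m N) (min_le_right _ _)
  simp only [K, if_pos hm'] at h1
  have hfilter : Finset.univ.filter (fun a : Fin N => (a : ℕ) < min m N) =
      Finset.univ.filter (fun a : Fin N => (a : ℕ) < m) := by
    ext a
    simp only [Finset.mem_filter, Finset.mem_univ, true_and, lt_min_iff]
    exact ⟨fun h => h.1, fun h => ⟨h, a.2⟩⟩
  rw [hfilter] at h1
  have h2 := h1 i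
  have h3 : ∀ j, (∑ a ∈ Finset.univ.filter (fun a : Fin N => (a : ℕ) < m), ε a • u' a) j =
      (∑ a ∈ Finset.univ.filter (fun a : Fin N => (a : ℕ) < m), ε a * u a j) / 20 := by
    intro j
    rw [WithLp.ofLp_sum, Finset.sum_apply, Finset.sum_div]
    refine Finset.sum_congr rfl fun a _ => ?_
    rw [WithLp.ofLp_smul, Pi.smul_apply, hu'j, smul_eq_mul]
    ring
  simp_rw [h3, div_pow] at h2
  rw [← Finset.sum_div, div_le_iff₀ (by norm_num)] at h2
  refine h2.trans (le_of_eq ?_)
  rw [hc]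
  ring

end Vale.Agent.P262F
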