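import Vale.Agent.Lib.P262F.ClockSum
import Vale.Agent.Lib.P262F.Blocks
import Vale.Agent.Lib.P262F.Fold

/-! Existence of the splitting data. -/

namespace Vale.Agent.P262F

open Finset Real

/-! ### Convex bodies given by quadratic constraints -/

/-- vectors satisfying `∑ j ∈ J i, z j ^ 2 ≤ R i` for all `i` -/
def rawBody {ι I : Type} (J : I → Finset ι) (R : I → ℝ) : Set (ι → ℝ) :=
  {z | ∀ i, ∑ j ∈ J i, z j ^ 2 ≤ R i}

theorem rawBody_iff {ι I : Type} {J : I → Finset ι} {R : I → ℝ} (hR : ∀ i, 0 ≤ R i)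
    {z : ι → ℝ} : z ∈ rawBody J R ↔ ∀ i, n2 (J i) z ≤ √(R i) := by
  constructor
  · intro h i
    exact n2_le_sqrt (h i)
  · intro h i
    have h1 := (n2_le_iff (Real.sqrt_nonneg (R i))).1 (h i)
    rwa [Real.sq_sqrt (hR i)] at h1

theorem rawBody_convex {ι I : Type} (J : I → Finset ι) {R : I → ℝ} (hR : ∀ i, 0 ≤ R i) :
    Convex ℝ (rawBody J R) := by
  intro z hz w hw a b ha hb hab
  rw [rawBody_iff hR] at hz hw ⊢
  intro i
  have h1 : n2 (J i) (a • z + b • w) ≤ n2 (J i) (fun k => a * z k) + n2 (J i) (fun k => b * w k) :=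
    n2_add_le (J i) (fun k => a * z k) (fun k => b * w k)
  rw [n2_smul, n2_smul, abs_of_nonneg ha, abs_of_nonneg hb] at h1
  have h2 := mul_le_mul_of_nonneg_left (hz i) ha
  have h3 := mul_le_mul_of_nonneg_left (hw i) hb
  calc n2 (J i) (a • z + b • w) ≤ a * √(R i) + b * √(R i) := by linarith
    _ = √(R i) := by rw [← add_mul, hab, one_mul]

theorem rawBody_closed {ι I : Type} (J : I → Finset ι) (R : I → ℝ) :
    IsClosed (rawBody J R) := by
  have : rawBody J R = ⋂ i, {z : ι → ℝ | ∑ j ∈ J i, z j ^ 2 ≤ R i} := by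
    ext z
    simp [rawBody]
  rw [this]
  refine isClosed_iInter fun i => ?_
  exact isClosed_le (by fun_prop) continuous_const

theorem rawBody_symm {ι I : Type} (J : I → Finset ι) (R : I → ℝ) :
    ∀ z ∈ rawBody J R, -z ∈ rawBody J R := by
  intro z hz i
  have := hz i
  simpa using this

theorem rawBody_add {ι I : Type} {J : I → Finset ι} {R : I → ℝ} (hR : ∀ i, 0 ≤ R i)
    {z w : ι → ℝ} (hz : z ∈ rawBody J R) (hw : w ∈ rawBody J R) :
    (fun j => z j + w j) ∈ rawBody J (fun i => 4 * R i) := by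
  rw [rawBody_iff hR] at hz hw
  rw [rawBody_iff fun i => mul_nonneg (by norm_num) (hR i)]
  intro i
  have h1 : √(4 * R i) = 2 * √(R i) := by
    rw [Real.sqrt_mul (by norm_num), show (4 : ℝ) = 2 ^ 2 by norm_num,
      Real.sqrt_sq (by norm_num)]
  rw [h1]
  have := n2_add_le (J i) z w
  linarith [hz i, hw i]

theorem rawBody_sub {ι I : Type} {J : I → Finset ι} {R : I → ℝ} (hR : ∀ i, 0 ≤ R i)
    {z w : ι → ℝ} (hz : z ∈ rawBody J R) (hw : w ∈ rawBody J R) :
    (fun j => z j - w j) ∈ rawBody J (fun i => 4 * R i) := by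
  have h := rawBody_add hR hz (rawBody_symm J R w hw)
  simpa [sub_eq_add_neg] using h

theorem rawBody_half {ι I : Type} {J : I → Finset ι} {R : I → ℝ} (hR : ∀ i, 0 ≤ R i)
    {z w : ι → ℝ} (hz : z ∈ rawBody J R) (hw : w ∈ rawBody J R) :
    (fun j => 1 / 2 * (z j + w j)) ∈ rawBody J R := by
  have h := rawBody_convex J hR hz hw (by norm_num : (0 : ℝ) ≤ 1 / 2)
    (by norm_num : (0 : ℝ) ≤ 1 / 2) (by norm_num)
  have h2 : (1 / 2 : ℝ) • z + (1 / 2 : ℝ) • w = fun j => 1 / 2 * (z j + w j) := by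
    funext j
    simp only [Pi.add_apply, Pi.smul_apply, smul_eq_mul]
    ring
  rwa [h2] at h

/-! ### Index types -/

/-- indices of the statistics: position, rows, light energies, light sums, heavy sums -/
abbrev RI (d : ℕ) : Type := Fin d ⊕ ((Fin d × Fin d) ⊕ (Fin d ⊕ (Fin d ⊕ Fin d)))

/-- indices of the constraints -/
abbrev RC {d : ℕ} (p : Par d) (s : ℕ) : Type :=
  Option (p.act s) ⊕ ((Option (p.act s) × (p.act s)) ⊕ (Unit ⊕ (((p.act s)ᶜ : Finset (Fin d)) ⊕
    (p.dead s))))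

def riPos {d : ℕ} : Fin d ↪ RI d := ⟨fun k => Sum.inl k, fun _ _ h => Sum.inl.inj h⟩

def riRow {d : ℕ} (l : Fin d) : Fin d ↪ RI d :=
  ⟨fun k => Sum.inr (Sum.inl (l, k)), fun _ _ h => by simpa using h⟩

def riHv {d : ℕ} : Fin d ↪ RI d :=
  ⟨fun k => Sum.inr (Sum.inr (Sum.inr (Sum.inr k))), fun _ _ h => by simpa using h⟩

section

variable {α : Type} {d : ℕ} (p : Par d) (v : α → Fin d → ℝ) (s : ℕ)

/-- the statistics -/
noncomputable def rawStat (a : α) : RI d → ℝ
  | Sum.inl k => v a k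
  | Sum.inr (Sum.inl (l, k)) => if l ∈ p.act s then v a l * v a k else 0
  | Sum.inr (Sum.inr (Sum.inl k)) =>
      if k ∉ p.act s then p.kap s k * (p.lE v s k a / p.thr s k) else 0
  | Sum.inr (Sum.inr (Sum.inr (Sum.inl k))) =>
      if k ∈ p.dead s then p.kap s k * (p.lS v s k a / √(p.thr s k)) else 0
  | Sum.inr (Sum.inr (Sum.inr (Sum.inr k))) => if k ∈ p.tr s then p.hS v s k a else 0

/-- level sets -/
noncomputable def rawLev : Option (p.act s) → Finset (Fin d)
  | none => p.tr s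
  | some k => univ.filter (fun l => p.xx s l < 40 * p.eta l ∧ p.tau l ≤ p.tau k)

/-- coordinates of the constraints -/
noncomputable def rawJ : RC p s → Finset (RI d)
  | Sum.inl i => (rawLev p s i).map riPos
  | Sum.inr (Sum.inl (i, l)) => (rawLev p s i).map (riRow (l : Fin d))
  | Sum.inr (Sum.inr (Sum.inl ())) => (p.tr s).map riHv
  | Sum.inr (Sum.inr (Sum.inr (Sum.inl k))) => {Sum.inr (Sum.inr (Sum.inl (k : Fin d)))}
  | Sum.inr (Sum.inr (Sum.inr (Sum.inr k))) =>
      {Sum.inr (Sum.inr (Sum.inr (Sum.inl (k : Fin d))))}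

/-- slacks of the constraints -/
noncomputable def rawR : RC p s → ℝ
  | Sum.inl _ => 3 * (p.hs s : ℝ)
  | Sum.inr (Sum.inl (_, l)) => 3 * (p.hs s : ℝ) - p.xx s l
  | Sum.inr (Sum.inr (Sum.inl ())) => 3 * (p.hs s : ℝ)
  | Sum.inr (Sum.inr (Sum.inr (Sum.inl k))) => 3 * (p.hs s : ℝ) + |p.xx s k|
  | Sum.inr (Sum.inr (Sum.inr (Sum.inr k))) => 3 * (p.hs s : ℝ) + |p.xx s k|

end

section

variable {α : Type} {d : ℕ} (p : Par d) (v : α → Fin d → ℝ) (s : ℕ)

theorem rawR_nonneg (i : RC p s) : 0 ≤ rawR p s i := by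
  have hh := p.hs_ge s
  rcases i with i | ⟨i, l⟩ | u | k | k
  · simp only [rawR]; linarith
  · simp only [rawR]
    have := p.act_xx l.2
    linarith
  · simp only [rawR]; linarith
  · simp only [rawR]
    positivity
  · simp only [rawR]
    positivity

/-- every level set is one of the finitely many -/
theorem rawLev_exists {g : ℝ} (hg : (s : ℝ) ≤ g) : ∃ i, p.lev s g = rawLev p s i := by
  by_cases hne : ((p.act s).filter (fun k => p.tau k < g)).Nonempty
  · obtain ⟨k0, hk0, hmax⟩ := Finset.exists_max_image _ (fun k => p.tau k) hne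
    rw [Finset.mem_filter] at hk0
    refine ⟨some ⟨k0, hk0.1⟩, ?_⟩
    ext k
    rw [p.mem_lev]
    simp only [rawLev, Finset.mem_filter, Finset.mem_univ, true_and]
    constructor
    · rintro ⟨h1, h2⟩
      refine ⟨h1, ?_⟩
      by_cases hk : k ∈ p.act s
      · exact hmax k (Finset.mem_filter.2 ⟨hk, h2⟩)
      · rw [p.mem_act, not_le] at hk
        have := p.mem_act.1 hk0.1
        linarith
    · rintro ⟨h1, h2⟩
      exact ⟨h1, lt_of_le_of_lt h2 hk0.2⟩
  · rw [Finset.not_nonempty_iff_eq_empty] at hne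
    refine ⟨none, ?_⟩
    ext k
    rw [p.mem_lev]
    simp only [rawLev]
    rw [p.mem_tr]
    constructor
    · rintro ⟨h1, h2⟩
      refine ⟨?_, h1⟩
      by_contra hcon
      rw [not_lt] at hcon
      have : k ∈ (p.act s).filter (fun k => p.tau k < g) :=
        Finset.mem_filter.2 ⟨p.mem_act.2 hcon, h2⟩
      rw [hne] at this
      simp at this
    · rintro ⟨h1, h2⟩
      exact ⟨h2, lt_of_lt_of_le h1 hg⟩

theorem raw_kap_pos (k : Fin d) : 0 < p.kap s k := by
  unfold Par.kap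
  positivity

theorem raw_thr_pos (k : Fin d) : 0 < p.thr s k := by
  unfold Par.thr
  positivity

theorem raw_kap_sq (k : Fin d) : p.kap s k ^ 2 =
    1 / 4 * ((2 : ℝ) ^ (-(cc * |p.xx s k|)) * (2 : ℝ) ^ (-((p.hs s : ℝ) - p.h0))) := by
  unfold Par.kap
  rw [mul_pow, ← Real.rpow_natCast ((2 : ℝ) ^ _) 2, ← Real.rpow_mul (by norm_num),
    ← Real.rpow_add (by norm_num)]
  norm_num
  congr 1
  ring

theorem raw_kap_sum : ∑ k, p.kap s k ^ 2 ≤ 1 / 4 := by
  have h1 := p.sum_cc_le s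
  have h2 : ∑ k, p.kap s k ^ 2 =
      1 / 4 * ((∑ k, (2 : ℝ) ^ (-(cc * |p.xx s k|))) * (2 : ℝ) ^ (-((p.hs s : ℝ) - p.h0))) := by
    rw [Finset.sum_mul, Finset.mul_sum]
    exact Finset.sum_congr rfl fun k _ => raw_kap_sq p s k
  rw [h2]
  have h3 : (0 : ℝ) < (2 : ℝ) ^ (-((p.hs s : ℝ) - p.h0)) := by positivity
  have h4 : (2 : ℝ) ^ ((p.hs s : ℝ) - p.h0) * (2 : ℝ) ^ (-((p.hs s : ℝ) - p.h0)) = 1 := by
    rw [← Real.rpow_add (by norm_num)]
    simp
  have h5 := mul_le_mul_of_nonneg_right h1 h3.le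
  rw [h4] at h5
  linarith

theorem raw_lE_abs (k : Fin d) (a : α) : |p.lE v s k a / p.thr s k| ≤ 1 := by
  have ht := raw_thr_pos p s k
  unfold Par.lE
  split_ifs with h
  · rw [abs_of_nonneg (by positivity), div_le_one ht]
    exact h
  · simp

theorem raw_lS_abs (k : Fin d) (a : α) : |p.lS v s k a / √(p.thr s k)| ≤ 1 := by
  have ht := raw_thr_pos p s k
  have hs : 0 < √(p.thr s k) := Real.sqrt_pos.2 ht
  unfold Par.lS
  split_ifs with h
  · rw [abs_div, abs_of_pos hs, div_le_one hs]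
    exact Real.abs_le_sqrt h
  · simp

theorem raw_hS_sq (k : Fin d) (a : α) : p.hS v s k a ^ 2 ≤ v a k ^ 2 := by
  unfold Par.hS
  split_ifs with h
  · rw [zero_pow two_ne_zero]
    positivity
  · rw [sq_abs]

theorem rawStat_sq (hv : ∀ a, ∑ k, v a k ^ 2 ≤ 1) (a : α) : ∑ j, rawStat p v s a j ^ 2 ≤ 4 := by
  rw [Fintype.sum_sum_type, Fintype.sum_sum_type, Fintype.sum_sum_type, Fintype.sum_sum_type]
  have h1 : ∑ k, rawStat p v s a (Sum.inl k) ^ 2 ≤ 1 := by
    simp only [rawStat]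
    exact hv a
  have h2 : ∑ q, rawStat p v s a (Sum.inr (Sum.inl q)) ^ 2 ≤ 1 := by
    rw [Fintype.sum_prod_type]
    calc ∑ l, ∑ k, rawStat p v s a (Sum.inr (Sum.inl (l, k))) ^ 2
        ≤ ∑ l, ∑ k, v a l ^ 2 * v a k ^ 2 := by
          refine Finset.sum_le_sum fun l _ => Finset.sum_le_sum fun k _ => ?_
          simp only [rawStat]
          split_ifs
          · rw [mul_pow]
          · rw [zero_pow two_ne_zero]
            positivity
      _ = (∑ l, v a l ^ 2) * ∑ k, v a k ^ 2 := by rw [Finset.sum_mul_sum]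
      _ ≤ 1 * 1 := mul_le_mul (hv a) (hv a) (Finset.sum_nonneg fun _ _ => sq_nonneg _) one_pos.le
      _ = 1 := one_mul 1
  have h3 : ∑ k, rawStat p v s a (Sum.inr (Sum.inr (Sum.inl k))) ^ 2 ≤ 1 / 4 := by
    refine le_trans (Finset.sum_le_sum fun k _ => ?_) (raw_kap_sum p s)
    simp only [rawStat]
    split_ifs
    · rw [zero_pow two_ne_zero]
      positivity
    · rw [mul_pow, ← sq_abs (_ / _)]
      have := raw_lE_abs p v s k a
      have h4 : |p.lE v s k a / p.thr s k| ^ 2 ≤ 1 := by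
        rw [sq_le_one_iff₀ (abs_nonneg _)]
        exact this
      nlinarith [sq_nonneg (p.kap s k)]
  have h4 : ∑ k, rawStat p v s a (Sum.inr (Sum.inr (Sum.inr (Sum.inl k)))) ^ 2 ≤ 1 / 4 := by
    refine le_trans (Finset.sum_le_sum fun k _ => ?_) (raw_kap_sum p s)
    simp only [rawStat]
    split_ifs
    · rw [mul_pow, ← sq_abs (_ / _)]
      have := raw_lS_abs p v s k a
      have h4 : |p.lS v s k a / √(p.thr s k)| ^ 2 ≤ 1 := by
        rw [sq_le_one_iff₀ (abs_nonneg _)]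
        exact this
      nlinarith [sq_nonneg (p.kap s k)]
    · rw [zero_pow two_ne_zero]
      positivity
  have h5 : ∑ k, rawStat p v s a (Sum.inr (Sum.inr (Sum.inr (Sum.inr k)))) ^ 2 ≤ 1 := by
    refine le_trans (Finset.sum_le_sum fun k _ => ?_) (hv a)
    simp only [rawStat]
    split_ifs
    · exact raw_hS_sq p v s k a
    · rw [zero_pow two_ne_zero]
      positivity
  linarith

/-! ### The union bound -/

theorem raw_exp_cc {t : ℝ} (ht : 0 ≤ t) : Real.exp (-t) ≤ (2 : ℝ) ^ (-(cc * t)) := by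
  rw [Real.rpow_def_of_pos (by norm_num)]
  apply Real.exp_le_exp.2
  have h1 := Real.log_two_lt_d9
  have h2 : 0 < Real.log 2 := Real.log_pos (by norm_num)
  unfold cc
  nlinarith

theorem raw_sum_exp : ∑ k, Real.exp (-|p.xx s k|) ≤ (2 : ℝ) ^ (p.hs s) := by
  calc ∑ k, Real.exp (-|p.xx s k|) ≤ ∑ k, (2 : ℝ) ^ (-(cc * |p.xx s k|)) :=
        Finset.sum_le_sum fun k _ => raw_exp_cc (abs_nonneg _)
    _ ≤ (2 : ℝ) ^ ((p.hs s : ℝ) - p.h0) := p.sum_cc_le s
    _ ≤ (2 : ℝ) ^ (p.hs s : ℝ) := by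
        apply Real.rpow_le_rpow_of_exponent_le (by norm_num)
        have : (0 : ℝ) ≤ p.h0 := Nat.cast_nonneg _
        linarith
    _ = (2 : ℝ) ^ (p.hs s) := Real.rpow_natCast _ _

theorem raw_act_lev {k : Fin d} (hk : k ∈ p.act s) :
    (p.act s).filter (fun l => p.tau l ≤ p.tau k) ⊆ rawLev p s (some ⟨k, hk⟩) := by
  intro l hl
  rw [Finset.mem_filter] at hl
  simp only [rawLev, Finset.mem_filter, Finset.mem_univ, true_and]
  refine ⟨?_, hl.2⟩
  have h1 := p.act_xx hl.1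
  have h2 := p.hs_ge s
  have h3 := p.eta_ge l
  linarith

theorem rawLev_exp_sum : ∑ i, Real.exp (-((rawLev p s i).card : ℝ)) ≤ 2 := by
  rw [Fintype.sum_option]
  have h1 : Real.exp (-((rawLev p s none).card : ℝ)) ≤ 1 := by
    rw [Real.exp_le_one_iff]
    have : (0 : ℝ) ≤ ((rawLev p s none).card : ℝ) := Nat.cast_nonneg _
    linarith
  have h2 : ∑ k : p.act s, Real.exp (-((rawLev p s (some k)).card : ℝ)) ≤ 1 := by
    calc ∑ k : p.act s, Real.exp (-((rawLev p s (some k)).card : ℝ))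
        ≤ ∑ k : p.act s, Real.exp
          (-(((p.act s).filter (fun l => p.tau l ≤ p.tau (k : Fin d))).card : ℝ)) := by
          refine Finset.sum_le_sum fun k _ => ?_
          apply Real.exp_le_exp.2
          have := Finset.card_le_card (raw_act_lev p s k.2)
          have h3 : (((p.act s).filter (fun l => p.tau l ≤ p.tau (k : Fin d))).card : ℝ) ≤
              ((rawLev p s (some k)).card : ℝ) := by exact_mod_cast this
          linarith
      _ = ∑ k ∈ p.act s, Real.exp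
          (-(((p.act s).filter (fun l => p.tau l ≤ p.tau k)).card : ℝ)) :=
          Finset.sum_coe_sort (p.act s) (fun k => Real.exp
            (-(((p.act s).filter (fun l => p.tau l ≤ p.tau k)).card : ℝ)))
      _ ≤ 1 := p.rank_sum_le s
  linarith

theorem raw_sum_act : ∑ l : p.act s, Real.exp (p.xx s l) ≤ (2 : ℝ) ^ (p.hs s) := by
  rw [Finset.sum_coe_sort (p.act s) (fun l => Real.exp (p.xx s l))]
  refine le_trans ?_ (raw_sum_exp p s)
  calc ∑ l ∈ p.act s, Real.exp (p.xx s l) = ∑ l ∈ p.act s, Real.exp (-|p.xx s l|) := by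
        refine Finset.sum_congr rfl fun l hl => ?_
        have h1 := p.act_xx hl
        have h2 := p.hs_ge s
        rw [abs_of_neg (by linarith), neg_neg]
    _ ≤ ∑ l, Real.exp (-|p.xx s l|) :=
        Finset.sum_le_sum_of_subset_of_nonneg (Finset.subset_univ _)
          fun _ _ _ => (Real.exp_pos _).le

theorem raw_sum_sub (S : Finset (Fin d)) :
    ∑ k : S, Real.exp (-(1 + (3 * (p.hs s : ℝ) + |p.xx s k|))) ≤
      Real.exp (-(3 * (p.hs s : ℝ))) * (2 : ℝ) ^ (p.hs s) := by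
  rw [Finset.sum_coe_sort S (fun k => Real.exp (-(1 + (3 * (p.hs s : ℝ) + |p.xx s k|))))]
  calc ∑ k ∈ S, Real.exp (-(1 + (3 * (p.hs s : ℝ) + |p.xx s k|)))
      ≤ ∑ k ∈ S, Real.exp (-(3 * (p.hs s : ℝ))) * Real.exp (-|p.xx s k|) := by
        refine Finset.sum_le_sum fun k _ => ?_
        rw [← Real.exp_add]
        apply Real.exp_le_exp.2
        linarith
    _ ≤ ∑ k, Real.exp (-(3 * (p.hs s : ℝ))) * Real.exp (-|p.xx s k|) :=
        Finset.sum_le_sum_of_subset_of_nonneg (Finset.subset_univ _)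
          fun _ _ _ => by positivity
    _ ≤ _ := by
        rw [← Finset.mul_sum]
        exact mul_le_mul_of_nonneg_left (raw_sum_exp p s) (Real.exp_pos _).le

theorem raw_union_sum : ∑ i, Real.exp (-(((rawJ p s i).card : ℝ) + rawR p s i)) ≤
    Real.exp (-(3 * (p.hs s : ℝ))) * (3 + 4 * (2 : ℝ) ^ (p.hs s)) := by
  rw [Fintype.sum_sum_type, Fintype.sum_sum_type, Fintype.sum_sum_type, Fintype.sum_sum_type]
  set E3 : ℝ := Real.exp (-(3 * (p.hs s : ℝ))) with hE3
  have hE3p : 0 < E3 := Real.exp_pos _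
  have hA := rawLev_exp_sum p s
  have hAn : 0 ≤ ∑ i, Real.exp (-((rawLev p s i).card : ℝ)) :=
    Finset.sum_nonneg fun _ _ => (Real.exp_pos _).le
  have h1 : ∑ i, Real.exp (-(((rawJ p s (Sum.inl i)).card : ℝ) + rawR p s (Sum.inl i)))
      ≤ E3 * 2 := by
    calc _ = E3 * ∑ i, Real.exp (-((rawLev p s i).card : ℝ)) := by
          rw [Finset.mul_sum]
          refine Finset.sum_congr rfl fun i _ => ?_
          simp only [rawJ, rawR, Finset.card_map]
          rw [hE3, ← Real.exp_add]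
          congr 1
          ring
      _ ≤ _ := mul_le_mul_of_nonneg_left hA hE3p.le
  have h2 : ∑ q, Real.exp (-(((rawJ p s (Sum.inr (Sum.inl q))).card : ℝ)
      + rawR p s (Sum.inr (Sum.inl q)))) ≤ E3 * (2 * (2 : ℝ) ^ (p.hs s)) := by
    rw [Fintype.sum_prod_type]
    calc _ = E3 * ((∑ i, Real.exp (-((rawLev p s i).card : ℝ))) *
          ∑ l : p.act s, Real.exp (p.xx s l)) := by
          rw [Finset.sum_mul_sum, Finset.mul_sum]
          refine Finset.sum_congr rfl fun i _ => ?_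
          rw [Finset.mul_sum]
          refine Finset.sum_congr rfl fun l _ => ?_
          simp only [rawJ, rawR, Finset.card_map]
          rw [hE3, ← Real.exp_add, ← Real.exp_add]
          congr 1
          ring
      _ ≤ _ := by
          refine mul_le_mul_of_nonneg_left ?_ hE3p.le
          exact mul_le_mul hA (raw_sum_act p s) (Finset.sum_nonneg fun _ _ => (Real.exp_pos _).le)
            (by norm_num)
  have h3 : ∑ q, Real.exp (-(((rawJ p s (Sum.inr (Sum.inr (Sum.inl q)))).card : ℝ)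
      + rawR p s (Sum.inr (Sum.inr (Sum.inl q))))) ≤ E3 := by
    rw [Fintype.sum_unique]
    simp only [rawJ, rawR, Finset.card_map]
    apply Real.exp_le_exp.2
    have : (0 : ℝ) ≤ ((p.tr s).card : ℝ) := Nat.cast_nonneg _
    linarith
  have h4 : ∑ q, Real.exp (-(((rawJ p s (Sum.inr (Sum.inr (Sum.inr (Sum.inl q))))).card : ℝ)
      + rawR p s (Sum.inr (Sum.inr (Sum.inr (Sum.inl q)))))) ≤ E3 * (2 : ℝ) ^ (p.hs s) := by
    refine le_trans (le_of_eq ?_) (raw_sum_sub p s (p.act s)ᶜ)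
    refine Finset.sum_congr rfl fun k _ => ?_
    simp only [rawJ, rawR, Finset.card_singleton, Nat.cast_one]
  have h5 : ∑ q, Real.exp (-(((rawJ p s (Sum.inr (Sum.inr (Sum.inr (Sum.inr q))))).card : ℝ)
      + rawR p s (Sum.inr (Sum.inr (Sum.inr (Sum.inr q)))))) ≤ E3 * (2 : ℝ) ^ (p.hs s) := by
    refine le_trans (le_of_eq ?_) (raw_sum_sub p s (p.dead s))
    refine Finset.sum_congr rfl fun k _ => ?_
    simp only [rawJ, rawR, Finset.card_singleton, Nat.cast_one]
  linarith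

theorem raw_union : (((2 ^ (p.hs s + 1) : ℕ) : ℝ) + 1) *
    ∑ i, Real.exp (-(((rawJ p s i).card : ℝ) + rawR p s i)) ≤ 1 / 2 := by
  have h1 := raw_union_sum p s
  set q : ℝ := (2 : ℝ) ^ (p.hs s) with hq
  have hh : 3 ≤ p.hs s := by
    have := p.hs_ge s
    have h2 : (3 : ℝ) ≤ (p.hs s : ℝ) := by linarith
    exact_mod_cast h2
  have hq8 : (8 : ℝ) ≤ q := by
    have : (2 : ℝ) ^ 3 ≤ 2 ^ (p.hs s) := pow_le_pow_right₀ (by norm_num) hh
    rw [hq]
    linarith
  have hexp : Real.exp (-(3 * (p.hs s : ℝ))) ≤ (q ^ 4)⁻¹ := by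
    rw [Real.exp_neg]
    apply inv_anti₀ (by positivity)
    have h3 : (16 : ℝ) ≤ Real.exp 3 := by
      have h4 := Real.exp_one_gt_d9
      have h5 : Real.exp 3 = Real.exp 1 ^ 3 := by
        rw [← Real.exp_nat_mul]
        norm_num
      rw [h5]
      calc (16 : ℝ) ≤ 2.7 ^ 3 := by norm_num
        _ ≤ Real.exp 1 ^ 3 := by
            apply pow_le_pow_left₀ (by norm_num)
            linarith
    have h6 : Real.exp (3 * (p.hs s : ℝ)) = Real.exp 3 ^ (p.hs s) := by
      rw [← Real.exp_nat_mul]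
      congr 1
      ring
    rw [h6, hq, ← pow_mul, mul_comm (p.hs s) 4, pow_mul]
    apply pow_le_pow_left₀ (by norm_num)
    linarith
  have hsum : ∑ i, Real.exp (-(((rawJ p s i).card : ℝ) + rawR p s i)) ≤
      (q ^ 4)⁻¹ * (3 + 4 * q) :=
    h1.trans (mul_le_mul_of_nonneg_right hexp (by positivity))
  have hn : (((2 ^ (p.hs s + 1) : ℕ) : ℝ) + 1) = 2 * q + 1 := by
    push_cast
    rw [hq, pow_succ]
    ring
  rw [hn]
  calc (2 * q + 1) * _ ≤ (2 * q + 1) * ((q ^ 4)⁻¹ * (3 + 4 * q)) :=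
        mul_le_mul_of_nonneg_left hsum (by positivity)
    _ = ((2 * q + 1) * (3 + 4 * q)) / q ^ 4 := by ring
    _ ≤ 1 / 2 := by
        rw [div_le_div_iff₀ (by positivity) (by norm_num)]
        have h7 : (2 * q + 1) * (3 + 4 * q) ≤ 3 * q * (7 * q) := by nlinarith
        have h8 : q ^ 4 = q ^ 2 * q ^ 2 := by ring
        have h9 : (64 : ℝ) ≤ q ^ 2 := by nlinarith
        rw [h8]
        nlinarith

/-! ### The body of the errors -/

/-- right sides of the constraints -/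
noncomputable def rawRt (t : ℝ) (i : RC p s) : ℝ :=
  t * (p.CR * (((rawJ p s i).card : ℝ) + rawR p s i))

theorem rawRt_nonneg {t : ℝ} (ht : 0 ≤ t) (i : RC p s) : 0 ≤ rawRt p s t i := by
  have h1 := rawR_nonneg p s i
  have h2 := p.hCR
  unfold rawRt
  positivity

/-- the body -/
def rawB (t : ℝ) : Set (RI d → ℝ) := rawBody (rawJ p s) (rawRt p s t)

variable {p s}

theorem rawB_add {z w : RI d → ℝ} (hz : z ∈ rawB p s 1) (hw : w ∈ rawB p s 1) :
    (fun j => z j + w j) ∈ rawB p s 4 := by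
  have h := rawBody_add (rawRt_nonneg p s zero_le_one) hz hw
  have h2 : (fun i => 4 * rawRt p s 1 i) = rawRt p s 4 := by
    funext i
    unfold rawRt
    ring
  rw [h2] at h
  exact h

theorem rawB_sub {z w : RI d → ℝ} (hz : z ∈ rawB p s 1) (hw : w ∈ rawB p s 1) :
    (fun j => z j - w j) ∈ rawB p s 4 := by
  have h := rawBody_sub (rawRt_nonneg p s zero_le_one) hz hw
  have h2 : (fun i => 4 * rawRt p s 1 i) = rawRt p s 4 := by
    funext i
    unfold rawRt
    ring
  rw [h2] at h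
  exact h

theorem rawB_pos {t : ℝ} {z : RI d → ℝ} (hz : z ∈ rawB p s t) {g : ℝ} (hg : (s : ℝ) ≤ g) :
    ∑ k ∈ p.lev s g, z (Sum.inl k) ^ 2 ≤ t * (p.CR * ((p.lev s g).card + 3 * p.hs s)) := by
  obtain ⟨i, hi⟩ := rawLev_exists p s hg
  have h := hz (Sum.inl i)
  simp only [rawJ, rawRt, rawR, Finset.card_map, Finset.sum_map] at h
  rw [hi]
  exact h

theorem rawB_row {t : ℝ} {z : RI d → ℝ} (hz : z ∈ rawB p s t) {l : Fin d} (hl : l ∈ p.act s)
    {g : ℝ} (hg : (s : ℝ) ≤ g) :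
    ∑ k ∈ p.lev s g, z (Sum.inr (Sum.inl (l, k))) ^ 2 ≤
      t * (p.CR * ((p.lev s g).card + (3 * p.hs s - p.xx s l))) := by
  obtain ⟨i, hi⟩ := rawLev_exists p s hg
  have h := hz (Sum.inr (Sum.inl (i, ⟨l, hl⟩)))
  simp only [rawJ, rawRt, rawR, Finset.card_map, Finset.sum_map] at h
  rw [hi]
  exact h

theorem rawB_hv {t : ℝ} {z : RI d → ℝ} (hz : z ∈ rawB p s t) :
    ∑ k ∈ p.tr s, z (Sum.inr (Sum.inr (Sum.inr (Sum.inr k)))) ^ 2 ≤
      t * (p.CR * ((p.tr s).card + 3 * p.hs s)) := by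
  have h := hz (Sum.inr (Sum.inr (Sum.inl ())))
  simp only [rawJ, rawRt, rawR, Finset.card_map, Finset.sum_map] at h
  exact h

theorem rawB_en {z : RI d → ℝ} (hz : z ∈ rawB p s 4) {k : Fin d} (hk : k ∉ p.act s) :
    |z (Sum.inr (Sum.inr (Sum.inl k)))| ≤ 2 * p.qq s k := by
  have h := hz (Sum.inr (Sum.inr (Sum.inr (Sum.inl ⟨k, Finset.mem_compl.2 hk⟩))))
  simp only [rawJ, rawRt, rawR, Finset.card_singleton, Finset.sum_singleton, Nat.cast_one] at h
  have h1 := p.hCR
  have h2 := p.hs_ge s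
  have h3 : 0 ≤ p.CR * (1 + 3 * (p.hs s : ℝ) + |p.xx s k|) := by positivity
  have h4 : 0 ≤ 2 * p.qq s k := by
    unfold Par.qq
    positivity
  apply abs_le_of_sq_le_sq _ h4
  rw [mul_pow]
  unfold Par.qq
  rw [Real.sq_sqrt h3]
  refine h.trans (le_of_eq ?_)
  ring

theorem rawB_sg {z : RI d → ℝ} (hz : z ∈ rawB p s 4) {k : Fin d} (hk : k ∈ p.dead s) :
    |z (Sum.inr (Sum.inr (Sum.inr (Sum.inl k))))| ≤ 2 * p.qq s k := by
  have h := hz (Sum.inr (Sum.inr (Sum.inr (Sum.inr ⟨k, hk⟩))))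
  simp only [rawJ, rawRt, rawR, Finset.card_singleton, Finset.sum_singleton, Nat.cast_one] at h
  have h1 := p.hCR
  have h2 := p.hs_ge s
  have h3 : 0 ≤ p.CR * (1 + 3 * (p.hs s : ℝ) + |p.xx s k|) := by positivity
  have h4 : 0 ≤ 2 * p.qq s k := by
    unfold Par.qq
    positivity
  apply abs_le_of_sq_le_sq _ h4
  rw [mul_pow]
  unfold Par.qq
  rw [Real.sq_sqrt h3]
  refine h.trans (le_of_eq ?_)
  ring

/-! ### Algebra of the splitting -/

end

theorem raw_dvf_zero {α : Type} (V : Finset α) (h : ℕ) (c : α → ℕ) (f : α → ℝ) :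
    dvf V h c 0 f = 0 := by
  unfold dvf
  simp

theorem raw_dvf_top {α : Type} (V : Finset α) (h : ℕ) (c : α → ℕ) (f : α → ℝ)
    (hc : ∀ a ∈ V, c a < 2 ^ h) : dvf V h c (2 ^ h) f = 0 := by
  unfold dvf
  rw [Finset.filter_true_of_mem hc]
  push_cast
  rw [div_self (by positivity), one_mul, sub_self]

theorem raw_identity {α : Type} (V : Finset α) (h : ℕ) (g c : α → ℕ) (b f : α → ℝ) {j : ℕ}
    (hj : 0 < j) :
    dvf V h c j f - ∑ a ∈ V.filter (fun a => g a = 2 * j - 1 ∨ g a = 2 * j), b a * f a =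
      (∑ a ∈ V.filter (fun a => c a < j), f a
        - (1 / 2 * (∑ a ∈ V.filter (fun a => g a < 2 * j - 1), f a
            + ∑ a ∈ V.filter (fun a => g a < 2 * j + 1), f a)
          + ∑ a ∈ V.filter (fun a => g a = 2 * j - 1 ∨ g a = 2 * j), b a * f a)) +
      1 / 2 * ((∑ a ∈ V.filter (fun a => g a < 2 * j - 1), f a
          - (((2 * j - 1 : ℕ) : ℝ) / 2 ^ (h + 1)) * ∑ a ∈ V, f a) +
        (∑ a ∈ V.filter (fun a => g a < 2 * j + 1), f a
          - (((2 * j + 1 : ℕ) : ℝ) / 2 ^ (h + 1)) * ∑ a ∈ V, f a)) := by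
  unfold dvf
  have h1 : ((2 * j - 1 : ℕ) : ℝ) = 2 * (j : ℝ) - 1 := by
    rw [Nat.cast_sub (by omega)]
    push_cast
    ring
  rw [h1, pow_succ]
  push_cast
  field_simp
  ring

theorem raw_smul {α : Type} (V U : Finset α) (h : ℕ) (c : α → ℕ) (b : α → ℝ) (j : ℕ) (r : ℝ)
    (f : α → ℝ) : dvf V h c j (fun a => r * f a) - ∑ a ∈ U, b a * (r * f a) =
      r * (dvf V h c j f - ∑ a ∈ U, b a * f a) := by
  have h1 : ∀ W : Finset α, ∑ a ∈ W, r * f a = r * ∑ a ∈ W, f a := fun W =>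
    (Finset.mul_sum W f r).symm
  have h2 : ∑ a ∈ U, b a * (r * f a) = r * ∑ a ∈ U, b a * f a := by
    rw [Finset.mul_sum]
    exact Finset.sum_congr rfl fun a _ => by ring
  unfold dvf
  rw [h1, h1, h2]
  ring

theorem raw_block {α : Type} (V : Finset α) (h : ℕ) (g : α → ℕ) (f : α → ℝ) {j : ℕ}
    (hj : 0 < j) :
    ∑ a ∈ V.filter (fun a => g a = 2 * j - 1 ∨ g a = 2 * j), f a - (∑ a ∈ V, f a) / 2 ^ h =
      (∑ a ∈ V.filter (fun a => g a < 2 * j + 1), f a
          - (((2 * j + 1 : ℕ) : ℝ) / 2 ^ (h + 1)) * ∑ a ∈ V, f a) -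
      (∑ a ∈ V.filter (fun a => g a < 2 * j - 1), f a
          - (((2 * j - 1 : ℕ) : ℝ) / 2 ^ (h + 1)) * ∑ a ∈ V, f a) := by
  classical
  have h0 : V.filter (fun a => g a < 2 * j + 1) = V.filter (fun a => g a < 2 * j - 1) ∪
      V.filter (fun a => g a = 2 * j - 1 ∨ g a = 2 * j) := by
    ext a
    simp only [Finset.mem_filter, Finset.mem_union]
    constructor
    · rintro ⟨h1, h2⟩
      rcases lt_or_ge (g a) (2 * j - 1) with h3 | h3
      · exact Or.inl ⟨h1, h3⟩
      · exact Or.inr ⟨h1, by omega⟩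
    · rintro (⟨h1, h2⟩ | ⟨h1, h2⟩)
      · exact ⟨h1, by omega⟩
      · exact ⟨h1, by omega⟩
  have hd : Disjoint (V.filter (fun a => g a < 2 * j - 1))
      (V.filter (fun a => g a = 2 * j - 1 ∨ g a = 2 * j)) := by
    rw [Finset.disjoint_left]
    intro a h1 h2
    rw [Finset.mem_filter] at h1 h2
    omega
  have h1 : ((2 * j - 1 : ℕ) : ℝ) = 2 * (j : ℝ) - 1 := by
    rw [Nat.cast_sub (by omega)]
    push_cast
    ring
  rw [h0, Finset.sum_union hd, h1, pow_succ]
  push_cast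
  field_simp
  ring

/-! ### The healing bias -/

section

variable {α : Type} {d : ℕ} (p : Par d) (v : α → Fin d → ℝ) (s : ℕ)

/-- healing weight -/
noncomputable def rawW (t : ℝ) (l : Fin d) : ℝ :=
  - Par.clip t ((p.mu (s + p.hs s) l) ^ (3 / 8 : ℝ)) / p.mu (s + p.hs s) l

theorem raw_clip_abs {t c : ℝ} (hc : 0 ≤ c) : |Par.clip t c| ≤ c := by
  unfold Par.clip
  rw [abs_le]
  constructor
  · exact le_max_left _ _
  · exact max_le (by linarith) (min_le_left _ _)

theorem rawW_abs (t : ℝ) (l : Fin d) :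
    |rawW p s t l| ≤ (p.mu (s + p.hs s) l) ^ (-(5 / 8) : ℝ) := by
  have hm := p.mu_pos (s + p.hs s) l
  unfold rawW
  rw [abs_div, abs_neg, abs_of_pos hm]
  calc _ ≤ (p.mu (s + p.hs s) l) ^ (3 / 8 : ℝ) / p.mu (s + p.hs s) l := by
        gcongr
        exact raw_clip_abs (by positivity)
    _ = _ := by
        rw [show (-(5 / 8) : ℝ) = 3 / 8 - 1 by norm_num, Real.rpow_sub_one hm.ne']

theorem raw_bias (hv : ∀ a, ∑ k, v a k ^ 2 ≤ 1) (t : Fin d → ℝ) (w : Fin d → ℝ)
    (hw : ∀ l, w l = 0 ∨ w l = rawW p s (t l) l) (a : α) : |p.bet v s w a| ≤ 1 / 2 := by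
  have hva : ∀ l, |v a l| ≤ 1 := by
    intro l
    have h1 : v a l ^ 2 ≤ 1 :=
      (Finset.single_le_sum (f := fun k => v a k ^ 2) (fun _ _ => sq_nonneg _)
        (Finset.mem_univ l)).trans (hv a)
    exact abs_le_one_iff_mul_self_le_one.2 (by nlinarith)
  have hwa : ∀ l, |w l| ≤ (p.mu (s + p.hs s) l) ^ (-(5 / 8) : ℝ) := by
    intro l
    rcases hw l with h | h
    · rw [h, abs_zero]
      have := p.mu_pos (s + p.hs s) l
      positivity
    · rw [h]
      exact rawW_abs p s (t l) l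
  unfold Par.bet
  calc |∑ l ∈ p.act s, w l * v a l| ≤ ∑ l ∈ p.act s, |w l * v a l| :=
        Finset.abs_sum_le_sum_abs _ _
    _ ≤ ∑ l ∈ p.act s, (p.mu (s + p.hs s) l) ^ (-(5 / 8) : ℝ) := by
        refine Finset.sum_le_sum fun l _ => ?_
        rw [abs_mul]
        calc |w l| * |v a l| ≤ |w l| * 1 := mul_le_mul_of_nonneg_left (hva l) (abs_nonneg _)
          _ = |w l| := mul_one _
          _ ≤ _ := hwa l
    _ ≤ (2 : ℝ) ^ ((-(39 * (5 / 8 - cc)) + 5 / 8 + 1) * (p.hs s : ℝ)) :=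
        p.sum_mu_le s (by unfold cc; norm_num)
    _ ≤ (2 : ℝ) ^ (-1 : ℝ) := by
        apply Real.rpow_le_rpow_of_exponent_le (by norm_num)
        have := p.hs_ge s
        unfold cc
        nlinarith
    _ = 1 / 2 := by
        rw [Real.rpow_neg_one]
        norm_num

end

theorem raw_signs {α : Type} [Fintype α] {d : ℕ} (p : Par d) (hSP : SignProp p.CR)
    (v : α → Fin d → ℝ) (hv : ∀ a, ∑ k, v a k ^ 2 ≤ 1) (s : ℕ) (f : α → ℕ) :
    ∃ ε : α → ℝ, (∀ a, ε a = 1 ∨ ε a = -1) ∧ ∀ m ≤ 2 ^ (p.hs s + 1),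
      (fun j => ∑ a ∈ univ.filter (fun a => f a < m), ε a * rawStat p v s a j) ∈ rawB p s 1 := by
  obtain ⟨ε, h1, h2⟩ := hSP α (RI d) (RC p s) (rawStat p v s) (rawStat_sq p v s hv) (rawJ p s)
    (rawR p s) (rawR_nonneg p s) (2 ^ (p.hs s + 1)) (raw_union p s) f
  refine ⟨ε, h1, fun m hm i => ?_⟩
  have h3 := h2 m hm i
  simp only [rawRt, one_mul]
  exact h3

theorem exists_raw {α : Type} [Fintype α] {d : ℕ} (p : Par d) (hSP : SignProp p.CR)
    (v : α → Fin d → ℝ) (hv : ∀ a, ∑ k, v a k ^ 2 ≤ 1) (s : ℕ) (V : Finset α)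
    (x y : Fin d → ℝ) (hy : ∀ k, y k = x k + ∑ a ∈ V, v a k) :
    Nonempty (Raw p v s V x y) := by
  classical
  obtain ⟨g, hg, hE, hD⟩ := split_all (rawStat p v s) (rawB p s 1)
    (rawBody_convex (rawJ p s) (rawRt_nonneg p s zero_le_one))
    (rawBody_closed (rawJ p s) (rawRt p s 1)) (rawBody_symm (rawJ p s) (rawRt p s 1))
    (p.hs s) (raw_signs p hSP v hv s) V
  -- the errors of the folding
  set E : ℕ → RI d → ℝ := fun m i => ∑ a ∈ V.filter (fun a => g a < m), rawStat p v s a i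
        - ((m : ℝ) / 2 ^ (p.hs s + 1)) * ∑ a ∈ V, rawStat p v s a i with hEdef
  set e : ℕ → Fin d → ℝ := fun j k => if 0 < j ∧ j < 2 ^ p.hs s then
    1 / 2 * (E (2 * j - 1) (Sum.inl k) + E (2 * j + 1) (Sum.inl k)) else 0 with hedef
  set tt : ℕ → Fin d → ℝ := fun j l =>
    (1 - j / 2 ^ p.hs s) * x l + (j / 2 ^ p.hs s) * y l + e j l with httdef
  set w : ℕ → Fin d → ℝ := fun j l => if 0 < j ∧ j < 2 ^ p.hs s then
    rawW p s (tt j l) l else 0 with hwdef
  set U : ℕ → Finset α := fun j => if 0 < j ∧ j < 2 ^ p.hs s then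
    V.filter (fun a => g a = 2 * j - 1 ∨ g a = 2 * j) else ∅ with hUdef
  set zt : ℕ → Fin d → ℝ := fun j k => if 0 < j ∧ j < 2 ^ p.hs s then
    |E (2 * j + 1) (Sum.inr (Sum.inr (Sum.inr (Sum.inr k))))
      - E (2 * j - 1) (Sum.inr (Sum.inr (Sum.inr (Sum.inr k))))| else 0 with hztdef
  have hβ : ∀ j, ∀ a ∈ V, |p.bet v s (w j) a| ≤ 1 / 2 := by
    intro j a _
    refine raw_bias p v s hv (tt j) (w j) (fun l => ?_) a
    simp only [hwdef]
    split_ifs
    · exact Or.inr rfl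
    · exact Or.inl rfl
  obtain ⟨c, hc, hDj⟩ := hD (fun j a => p.bet v s (w j) a) hβ
  have hwz : ∀ j, ¬ (0 < j ∧ j < 2 ^ p.hs s) → U j = ∅ := by
    intro j hj
    simp only [hUdef, if_neg hj]
  have hUp : ∀ j, 0 < j → j < 2 ^ p.hs s →
      U j = V.filter (fun a => g a = 2 * j - 1 ∨ g a = 2 * j) := by
    intro j h1 h2
    simp only [hUdef, if_pos (And.intro h1 h2)]
  set xi : ℕ → (α → ℝ) → ℝ := fun j f =>
    dvf V (p.hs s) c j f - ∑ a ∈ U j, p.bet v s (w j) a * f a with hxidef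
  -- trivial boundaries
  have hxi0 : ∀ j ≤ 2 ^ p.hs s, ¬ (0 < j ∧ j < 2 ^ p.hs s) → ∀ f, xi j f = 0 := by
    intro j hj hj' f
    simp only [hxidef]
    rw [hwz j hj', Finset.sum_empty, sub_zero]
    rcases Nat.eq_zero_or_pos j with h0 | h0
    · rw [h0, raw_dvf_zero]
    · have h1 : j = 2 ^ p.hs s := by
        by_contra hcon
        exact hj' ⟨h0, lt_of_le_of_ne hj hcon⟩
      rw [h1]
      exact raw_dvf_top V (p.hs s) c f hc
  -- the errors of the biased splitting
  set D : ℕ → RI d → ℝ := fun j i => ∑ a ∈ V.filter (fun a => c a < j), rawStat p v s a i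
            - (1 / 2 * (∑ a ∈ V.filter (fun a => g a < 2 * j - 1), rawStat p v s a i
                + ∑ a ∈ V.filter (fun a => g a < 2 * j + 1), rawStat p v s a i)
              + ∑ a ∈ V.filter (fun a => g a = 2 * j - 1 ∨ g a = 2 * j),
                  p.bet v s (w j) a * rawStat p v s a i) with hDdef
  have hDB : ∀ j, 0 < j → j < 2 ^ p.hs s → D j ∈ rawB p s 1 := fun j h1 h2 => hDj j h1 h2
  have hEB : ∀ m ≤ 2 ^ (p.hs s + 1), E m ∈ rawB p s 1 := fun m hm => hE m hm
  have hm1 : ∀ j, 0 < j → j < 2 ^ p.hs s → 2 * j - 1 ≤ 2 ^ (p.hs s + 1) := by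
    intro j h1 h2
    rw [pow_succ]
    omega
  have hm2 : ∀ j, 0 < j → j < 2 ^ p.hs s → 2 * j + 1 ≤ 2 ^ (p.hs s + 1) := by
    intro j h1 h2
    rw [pow_succ]
    omega
  have hHB : ∀ j, 0 < j → j < 2 ^ p.hs s →
      (fun i => 1 / 2 * (E (2 * j - 1) i + E (2 * j + 1) i)) ∈ rawB p s 1 := by
    intro j h1 h2
    exact rawBody_half (rawRt_nonneg p s zero_le_one) (hEB _ (hm1 j h1 h2)) (hEB _ (hm2 j h1 h2))
  have hZB : ∀ j, 0 < j → j < 2 ^ p.hs s →
      (fun i => D j i + 1 / 2 * (E (2 * j - 1) i + E (2 * j + 1) i)) ∈ rawB p s 4 :=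
    fun j h1 h2 => rawB_add (hDB j h1 h2) (hHB j h1 h2)
  have hSB : ∀ j, 0 < j → j < 2 ^ p.hs s →
      (fun i => E (2 * j + 1) i - E (2 * j - 1) i) ∈ rawB p s 4 :=
    fun j h1 h2 => rawB_sub (hEB _ (hm2 j h1 h2)) (hEB _ (hm1 j h1 h2))
  have hxiD : ∀ j, 0 < j → j < 2 ^ p.hs s → ∀ i, xi j (fun a => rawStat p v s a i) =
      D j i + 1 / 2 * (E (2 * j - 1) i + E (2 * j + 1) i) := by
    intro j h1 h2 i
    simp only [hxidef, hDdef, hEdef]
    rw [hUp j h1 h2]
    exact raw_identity V (p.hs s) g c (p.bet v s (w j)) (fun a => rawStat p v s a i) h1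
  have hUE : ∀ j, 0 < j → j < 2 ^ p.hs s → ∀ i, ∑ a ∈ U j, rawStat p v s a i
      - (∑ a ∈ V, rawStat p v s a i) / 2 ^ p.hs s = E (2 * j + 1) i - E (2 * j - 1) i := by
    intro j h1 h2 i
    simp only [hEdef]
    rw [hUp j h1 h2]
    exact raw_block V (p.hs s) g (fun a => rawStat p v s a i) h1
  have hxi_smul : ∀ j r f, xi j (fun a => r * f a) = r * xi j f := fun j r f =>
    raw_smul V (U j) (p.hs s) c (p.bet v s (w j)) j r f
  have hCR := p.hCR
  have hhs := p.hs_ge s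
  -- names for the statistics
  have hsp : ∀ k, (fun a => v a k) = fun a => rawStat p v s a (Sum.inl k) := fun k => rfl
  have hsr : ∀ l ∈ p.act s, ∀ k,
      (fun a => v a l * v a k) = fun a => rawStat p v s a (Sum.inr (Sum.inl (l, k))) := by
    intro l hl k
    funext a
    simp only [rawStat, if_pos hl]
  have hsh : ∀ k ∈ p.tr s,
      p.hS v s k = fun a => rawStat p v s a (Sum.inr (Sum.inr (Sum.inr (Sum.inr k)))) := by
    intro k hk
    funext a
    simp only [rawStat, if_pos hk]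
  have hse : ∀ k ∉ p.act s, (fun a => rawStat p v s a (Sum.inr (Sum.inr (Sum.inl k)))) =
      fun a => (p.kap s k / p.thr s k) * p.lE v s k a := by
    intro k hk
    funext a
    simp only [rawStat, if_pos hk]
    ring
  have hss : ∀ k ∈ p.dead s,
      (fun a => rawStat p v s a (Sum.inr (Sum.inr (Sum.inr (Sum.inl k))))) =
      fun a => (p.kap s k / √(p.thr s k)) * p.lS v s k a := by
    intro k hk
    funext a
    simp only [rawStat, if_pos hk]
    ring
  refine ⟨{ c := c, U := U, w := w, e := e, zt := zt, xi := xi, xi_eq := fun _ _ => rfl,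
            c_lt := hc, U_sub := ?_, U_zero := ?_, U_top := ?_, zt_nonneg := ?_, heal := ?_,
            e_le := ?_, ediff := ?_, xi_row := ?_, xi_hS := ?_, xi_lE := ?_, xi_lS := ?_,
            U_row := ?_, U_hS := ?_, zt_le := ?_, U_lE := ?_ }⟩
  · intro j
    simp only [hUdef]
    split_ifs
    · exact Finset.filter_subset _ _
    · exact Finset.empty_subset _
  · exact hwz 0 (by simp)
  · exact hwz _ (by simp)
  · intro j k
    simp only [hztdef]
    split_ifs
    · exact abs_nonneg _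
    · exact le_rfl
  · intro j h1 h2 l _
    simp only [hwdef, if_pos (And.intro h1 h2)]
    rfl
  · intro j hj t ht
    by_cases h : 0 < j ∧ j < 2 ^ p.hs s
    · have := rawB_pos (hHB j h.1 h.2) ht
      rw [one_mul] at this
      simp only [hedef, if_pos h]
      exact this
    · simp only [hedef, if_neg h, zero_pow two_ne_zero, Finset.sum_const_zero]
      positivity
  · intro j hj t ht
    by_cases h : 0 < j ∧ j < 2 ^ p.hs s
    · have := rawB_pos (hDB j h.1 h.2) ht
      rw [one_mul] at this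
      refine le_trans (le_of_eq ?_) this
      refine Finset.sum_congr rfl fun k _ => ?_
      rw [hsp k, hxiD j h.1 h.2]
      simp only [hedef, if_pos h]
      rw [add_sub_cancel_right]
    · have h0 : ∀ k, xi j (fun a => v a k) - e j k = 0 := by
        intro k
        rw [hxi0 j hj h]
        simp only [hedef, if_neg h, sub_zero]
      simp only [h0, zero_pow two_ne_zero, Finset.sum_const_zero]
      positivity
  · intro j hj l hl t ht
    have hx := p.act_xx hl
    by_cases h : 0 < j ∧ j < 2 ^ p.hs s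
    · have := rawB_row (hZB j h.1 h.2) hl ht
      refine le_trans (le_of_eq ?_) (this.trans (le_of_eq ?_))
      · refine Finset.sum_congr rfl fun k _ => ?_
        rw [hsr l hl k, hxiD j h.1 h.2]
      · ring
    · simp only [hxi0 j hj h, zero_pow two_ne_zero, Finset.sum_const_zero]
      have h3 : 0 ≤ ((p.lev s t).card : ℝ) + 3 * p.hs s - p.xx s l := by
        have : (0 : ℝ) ≤ ((p.lev s t).card : ℝ) := Nat.cast_nonneg _
        linarith
      positivity
  · intro j hj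
    by_cases h : 0 < j ∧ j < 2 ^ p.hs s
    · have := rawB_hv (hZB j h.1 h.2)
      refine le_trans (le_of_eq ?_) (this.trans (le_of_eq ?_))
      · refine Finset.sum_congr rfl fun k hk => ?_
        rw [hsh k hk, hxiD j h.1 h.2]
      · ring
    · simp only [hxi0 j hj h, zero_pow two_ne_zero, Finset.sum_const_zero]
      positivity
  · intro j hj k hk
    have hk1 := raw_kap_pos p s k
    have hk2 := raw_thr_pos p s k
    have hq : 0 ≤ p.qq s k := Real.sqrt_nonneg _
    by_cases h : 0 < j ∧ j < 2 ^ p.hs s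
    · have h1 := rawB_en (hZB j h.1 h.2) hk
      rw [← hxiD j h.1 h.2, hse k hk, hxi_smul, abs_mul, abs_of_pos (by positivity)] at h1
      have h2 : |xi j (p.lE v s k)| = (p.thr s k / p.kap s k) *
          (p.kap s k / p.thr s k * |xi j (p.lE v s k)|) := by
        field_simp
      rw [h2, mul_comm (2 * p.qq s k)]
      exact mul_le_mul_of_nonneg_left h1 (by positivity)
    · rw [hxi0 j hj h, abs_zero]
      positivity
  · intro j hj k hk
    have hk1 := raw_kap_pos p s k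
    have hk2 : 0 < √(p.thr s k) := Real.sqrt_pos.2 (raw_thr_pos p s k)
    have hq : 0 ≤ p.qq s k := Real.sqrt_nonneg _
    by_cases h : 0 < j ∧ j < 2 ^ p.hs s
    · have h1 := rawB_sg (hZB j h.1 h.2) hk
      rw [← hxiD j h.1 h.2, hss k hk, hxi_smul, abs_mul, abs_of_pos (by positivity)] at h1
      have h2 : |xi j (p.lS v s k)| = (√(p.thr s k) / p.kap s k) *
          (p.kap s k / √(p.thr s k) * |xi j (p.lS v s k)|) := by
        field_simp
      rw [h2, mul_comm (2 * p.qq s k)]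
      exact mul_le_mul_of_nonneg_left h1 (by positivity)
    · rw [hxi0 j hj h, abs_zero]
      positivity
  · intro j h1 h2 l hl t ht
    have := rawB_row (hSB j h1 h2) hl ht
    refine le_trans (le_of_eq ?_) (this.trans (le_of_eq ?_))
    · refine Finset.sum_congr rfl fun k _ => ?_
      have h3 := hUE j h1 h2 (Sum.inr (Sum.inl (l, k)))
      simp only [rawStat, if_pos hl] at h3
      rw [h3]
    · ring
  · intro j hj k hk
    have hn : ∀ a, 0 ≤ p.hS v s k a := by
      intro a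
      unfold Par.hS
      split_ifs
      · exact le_rfl
      · exact abs_nonneg _
    by_cases h : 0 < j ∧ j < 2 ^ p.hs s
    · have h3 := hUE j h.1 h.2 (Sum.inr (Sum.inr (Sum.inr (Sum.inr k))))
      simp only [rawStat, if_pos hk] at h3
      have h4 : zt j k = |E (2 * j + 1) (Sum.inr (Sum.inr (Sum.inr (Sum.inr k))))
          - E (2 * j - 1) (Sum.inr (Sum.inr (Sum.inr (Sum.inr k))))| := by
        simp only [hztdef, if_pos h]
      rw [h4, ← h3]
      have := le_abs_self (∑ a ∈ U j, p.hS v s k a - (∑ a ∈ V, p.hS v s k a) / 2 ^ p.hs s)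
      linarith
    · rw [hwz j h, Finset.sum_empty]
      simp only [hztdef, if_neg h, add_zero]
      have : 0 ≤ ∑ a ∈ V, p.hS v s k a := Finset.sum_nonneg fun a _ => hn a
      positivity
  · intro j hj
    by_cases h : 0 < j ∧ j < 2 ^ p.hs s
    · have := rawB_hv (hSB j h.1 h.2)
      refine le_trans (le_of_eq ?_) (this.trans (le_of_eq ?_))
      · refine Finset.sum_congr rfl fun k _ => ?_
        simp only [hztdef, if_pos h, sq_abs]
      · ring
    · simp only [hztdef, if_neg h, zero_pow two_ne_zero, Finset.sum_const_zero]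
      positivity
  · intro j hj k hk
    have hk1 := raw_kap_pos p s k
    have hk2 := raw_thr_pos p s k
    have hq : 0 ≤ p.qq s k := Real.sqrt_nonneg _
    have hn : ∀ a, 0 ≤ p.lE v s k a := by
      intro a
      unfold Par.lE
      split_ifs
      · positivity
      · exact le_rfl
    by_cases h : 0 < j ∧ j < 2 ^ p.hs s
    · have h1 := rawB_en (hSB j h.1 h.2) hk
      have h3 := hUE j h.1 h.2 (Sum.inr (Sum.inr (Sum.inl k)))
      rw [← h3] at h1
      have h4 : ∀ W : Finset α, ∑ a ∈ W, rawStat p v s a (Sum.inr (Sum.inr (Sum.inl k))) =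
          p.kap s k / p.thr s k * ∑ a ∈ W, p.lE v s k a := by
        intro W
        rw [Finset.mul_sum]
        exact Finset.sum_congr rfl fun a _ => congrFun (hse k hk) a
      rw [h4, h4] at h1
      have h5 : p.kap s k / p.thr s k * ∑ a ∈ U j, p.lE v s k a -
          p.kap s k / p.thr s k * (∑ a ∈ V, p.lE v s k a) / 2 ^ p.hs s =
          p.kap s k / p.thr s k *
            (∑ a ∈ U j, p.lE v s k a - (∑ a ∈ V, p.lE v s k a) / 2 ^ p.hs s) := by ring
      rw [h5, abs_mul, abs_of_pos (by positivity)] at h1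
      set r := ∑ a ∈ U j, p.lE v s k a - (∑ a ∈ V, p.lE v s k a) / 2 ^ p.hs s with hr
      have h6 : r ≤ 2 * p.qq s k * (p.thr s k / p.kap s k) := by
        have h7 : |r| = (p.thr s k / p.kap s k) * (p.kap s k / p.thr s k * |r|) := by
          field_simp
        have h8 := mul_le_mul_of_nonneg_left h1
          (by positivity : 0 ≤ p.thr s k / p.kap s k)
        rw [← h7] at h8
        have := le_abs_self r
        linarith
      linarith
    · rw [hwz j h, Finset.sum_empty]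
      have : 0 ≤ ∑ a ∈ V, p.lE v s k a := Finset.sum_nonneg fun a _ => hn a
      positivity

end Vale.Agent.P262F
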