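import Vale.Agent.Lib.P262F.Phi
import Vale.Agent.Lib.P262F.Dev
import Vale.Agent.Lib.P262F.Pot
import Vale.Agent.Lib.P262F.RawEx

/-! One round of the construction. -/

namespace Vale.Agent.P262F

open Finset Real

variable {α : Type} [Fintype α] {d : ℕ} {p : Par d} {v : α → Fin d → ℝ} {s : ℕ} {V : Finset α}
  {x y Lx Ly ε : Fin d → ℝ}

theorem round_step (hSP : SignProp p.CR) (hv : ∀ a, ∑ k, v a k ^ 2 ≤ 1)
    (I : p.Inv v s V x y Lx Ly ε) :
    ∃ (c : α → ℕ) (z L ε' : ℕ → Fin d → ℝ), (∀ a ∈ V, c a < 2 ^ p.hs s) ∧ z 0 = x ∧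
      (∀ j, j < 2 ^ p.hs s → p.Inv v (s + p.hs s) (V.filter (fun a => c a = j))
        (z j) (z (j + 1)) (L j) (L (j + 1)) (ε' j)) := by
  obtain ⟨R⟩ := exists_raw p hSP v hv s V x y I.sum
  refine ⟨R.c, zz R, LL R Lx Ly, ee R ε, R.c_lt, zz_zero R, fun j hj => ?_⟩
  have hee : ∀ k, 0 ≤ ee R ε j k := by
    intro k
    unfold ee
    have h1 := I.eps k
    have h2 := hErr_nonneg R j k
    have h3 := pErr_nonneg R j k
    split_ifs
    · exact le_rfl
    · linarith
    · exact h1
  refine
    { sum := fun k => zz_succ R j k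
      actx := fun k hk => ?_
      acty := fun k hk => ?_
      row := child_row hv R I hj
      le_tr := fun k hk => child_le_tr hv R I hj hk
      le_dead := fun k hk => child_le_dead hv R I hj hk
      hv_tr := fun k hk => ?_
      phx := fun g hg => child_phi hv R I hj.le hg
      phy := fun g hg => child_phi hv R I hj hg
      eps := hee
      dtr := fun k hk => child_dtr hv R I hj hk
      ddead := fun k hk => child_ddead hv R I hj hk
      pot := child_pot hv R I hj }
  · have h1 := p.act_anti s (p.hs s) hk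
    simp [LL, h1]
  · have h1 := p.act_anti s (p.hs s) hk
    simp [LL, h1]
  · rcases p.trichotomy s k with h | h | h
    · have h1 : k ∉ p.act (s + p.hs s) := fun h2 => p.act_not_tr h2 hk
      have h2 := child_heavy_new hv R I hj h h1
      have h3 := hee k
      linarith
    · have h1 := child_heavy_tr hv R I hj h hk
      have h2 : k ∉ p.act s := fun h3 => p.act_not_tr h3 h
      have h3 := pErr_nonneg R j k
      have h4 : ee R ε j k = ε k + (pErr R j k + hErr R j k) := by
        simp [ee, h2, h]
      rw [h4]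
      linarith
    · exact absurd (p.dead_mono s (p.hs s) h) (p.tr_not_dead hk)

end Vale.Agent.P262F
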