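import Vale.Agent.Lib.P262F.Bias

/-! The energy matrix of a child. -/

namespace Vale.Agent.P262F

open Finset Real

namespace Rows

theorem two_add (a b : ℝ) : (2 : ℝ) ^ (a + b) = 2 ^ a * 2 ^ b := Real.rpow_add (by norm_num) a b

theorem two_pos (a : ℝ) : (0 : ℝ) < 2 ^ a := Real.rpow_pos_of_pos (by norm_num) a

theorem two_le {a b : ℝ} (h : a ≤ b) : (2 : ℝ) ^ a ≤ 2 ^ b :=
  Real.rpow_le_rpow_of_exponent_le (by norm_num) h

theorem two_sqrt (a : ℝ) : √((2 : ℝ) ^ a) = 2 ^ (a / 2) := by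
  rw [Real.sqrt_eq_rpow, ← Real.rpow_mul (by norm_num)]
  congr 1
  ring

theorem two_tenth (a : ℝ) : ((2 : ℝ) ^ a) ^ (1 / 10 : ℝ) = 2 ^ (a / 10) := by
  rw [← Real.rpow_mul (by norm_num)]
  congr 1
  ring

theorem two_ge_sq {x : ℝ} (hx : 0 ≤ x) : x ^ 2 / 16 ≤ (2 : ℝ) ^ x := by
  have h1 : x / 4 ≤ (2 : ℝ) ^ (x / 2) := by
    rw [Real.rpow_def_of_pos (by norm_num)]
    have h2 := Real.add_one_le_exp (Real.log 2 * (x / 2))
    have h3 := Real.log_two_gt_d9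
    nlinarith
  have h4 : (2 : ℝ) ^ x = 2 ^ (x / 2) * 2 ^ (x / 2) := by
    rw [← two_add]
    congr 1
    ring
  rw [h4]
  have h5 := mul_le_mul h1 h1 (by positivity) (two_pos _).le
  linarith

theorem aux_y {h y : ℝ} (hh : 2000 ≤ h) (hy : 39 * h ≤ y) :
    2 * (2 : ℝ) ^ (103 / 100 * h) + 3 * h + y ≤ 2 ^ (y / 10 + 1) := by
  have h1 : (2 : ℝ) ^ (y / 10 + 1) = 2 ^ (y / 10) + 2 ^ (y / 10) := by
    rw [two_add, Real.rpow_one]
    ring
  have h2 : 2 * (2 : ℝ) ^ (103 / 100 * h) ≤ 2 ^ (y / 10) := by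
    have e : 2 * (2 : ℝ) ^ (103 / 100 * h) = 2 ^ (1 + 103 / 100 * h) := by
      rw [two_add, Real.rpow_one]
    rw [e]
    exact two_le (by linarith)
  have h3 : 3 * h + y ≤ (2 : ℝ) ^ (y / 10) := by
    refine le_trans ?_ (two_ge_sq (by linarith))
    nlinarith
  linarith

/-- the numerical estimate for the rows -/
theorem row_real {h y CR n' n J : ℝ} (hh : 2000 ≤ h) (hy : 39 * h ≤ y)
    (hCR : CR ≤ 2 ^ (h / 100)) (hn' : 0 ≤ n')
    (hn : n ≤ n' + 2 ^ (103 / 100 * h)) (hJ : J ≤ 2 ^ (103 / 100 * h) + n) (hJ0 : 0 ≤ J) :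
    2 ^ (-h) * (√(2 ^ y) + (2 ^ y) ^ (1 / 10 : ℝ) * √(1 + n)) + 2 * √(4 * CR * (J + 3 * h + y))
      + 2 * (2 ^ (-(3 * h)) * √(2 ^ (y - h)))
    ≤ 1 / 2 * √(2 ^ (y - h)) + 1 / 4 * (2 ^ (y - h)) ^ (1 / 10 : ℝ) * √(1 + n') := by
  rw [two_sqrt, two_sqrt, two_tenth, two_tenth]
  have hs : 0 ≤ √(1 + n') := Real.sqrt_nonneg _
  have hone : 1 ≤ (2 : ℝ) ^ (103 / 100 * h) := Real.one_le_rpow (by norm_num) (by linarith)
  -- part A
  have A : 2 ^ (-h) * (2 : ℝ) ^ (y / 2) + 2 * (2 ^ (-(3 * h)) * 2 ^ ((y - h) / 2)) ≤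
      1 / 2 * 2 ^ ((y - h) / 2) := by
    have e1 : (2 : ℝ) ^ (-h) * 2 ^ (y / 2) = 2 ^ (-(h / 2)) * 2 ^ ((y - h) / 2) := by
      rw [← two_add, ← two_add]
      congr 1
      ring
    have e2 : (2 : ℝ) ^ (-(h / 2)) ≤ 1 / 4 := by
      refine (two_le (show -(h / 2) ≤ -2 by linarith)).trans (le_of_eq ?_)
      rw [Real.rpow_neg (by norm_num)]
      norm_num
    have e3 : (2 : ℝ) ^ (-(3 * h)) ≤ 1 / 8 := by
      refine (two_le (show -(3 * h) ≤ -3 by linarith)).trans (le_of_eq ?_)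
      rw [Real.rpow_neg (by norm_num)]
      norm_num
    have e4 := two_pos ((y - h) / 2)
    have e5 := mul_le_mul_of_nonneg_right e2 e4.le
    have e6 := mul_le_mul_of_nonneg_right e3 e4.le
    rw [e1]
    linarith
  -- part B
  have B : (2 : ℝ) ^ (-h) * (2 ^ (y / 10) * √(1 + n)) ≤
      1 / 8 * 2 ^ ((y - h) / 10) * √(1 + n') := by
    have e1 : √(1 + n) ≤ √(1 + n') * 2 ^ (52 / 100 * h) := by
      have e2 : (2 : ℝ) ^ (52 / 100 * h) = √(2 ^ (104 / 100 * h)) := by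
        rw [two_sqrt]
        congr 1
        ring
      rw [e2, ← Real.sqrt_mul (by linarith)]
      refine Real.sqrt_le_sqrt ?_
      have e3 : 2 * (2 : ℝ) ^ (103 / 100 * h) ≤ 2 ^ (104 / 100 * h) := by
        have e : 2 * (2 : ℝ) ^ (103 / 100 * h) = 2 ^ (1 + 103 / 100 * h) := by
          rw [two_add, Real.rpow_one]
        rw [e]
        exact two_le (by linarith)
      have e4 := mul_le_mul_of_nonneg_left e3 (by linarith : 0 ≤ 1 + n')
      have e5 := mul_nonneg hn' (by linarith : (0:ℝ) ≤ 2 ^ (103 / 100 * h))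
      nlinarith
    have e6 : (2 : ℝ) ^ (-h) * (2 ^ (y / 10) * (√(1 + n') * 2 ^ (52 / 100 * h))) =
        2 ^ (-(38 / 100 * h)) * (2 ^ ((y - h) / 10) * √(1 + n')) := by
      have e7 : (2 : ℝ) ^ (-h) * 2 ^ (y / 10) * 2 ^ (52 / 100 * h) =
          2 ^ (-(38 / 100 * h)) * 2 ^ ((y - h) / 10) := by
        rw [← two_add, ← two_add, ← two_add]
        congr 1
        ring
      calc _ = ((2 : ℝ) ^ (-h) * 2 ^ (y / 10) * 2 ^ (52 / 100 * h)) * √(1 + n') := by ring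
        _ = _ := by rw [e7]; ring
    have e8 : (2 : ℝ) ^ (-(38 / 100 * h)) ≤ 1 / 8 := by
      refine (two_le (show -(38 / 100 * h) ≤ -3 by linarith)).trans (le_of_eq ?_)
      rw [Real.rpow_neg (by norm_num)]
      norm_num
    calc (2 : ℝ) ^ (-h) * (2 ^ (y / 10) * √(1 + n))
        ≤ 2 ^ (-h) * (2 ^ (y / 10) * (√(1 + n') * 2 ^ (52 / 100 * h))) := by
          have := two_pos (-h)
          have := two_pos (y / 10)
          gcongr
      _ = 2 ^ (-(38 / 100 * h)) * (2 ^ ((y - h) / 10) * √(1 + n')) := e6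
      _ ≤ 1 / 8 * (2 ^ ((y - h) / 10) * √(1 + n')) := by
          have := two_pos ((y - h) / 10)
          gcongr
      _ = _ := by ring
  -- part C
  have C : 2 * √(4 * CR * (J + 3 * h + y)) ≤ 1 / 8 * 2 ^ ((y - h) / 10) * √(1 + n') := by
    have e1 : 4 * CR * (J + 3 * h + y) ≤ (1 + n') * 2 ^ ((y - h) / 5 - 8) := by
      have e2 := aux_y hh hy
      have e3 : J + 3 * h + y ≤ (1 + n') * 2 ^ (y / 10 + 1) := by
        have e4 : J + 3 * h + y ≤ (1 + n') * (2 * (2 : ℝ) ^ (103 / 100 * h) + 3 * h + y) := by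
          have e5 := mul_nonneg hn' (by linarith : (0:ℝ) ≤ 2 * 2 ^ (103 / 100 * h) - 1)
          have e6 := mul_nonneg hn' (by linarith : (0:ℝ) ≤ 3 * h + y)
          nlinarith
        exact e4.trans (mul_le_mul_of_nonneg_left e2 (by linarith))
      have e7 : 4 * CR * (J + 3 * h + y) ≤
          4 * 2 ^ (h / 100) * ((1 + n') * 2 ^ (y / 10 + 1)) := by
        have := two_pos (h / 100)
        gcongr
        linarith
      refine e7.trans ?_
      have e8 : (4 : ℝ) * 2 ^ (h / 100) * 2 ^ (y / 10 + 1) = 2 ^ (2 + h / 100 + (y / 10 + 1)) := by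
        have e10 : (2 : ℝ) ^ (2 : ℝ) = 4 := by norm_num
        rw [two_add (2 + h / 100), two_add 2, e10]
      have e9 : (4 : ℝ) * 2 ^ (h / 100) * ((1 + n') * 2 ^ (y / 10 + 1)) =
          (1 + n') * (4 * 2 ^ (h / 100) * 2 ^ (y / 10 + 1)) := by ring
      rw [e9, e8]
      exact mul_le_mul_of_nonneg_left (two_le (by linarith)) (by linarith)
    have e2 : √(4 * CR * (J + 3 * h + y)) ≤ √(1 + n') * 2 ^ ((y - h) / 10 - 4) := by
      have e3 : (2 : ℝ) ^ ((y - h) / 10 - 4) = √(2 ^ ((y - h) / 5 - 8)) := by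
        rw [two_sqrt]
        congr 1
        ring
      rw [e3, ← Real.sqrt_mul (by linarith)]
      exact Real.sqrt_le_sqrt e1
    have e4 : (2 : ℝ) ^ ((y - h) / 10 - 4) = 2 ^ ((y - h) / 10) / 16 := by
      rw [Real.rpow_sub (by norm_num)]
      norm_num
    rw [e4] at e2
    linarith
  have D : (2 : ℝ) ^ (-h) * (2 ^ (y / 2) + 2 ^ (y / 10) * √(1 + n)) =
      2 ^ (-h) * 2 ^ (y / 2) + 2 ^ (-h) * (2 ^ (y / 10) * √(1 + n)) := by ring
  rw [D]
  linarith

/-- the numerical estimate for the energy of a child -/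
theorem energy_real {h y n' : ℝ} (hh : 2000 ≤ h) (hy : 39 * h ≤ y)
    (hn : n' ≤ 2 ^ (3 / 100 * y)) :
    1 / 2 * √(2 ^ (y - h)) + 1 / 4 * (2 ^ (y - h)) ^ (1 / 10 : ℝ) * √(1 + n') ≤ 2 ^ (y - h) := by
  rw [two_sqrt, two_tenth]
  have h1 : (2 : ℝ) ^ ((y - h) / 2) ≤ 2 ^ (y - h) := two_le (by linarith)
  have h2 : √(1 + n') ≤ 2 ^ (1 / 2 * (1 + 3 / 100 * y)) := by
    have e : (2 : ℝ) ^ (1 / 2 * (1 + 3 / 100 * y)) = √(2 ^ (1 + 3 / 100 * y)) := by
      rw [two_sqrt]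
      congr 1
      ring
    rw [e]
    refine Real.sqrt_le_sqrt ?_
    rw [two_add, Real.rpow_one]
    have := Real.one_le_rpow (x := 2) (z := 3 / 100 * y) (by norm_num) (by linarith)
    linarith
  have h3 : (2 : ℝ) ^ ((y - h) / 10) * √(1 + n') ≤ 2 ^ (y - h) := by
    calc (2 : ℝ) ^ ((y - h) / 10) * √(1 + n')
        ≤ 2 ^ ((y - h) / 10) * 2 ^ (1 / 2 * (1 + 3 / 100 * y)) :=
          mul_le_mul_of_nonneg_left h2 (two_pos _).le
      _ = 2 ^ ((y - h) / 10 + 1 / 2 * (1 + 3 / 100 * y)) := (two_add _ _).symm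
      _ ≤ _ := two_le (by linarith)
  have h4 := two_pos (y - h)
  linarith

end Rows

variable {α : Type} {d : ℕ} {p : Par d} {v : α → Fin d → ℝ} {s : ℕ} {V : Finset α}
  {x y Lx Ly ε : Fin d → ℝ}

/-- sums over a child in terms of the deviations -/
theorem sum_child (V : Finset α) (h : ℕ) (c : α → ℕ) (j : ℕ) (f : α → ℝ) :
    ∑ a ∈ V.filter (fun a => c a = j), f a
      = (∑ a ∈ V, f a) / 2 ^ h + (dvf V h c (j + 1) f - dvf V h c j f) := by
  classical
  have e1 : V.filter (fun a => c a < j + 1) =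
      V.filter (fun a => c a < j) ∪ V.filter (fun a => c a = j) := by
    rw [← Finset.filter_or]
    exact Finset.filter_congr fun a _ => by omega
  have e2 : Disjoint (V.filter (fun a => c a < j)) (V.filter (fun a => c a = j)) := by
    rw [Finset.disjoint_filter]
    intro a _ h1 h2
    omega
  have e3 : ∑ a ∈ V.filter (fun a => c a < j + 1), f a =
      ∑ a ∈ V.filter (fun a => c a < j), f a + ∑ a ∈ V.filter (fun a => c a = j), f a := by
    rw [e1, Finset.sum_union e2]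
  unfold dvf
  rw [e3]
  push_cast
  ring

namespace Rows

theorem nact_nonneg (s : ℕ) (g : ℝ) : 0 ≤ p.nact s g := Nat.cast_nonneg _

theorem nact_anti (s h : ℕ) (g : ℝ) : p.nact (s + h) g ≤ p.nact s g := by
  unfold Par.nact
  exact_mod_cast Finset.card_le_card (Finset.filter_subset_filter _ (p.act_anti s h))

theorem mu_eq (s : ℕ) (l : Fin d) : p.mu s l = 2 ^ (-(p.xx s l)) := rfl

theorem mu_add_eq (s : ℕ) (l : Fin d) :
    p.mu (s + p.hs s) l = 2 ^ (-(p.xx s l) - (p.hs s : ℝ)) := by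
  rw [mu_eq, p.xx_add]
  congr 1
  ring

theorem n2_xi (R : Raw p v s V x y) {j : ℕ} (hj : j ≤ 2 ^ p.hs s) {l : Fin d}
    (hl : l ∈ p.act s) {g : ℝ} (hg : (s : ℝ) ≤ g) :
    n2 (p.lev s g) (fun k => R.xi j (fun a => v a l * v a k)) ≤
      √(4 * p.CR * ((p.lev s g).card + 3 * p.hs s + -(p.xx s l))) := by
  refine n2_le_sqrt ?_
  refine (R.xi_row j hj l hl g hg).trans (le_of_eq ?_)
  ring

theorem n2_dvf (hv : ∀ a, ∑ k, v a k ^ 2 ≤ 1) (R : Raw p v s V x y)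
    (I : p.Inv v s V x y Lx Ly ε) {j : ℕ} (hj : j ≤ 2 ^ p.hs s) {l : Fin d} (hl : l ∈ p.act s)
    {g : ℝ} (hg : (s : ℝ) ≤ g) :
    n2 (p.lev s g) (fun k => dvf V (p.hs s) R.c j (fun a => v a l * v a k)) ≤
      √(4 * p.CR * ((p.lev s g).card + 3 * p.hs s + -(p.xx s l))) +
        (2 : ℝ) ^ (-(3 * (p.hs s : ℝ))) * √(p.mu (s + p.hs s) l) := by
  have e : (fun k => dvf V (p.hs s) R.c j (fun a => v a l * v a k)) = fun k =>
      R.xi j (fun a => v a l * v a k) +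
        ∑ a ∈ R.U j, p.bet v s (R.w j) a * (v a l * v a k) := by
    funext k
    rw [R.xi_eq]
    ring
  rw [e]
  refine (n2_add_le _ _ _).trans ?_
  refine add_le_add (n2_xi R hj hl hg) ?_
  exact (n2_mono (Finset.subset_univ _) _).trans (row_bias_le hv R I hj hl)

end Rows

/-- rows of the energy matrix of a child, in the norms of time `s` -/
theorem child_row_old (hv : ∀ a, ∑ k, v a k ^ 2 ≤ 1) (R : Raw p v s V x y)
    (I : p.Inv v s V x y Lx Ly ε) {j : ℕ} (hj : j < 2 ^ p.hs s) {l : Fin d} (hl : l ∈ p.act s)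
    {g : ℝ} (hg : (s : ℝ) ≤ g) :
    n2 (p.lev s g) (p.rdev v (s + p.hs s) (V.filter (fun a => R.c a = j)) l)
      ≤ 1 / 2 * √(p.mu (s + p.hs s) l)
        + 1 / 4 * (p.mu (s + p.hs s) l) ^ (1 / 10 : ℝ) * √(1 + p.nact (s + p.hs s) g) := by
  have e : p.rdev v (s + p.hs s) (V.filter (fun a => R.c a = j)) l = fun k =>
      (2 : ℝ) ^ (-(p.hs s : ℝ)) * p.rdev v s V l k +
        (dvf V (p.hs s) R.c (j + 1) (fun a => v a l * v a k) -
          dvf V (p.hs s) R.c j (fun a => v a l * v a k)) := by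
    funext k
    unfold Par.rdev
    rw [sum_child, p.mu_add, Real.rpow_neg (by norm_num), Real.rpow_natCast]
    split_ifs
    · ring
    · ring
  have h1 : n2 (p.lev s g) (p.rdev v (s + p.hs s) (V.filter (fun a => R.c a = j)) l) ≤
      (2 : ℝ) ^ (-(p.hs s : ℝ)) * (√(p.mu s l) + (p.mu s l) ^ (1 / 10 : ℝ) *
        √(1 + p.nact s g)) +
      ((√(4 * p.CR * ((p.lev s g).card + 3 * p.hs s + -(p.xx s l))) +
        (2 : ℝ) ^ (-(3 * (p.hs s : ℝ))) * √(p.mu (s + p.hs s) l)) +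
       (√(4 * p.CR * ((p.lev s g).card + 3 * p.hs s + -(p.xx s l))) +
        (2 : ℝ) ^ (-(3 * (p.hs s : ℝ))) * √(p.mu (s + p.hs s) l))) := by
    rw [e]
    refine (n2_add_le _ _ _).trans (add_le_add ?_ ?_)
    · rw [n2_smul, abs_of_pos (Rows.two_pos _)]
      exact mul_le_mul_of_nonneg_left (I.row l hl g hg) (Rows.two_pos _).le
    · refine (n2_sub_le _ _ _).trans (add_le_add ?_ ?_)
      · exact Rows.n2_dvf hv R I hj hl hg
      · exact Rows.n2_dvf hv R I hj.le hl hg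
  refine h1.trans ?_
  have hCR : p.CR ≤ (2 : ℝ) ^ ((p.hs s : ℝ) / 100) := by
    refine p.hCRh.trans (Rows.two_le ?_)
    have : (p.h0 : ℝ) ≤ p.hs s := by exact_mod_cast p.h0_le_hs s
    linarith
  have hJ := p.card_lev_le s hg
  have htr := p.card_tr_le s
  have h2 := Rows.row_real (h := p.hs s) (y := -(p.xx s l)) (CR := p.CR)
    (n' := p.nact (s + p.hs s) g) (n := p.nact s g) (J := (p.lev s g).card)
    (p.hs_ge s) (p.act_xx hl) hCR (Rows.nact_nonneg _ _)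
    (p.nact_le s g) (by linarith) (Nat.cast_nonneg _)
  rw [Rows.mu_add_eq, Rows.mu_eq]
  linarith

theorem child_row (hv : ∀ a, ∑ k, v a k ^ 2 ≤ 1) (R : Raw p v s V x y)
    (I : p.Inv v s V x y Lx Ly ε) {j : ℕ} (hj : j < 2 ^ p.hs s) :
    ∀ l ∈ p.act (s + p.hs s), ∀ g : ℝ, ((s + p.hs s : ℕ) : ℝ) ≤ g →
      n2 (p.lev (s + p.hs s) g) (p.rdev v (s + p.hs s) (V.filter (fun a => R.c a = j)) l)
        ≤ √(p.mu (s + p.hs s) l)
          + (p.mu (s + p.hs s) l) ^ (1 / 10 : ℝ) * √(1 + p.nact (s + p.hs s) g) := by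
  intro l hl g hg
  have hg' : (s : ℝ) ≤ g := by
    push_cast at hg
    have : (0 : ℝ) ≤ p.hs s := Nat.cast_nonneg _
    linarith
  refine (n2_mono (p.lev_anti s (p.hs s) g) _).trans ?_
  refine (child_row_old hv R I hj (p.act_anti s (p.hs s) hl) hg').trans ?_
  have h1 : 0 ≤ √(p.mu (s + p.hs s) l) := Real.sqrt_nonneg _
  have h2 : 0 ≤ (p.mu (s + p.hs s) l) ^ (1 / 10 : ℝ) * √(1 + p.nact (s + p.hs s) g) :=
    mul_nonneg (Real.rpow_nonneg (p.mu_pos _ _).le _) (Real.sqrt_nonneg _)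
  linarith

/-- energy of a child in a coordinate which was active before the round -/
theorem child_energy (hv : ∀ a, ∑ k, v a k ^ 2 ≤ 1) (R : Raw p v s V x y)
    (I : p.Inv v s V x y Lx Ly ε) {j : ℕ} (hj : j < 2 ^ p.hs s) {l : Fin d} (hl : l ∈ p.act s) :
    ∑ a ∈ V.filter (fun a => R.c a = j), v a l ^ 2 ≤ 2 * p.mu (s + p.hs s) l := by
  obtain ⟨g, hg1, hg2⟩ := p.exists_above l
  have hls : (s : ℝ) ≤ p.tau l := p.mem_act.1 hl
  have hg : (s : ℝ) ≤ g := by linarith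
  have hyl := p.act_xx hl
  have hh := p.hs_ge s
  have hlev : l ∈ p.lev s g := by
    rw [p.mem_lev]
    refine ⟨?_, hg1⟩
    have := p.eta_ge l
    linarith
  have h1 := child_row_old hv R I hj hl hg
  have h2 := abs_le_n2 hlev (p.rdev v (s + p.hs s) (V.filter (fun a => R.c a = j)) l)
  have h3 : p.nact (s + p.hs s) g ≤ (2 : ℝ) ^ (3 / 100 * -(p.xx s l)) := by
    refine (Rows.nact_anti s (p.hs s) g).trans ?_
    refine le_trans (le_of_eq ?_) (p.card_below_act hl)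
    unfold Par.nact
    simp only [hg2]
  have h4 := Rows.energy_real (h := p.hs s) (y := -(p.xx s l)) hh hyl h3
  rw [← Rows.mu_add_eq] at h4
  have h5 : p.rdev v (s + p.hs s) (V.filter (fun a => R.c a = j)) l l =
      ∑ a ∈ V.filter (fun a => R.c a = j), v a l ^ 2 - p.mu (s + p.hs s) l := by
    unfold Par.rdev
    simp only [if_true, sq]
  have h6 := le_abs_self (p.rdev v (s + p.hs s) (V.filter (fun a => R.c a = j)) l l)
  linarith

end Vale.Agent.P262F
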